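import Claimed.Agent.R213.Core

/-!
# Row 213 (S0438), MIDDLE layer: definitions

`E = EuclideanSpace ℝ (Fin n)`, `I = 𝓘(ℝ, E)`.  For a chart centre `z0 : M`:
* `pt z0 x`      : the point of `M` with coordinate `x` in the chart at `z0`;
* `fr z0 x`      : the frame `E →L T_{pt z0 x} M` (derivative of the inverse chart);
* `cofr z0 z`    : chart coordinates of tangent vectors at `z`;
* `tmk z0 (x,u)` : the tangent vector with chart coordinates `(x,u)`, as a point of `TangentBundle`;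
* `gC z0 x u w`  : the metric in the chart;
* `eC z0 y0 (x,u)` : `exp` read in the charts at `z0` (source) and `y0` (target), `dom z0 y0` its
  natural domain, `vC z0 y0 (x,u)` the velocity at time one in the chart at `y0`.

`Geom n M` is the GEOMETRY / MIDDLE boundary (what GEOMETRY has to deliver).

`PreBranch x u W z0 y0 U V N` : `W` is a smooth local right inverse of `exp` near `(x,u)`,
`NF x u` : there is one ("`u` is nonfocal"), `Hq x u e` : second derivative at `t = 0` of
`t ↦ |W (exp_x (t e)) (exp_x u)|^2 / 2`.   The goal of MIDDLE is `Geom n M → HasWeakMTW → SoftCore NF Hq`.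
-/

set_option autoImplicit false
open Claims Claims.C0370 Claims.C0370.WeakMTWGlobalSupport
open scoped Manifold ContDiff Topology
open Set Filter Manifold Bundle

namespace Claimed.Agent.R213.Mid

noncomputable section

abbrev EE (n : ℕ) := WeakMTW.Model n
abbrev II (n : ℕ) := WeakMTW.model n

variable {n : ℕ} {M : Type*}
    [MetricSpace M] [ChartedSpace (WeakMTW.Model n) M]
    [IsManifold (WeakMTW.model n) ∞ M]
    [RiemannianBundle (fun x : M => TangentSpace (WeakMTW.model n) x)]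

/-- the point with coordinate `x` in the chart at `z0`. -/
def pt (z0 : M) (x : EE n) : M := (extChartAt (II n) z0).symm x

/-- the frame at `pt z0 x` given by the chart at `z0`. -/
def fr (z0 : M) (x : EE n) : EE n →L[ℝ] TangentSpace (II n) (pt z0 x) :=
  mfderiv 𝓘(ℝ, EE n) (II n) (extChartAt (II n) z0).symm x

/-- chart coordinates of a tangent vector. -/
def cofr (z0 : M) (z : M) : TangentSpace (II n) z →L[ℝ] EE n :=
  mfderiv (II n) 𝓘(ℝ, EE n) (extChartAt (II n) z0) z

/-- the tangent vector with chart coordinates `(x,u)`. -/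
def tmk (z0 : M) (p : EE n × EE n) : TangentBundle (II n) M := ⟨pt z0 p.1, fr z0 p.1 p.2⟩

/-- the metric in the chart at `z0`. -/
def gC (z0 : M) (x u w : EE n) : ℝ := inner ℝ (fr z0 x u) (fr z0 x w)

/-- `exp` in charts. -/
def eC (z0 y0 : M) (p : EE n × EE n) : EE n :=
  extChartAt (II n) y0 (WeakMTW.exp (n := n) (pt z0 p.1) (fr z0 p.1 p.2))

/-- natural domain of `eC z0 y0`. -/
def dom (z0 y0 : M) : Set (EE n × EE n) :=
  {p | p.1 ∈ (extChartAt (II n) z0).target ∧
    WeakMTW.exp (n := n) (pt z0 p.1) (fr z0 p.1 p.2) ∈ (extChartAt (II n) y0).source}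

/-- velocity at time one, in the chart at `y0`. -/
def vC (z0 y0 : M) (p : EE n × EE n) : EE n := fderiv ℝ (eC z0 y0) p (0, p.2)

variable (n M) in
/-- The GEOMETRY / MIDDLE boundary. -/
structure Geom : Prop where
  /-- `t ↦ exp_x (t v)` is a complete geodesic with initial data `(x,v)`. -/
  geod : ∀ (x : M) (v : TangentSpace (II n) x),
    WeakMTW.CompleteGeodesicWithInitialData x v (fun t : ℝ => WeakMTW.exp x (t • v))
  /-- flow property. -/
  shift : ∀ (x : M) (v : TangentSpace (II n) x),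
    ∃ w : TangentSpace (II n) (WeakMTW.exp x v),
      ∀ s : ℝ, WeakMTW.exp (WeakMTW.exp x v) (s • w) = WeakMTW.exp x ((1 + s) • v)
  /-- Hopf-Rinow. -/
  hopf_rinow : ∀ x y : M, (Vmin (n := n) x y).Nonempty
  /-- no corner. -/
  nocorner : ∀ (y : M) (w₁ w₂ : TangentSpace (II n) y), ‖w₁‖ = ‖w₂‖ →
    dist (WeakMTW.exp y (-w₁)) (WeakMTW.exp y w₂) = 2 * ‖w₁‖ → w₁ = w₂
  /-- continuity of `exp` on the tangent bundle. -/
  cont_exp : Continuous (fun p : TangentBundle (II n) M => WeakMTW.exp p.1 p.2)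
  /-- smoothness of `exp` in charts. -/
  smooth : ∀ (z0 y0 : M) (p : EE n × EE n), p ∈ dom z0 y0 → ContDiffAt ℝ ∞ (eC z0 y0) p
  /-- first variation formula `d(|u|^2/2) = g_y(v, dy) - g_x(u, dx)`. -/
  first_var : ∀ (z0 y0 : M) (p : EE n × EE n), p ∈ dom z0 y0 → ∀ δ : EE n × EE n,
    fderiv ℝ (fun q : EE n × EE n => gC z0 q.1 q.2 q.2 / 2) p δ =
      gC y0 (eC z0 y0 p) (vC z0 y0 p) (fderiv ℝ (eC z0 y0) p δ) - gC z0 p.1 p.2 δ.1

/-- chart coordinates of a velocity field `W`. -/
def Uc (W : ∀ x' : M, M → TangentSpace (II n) x') (z0 y0 : M) (q : EE n × EE n) : EE n :=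
  cofr z0 (pt z0 q.1) (W (pt z0 q.1) (pt y0 q.2))

/-- `W` is a smooth local right inverse of `exp` near `(x,u)`, read in the charts at `z0`, `y0`. -/
structure PreBranch (x : M) (u : TangentSpace (II n) x)
    (W : ∀ x' : M, M → TangentSpace (II n) x') (z0 y0 : M) (U V : Set M)
    (N : Set (TangentBundle (II n) M)) : Prop where
  hU : IsOpen U
  hV : IsOpen V
  hUs : U ⊆ (extChartAt (II n) z0).source
  hVs : V ⊆ (extChartAt (II n) y0).source
  hx : x ∈ U
  hy : WeakMTW.exp x u ∈ V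
  hN : N ∈ 𝓝 (mk x u)
  hNW : ∀ x' ∈ U, ∀ y' ∈ V, N ∈ 𝓝 (mk x' (W x' y'))
  exp_W : ∀ x' ∈ U, ∀ y' ∈ V, WeakMTW.exp x' (W x' y') = y'
  W_exp : ∀ p ∈ N, p.1 ∈ U ∧ WeakMTW.exp p.1 p.2 ∈ V ∧ W p.1 (WeakMTW.exp p.1 p.2) = p.2
  smooth : ContDiffOn ℝ ∞ (Uc W z0 y0)
    ((extChartAt (II n) z0 '' U) ×ˢ (extChartAt (II n) y0 '' V))

/-- nonfocal: there is a smooth branch. -/
def NF (x : M) (u : TangentSpace (II n) x) : Prop :=
  ∃ W z0 y0 U V N, PreBranch x u W z0 y0 U V N

/-- second derivative along `t ↦ exp_x (t e)` of a function on `M`. -/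
def hess2 (f : M → ℝ) (x : M) (e : TangentSpace (II n) x) : ℝ :=
  deriv (fun t : ℝ => deriv (fun t' : ℝ => f (WeakMTW.exp x (t' • e))) t) 0

open Classical in
/-- the Hessian (quadratic form) at `x` of the branch of `d^2/2 (., exp_x u)`. -/
def Hq (x : M) (u e : TangentSpace (II n) x) : ℝ :=
  if h : NF x u then hess2 (fun x' => ‖h.choose x' (WeakMTW.exp x u)‖ ^ 2 / 2) x e else 0

/-- image of a set in the chart at `z0`. -/
def chU (z0 : M) (U : Set M) : Set (EE n) := extChartAt (II n) z0 '' U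

/-- chart expression of the branch cost `|W x' y'|^2/2`. -/
def cC (W : ∀ x' : M, M → TangentSpace (II n) x') (z0 y0 : M) (q : EE n × EE n) : ℝ :=
  gC z0 q.1 (Uc W z0 y0 q) (Uc W z0 y0 q) / 2

/-- the branch cost in normal coordinates: `((x,y),β) ↦ |W (exp_x β) y|^2/2`, all in charts. -/
def FN (W : ∀ x' : M, M → TangentSpace (II n) x') (z0 y0 : M)
    (q : (EE n × EE n) × EE n) : ℝ :=
  cC W z0 y0 (eC z0 z0 (q.1.1, q.2), q.1.2)

/-- fibre derivative of `exp_x` read in the chart at `y0`. -/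
def Bf (x y0 : M) (v : TangentSpace (II n) x) : TangentSpace (II n) x →L[ℝ] EE n :=
  fderiv ℝ (fun w : TangentSpace (II n) x => extChartAt (II n) y0 (WeakMTW.exp x w)) v

end

end Claimed.Agent.R213.Mid
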