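import Claimed.Agent.R213.Mid.ChartExp
import Claimed.Agent.R213.Calc.IFT

/-!
# Row 213, MIDDLE layer, file M4: nonfocal <-> the fibre derivative of `exp` is invertible

`Bf x y0 v = D (chart_y0 ∘ exp_x)(v) : T_x M →L E`.
Sketches.  `Bf_eq`: `chart_y0 (exp x w) = eC z0 y0 (chart x, cofr z0 x w)` (`eC_chart`), chain rule.
`preBranch_of_invertible`: `Calc.ift_param` for `f = eC z0 y0` at `p0 = (chart x, cofr z0 x v)` gives
`Ŵ, S, R`; intersect `S` with `dom z0 y0`; choose open `U ∋ x`, `V ∋ exp x v` inside the chart domains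
with `chU z0 U ×ˢ chU y0 V ⊆ R`; `W x' y' := (cofr z0 x').inverse (Ŵ (chart x', chart y'))`
(`ContinuousLinearMap.inverse`; `cofr z0 x'` is bijective for `x'` in the chart domain);
`N := tmk z0 '' {p ∈ S | p.1 ∈ chU z0 U ∧ eC z0 y0 p ∈ chU y0 V}` (open by `isOpen_tmk_image`).
`invertible_of_nf`: for a `PreBranch` in charts `z0', y0'`, `ŷ ↦ cofr.. (W x (pt y0 ŷ))` is
differentiable at `chart_y0 (exp x v)` (change of the target chart is smooth, `x` is fixed) and is a right
inverse of `chart_y0 ∘ exp_x`, so `Bf` is onto, hence bijective (equal finite dimensions).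
-/

set_option autoImplicit false
set_option linter.unusedSectionVars false
open Claims Claims.C0370 Claims.C0370.WeakMTWGlobalSupport
open scoped Manifold ContDiff Topology
open Set Filter Manifold Bundle

namespace Claimed.Agent.R213.Mid

noncomputable section

variable {n : ℕ} {M : Type*}
    [MetricSpace M] [ChartedSpace (WeakMTW.Model n) M]
    [IsManifold (WeakMTW.model n) ∞ M]
    [RiemannianBundle (fun x : M => TangentSpace (WeakMTW.model n) x)]
    [IsContMDiffRiemannianBundle (WeakMTW.model n) ∞ (WeakMTW.Model n)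
      (fun x : M => TangentSpace (WeakMTW.model n) x)]
    [IsRiemannianManifold (WeakMTW.model n) M]

section generic

variable {E F : Type*} [NormedAddCommGroup E] [NormedSpace ℝ E] [CompleteSpace E]
  [NormedAddCommGroup F] [NormedSpace ℝ F] [CompleteSpace F]

theorem isInvertible_of_bijective (L : E →L[ℝ] F) (h : Function.Bijective L) : L.IsInvertible :=
  ⟨ContinuousLinearEquiv.ofBijective L (LinearMap.ker_eq_bot.2 h.1) (LinearMap.range_eq_top.2 h.2),
    ContinuousLinearEquiv.coe_ofBijective _ _ _⟩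

/-- `L₀` is a reference isomorphism (this avoids talking about the dimension of `E`). -/
theorem isInvertible_of_surjective [FiniteDimensional ℝ F] {L₀ : E →L[ℝ] F}
    (h₀ : L₀.IsInvertible) (L : E →L[ℝ] F) (h : Function.Surjective L) : L.IsInvertible := by
  obtain ⟨e, rfl⟩ := h₀
  have h1 : Function.Surjective ((L.comp (e.symm : F →L[ℝ] E) : F →L[ℝ] F) : F →ₗ[ℝ] F) :=
    h.comp e.symm.surjective
  have h2 : (L.comp (e.symm : F →L[ℝ] E)).IsInvertible :=
    isInvertible_of_bijective _ ⟨LinearMap.injective_iff_surjective.2 h1, h1⟩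
  have h3 : L = (L.comp (e.symm : F →L[ℝ] E)).comp (e : E →L[ℝ] F) := by
    ext x; simp
  rw [h3]
  exact h2.comp ContinuousLinearMap.isInvertible_equiv

theorem isInvertible_of_injective [FiniteDimensional ℝ F] {L₀ : E →L[ℝ] F}
    (h₀ : L₀.IsInvertible) (L : E →L[ℝ] F) (h : Function.Injective L) : L.IsInvertible := by
  obtain ⟨e, rfl⟩ := h₀
  have h1 : Function.Injective ((L.comp (e.symm : F →L[ℝ] E) : F →L[ℝ] F) : F →ₗ[ℝ] F) :=
    h.comp e.symm.injective
  have h2 : (L.comp (e.symm : F →L[ℝ] E)).IsInvertible :=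
    isInvertible_of_bijective _ ⟨h1, LinearMap.injective_iff_surjective.1 h1⟩
  have h3 : L = (L.comp (e.symm : F →L[ℝ] E)).comp (e : E →L[ℝ] F) := by
    ext x; simp
  rw [h3]
  exact h2.comp ContinuousLinearMap.isInvertible_equiv

end generic

theorem cofr_isInvertible {z0 z : M} (hz : z ∈ (extChartAt (II n) z0).source) :
    (cofr (n := n) z0 z).IsInvertible :=
  isInvertible_of_bijective _ ⟨cofr_injective hz, cofr_surjective hz⟩

/-- `PreBranch` only depends on the point `mk x u` of `TM`. -/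
theorem PreBranch.congr {x x' : M} {u : TangentSpace (II n) x} {u' : TangentSpace (II n) x'}
    {W : ∀ x' : M, M → TangentSpace (II n) x'} {z0 y0 : M} {U V : Set M}
    {N : Set (TangentBundle (II n) M)} (h : PreBranch x u W z0 y0 U V N)
    (e : R213.mk x u = R213.mk x' u') : PreBranch x' u' W z0 y0 U V N := by
  cases e
  exact h

/-- the affine map `w ↦ (chart x, cofr z0 x w)`. -/
theorem hasFDerivAt_coord (z0 x : M) (v : TangentSpace (II n) x) :
    HasFDerivAt (fun w : TangentSpace (II n) x => (extChartAt (II n) z0 x, cofr z0 x w))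
      ((0 : TangentSpace (II n) x →L[ℝ] EE n).prod (cofr z0 x)) v :=
  (hasFDerivAt_const _ _).prodMk (cofr z0 x).hasFDerivAt

theorem contDiff_coord (z0 x : M) :
    ContDiff ℝ ∞ (fun w : TangentSpace (II n) x => (extChartAt (II n) z0 x, cofr z0 x w)) :=
  contDiff_const.prodMk (ContinuousLinearMap.contDiff (𝕜 := ℝ) (E := TangentSpace (II n) x)
    (F := EE n) (n := ∞) (cofr z0 x))

theorem chart_exp_eq (z0 y0 : M) {x : M} (hx : x ∈ (extChartAt (II n) z0).source) :
    (fun w : TangentSpace (II n) x => extChartAt (II n) y0 (WeakMTW.exp x w))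
      = (eC z0 y0) ∘ (fun w : TangentSpace (II n) x => (extChartAt (II n) z0 x, cofr z0 x w)) := by
  funext w
  exact (eC_chart y0 hx w).symm

theorem differentiableAt_chart_exp (hG : Geom n M) (x : M) (v : TangentSpace (II n) x) (y0 : M)
    (hy : WeakMTW.exp x v ∈ (extChartAt (II n) y0).source) :
    ContDiffAt ℝ ∞ (fun w : TangentSpace (II n) x => extChartAt (II n) y0 (WeakMTW.exp x w)) v := by
  have hx : x ∈ (extChartAt (II n) x).source := mem_extChartAt_source x
  rw [chart_exp_eq x y0 hx]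
  exact (hG.smooth x y0 _ (mem_dom_chart hx v hy)).comp v (contDiff_coord x x).contDiffAt

theorem Bf_eq (hG : Geom n M) {x : M} (v : TangentSpace (II n) x) {z0 y0 : M}
    (hx : x ∈ (extChartAt (II n) z0).source)
    (hy : WeakMTW.exp x v ∈ (extChartAt (II n) y0).source) (k : TangentSpace (II n) x) :
    Bf x y0 v k = fderiv ℝ (eC z0 y0) (extChartAt (II n) z0 x, cofr z0 x v) (0, cofr z0 x k) := by
  have h1 : DifferentiableAt ℝ (eC z0 y0) (extChartAt (II n) z0 x, cofr z0 x v) :=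
    (hG.smooth z0 y0 _ (mem_dom_chart hx v hy)).differentiableAt (by simp)
  have h2 := h1.hasFDerivAt.comp v (hasFDerivAt_coord z0 x v)
  unfold Bf
  rw [chart_exp_eq z0 y0 hx, h2.fderiv]
  rfl

theorem Uc_chart (W : ∀ x' : M, M → TangentSpace (II n) x') {z1 : M} (y1 : M) {x : M}
    (hx1 : x ∈ (extChartAt (II n) z1).source) (c : EE n) :
    Uc W z1 y1 (extChartAt (II n) z1 x, c) = cofr z1 x (W x (pt y1 c)) := by
  have : ∀ z : M, z = x → cofr z1 z (W z (pt y1 c)) = cofr z1 x (W x (pt y1 c)) := by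
    rintro _ rfl; rfl
  exact this _ (pt_chart hx1)

theorem preBranch_of_invertible (hG : Geom n M) {x : M} {v : TangentSpace (II n) x} {z0 y0 : M}
    (hx : x ∈ (extChartAt (II n) z0).source)
    (hy : WeakMTW.exp x v ∈ (extChartAt (II n) y0).source) (hB : (Bf x y0 v).IsInvertible) :
    ∃ W U V N, PreBranch x v W z0 y0 U V N := by
  have hp0 : (extChartAt (II n) z0 x, cofr z0 x v) ∈ dom (n := n) z0 y0 := mem_dom_chart hx v hy
  have hf : ContDiffAt ℝ ∞ (eC z0 y0) (extChartAt (II n) z0 x, cofr z0 x v) :=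
    hG.smooth z0 y0 _ hp0
  have hB' : (fderiv ℝ (fun u : EE n => eC z0 y0 (extChartAt (II n) z0 x, u))
      (cofr z0 x v)).IsInvertible := by
    have h1 : HasFDerivAt (fun u : EE n => eC z0 y0 (extChartAt (II n) z0 x, u))
        ((fderiv ℝ (eC z0 y0) (extChartAt (II n) z0 x, cofr z0 x v)).comp
          (ContinuousLinearMap.inr ℝ (EE n) (EE n))) (cofr z0 x v) :=
      HasFDerivAt.comp (g := eC z0 y0) (cofr z0 x v)
        (hf.differentiableAt (by simp)).hasFDerivAt
        (hasFDerivAt_prodMk_right (extChartAt (II n) z0 x) (cofr z0 x v))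
    rw [h1.fderiv]
    obtain ⟨e, he⟩ := cofr_isInvertible hx
    have h2 : (fderiv ℝ (eC z0 y0) (extChartAt (II n) z0 x, cofr z0 x v)).comp
          (ContinuousLinearMap.inr ℝ (EE n) (EE n))
        = (Bf x y0 v).comp (e.symm : EE n →L[ℝ] TangentSpace (II n) x) := by
      ext1 u
      rw [ContinuousLinearMap.comp_apply, ContinuousLinearMap.comp_apply, Bf_eq hG v hx hy, ← he]
      simp
    rw [h2]
    exact hB.comp ContinuousLinearMap.isInvertible_equiv
  obtain ⟨Wh, S, R, hS, hR, hpS, hWs, -, hRS, hSR, -⟩ :=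
    Calc.ift_param (eC z0 y0) (extChartAt (II n) z0 x, cofr z0 x v)
      (by
        filter_upwards [(isOpen_dom hG z0 y0).mem_nhds hp0] with p hp
        exact hG.smooth z0 y0 p hp) hB'
  have hdom : IsOpen (dom (n := n) z0 y0) := isOpen_dom hG z0 y0
  have heC0 : eC z0 y0 (extChartAt (II n) z0 x, cofr z0 x v)
      = extChartAt (II n) y0 (WeakMTW.exp x v) := eC_chart y0 hx v
  -- shrink `R`
  have hR' : IsOpen (R ∩ (fun q : EE n × EE n => (q.1, Wh q)) ⁻¹' dom (n := n) z0 y0) :=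
    (continuousOn_fst.prodMk hWs.continuousOn).isOpen_inter_preimage hR hdom
  have hmemR' : (extChartAt (II n) z0 x, extChartAt (II n) y0 (WeakMTW.exp x v))
      ∈ R ∩ (fun q : EE n × EE n => (q.1, Wh q)) ⁻¹' dom (n := n) z0 y0 := by
    obtain ⟨a1, a2⟩ := hSR _ hpS
    rw [heC0] at a1 a2
    refine ⟨a1, ?_⟩
    show (extChartAt (II n) z0 x, Wh _) ∈ dom (n := n) z0 y0
    simp only at a2
    rw [a2]
    exact hp0
  obtain ⟨A, B, hA, hBo, hxA, hyB, hAB⟩ := isOpen_prod_iff.1 hR' _ _ hmemR'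
  set U : Set M := (extChartAt (II n) z0).source ∩ extChartAt (II n) z0 ⁻¹' A with hUdef
  set V : Set M := (extChartAt (II n) y0).source ∩ extChartAt (II n) y0 ⁻¹' B with hVdef
  have hU : IsOpen U :=
    (continuousOn_extChartAt z0).isOpen_inter_preimage (isOpen_extChartAt_source z0) hA
  have hV : IsOpen V :=
    (continuousOn_extChartAt y0).isOpen_inter_preimage (isOpen_extChartAt_source y0) hBo
  have hUs : U ⊆ (extChartAt (II n) z0).source := inter_subset_left
  have hVs : V ⊆ (extChartAt (II n) y0).source := inter_subset_left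
  have hxU : x ∈ U := ⟨hx, hxA⟩
  have hyV : WeakMTW.exp x v ∈ V := ⟨hy, hyB⟩
  set W : ∀ x' : M, M → TangentSpace (II n) x' := fun x' y' =>
    (cofr z0 x').inverse (Wh (extChartAt (II n) z0 x', extChartAt (II n) y0 y')) with hWdef
  have hcW : ∀ x' ∈ U, ∀ y' : M, cofr z0 x' (W x' y')
      = Wh (extChartAt (II n) z0 x', extChartAt (II n) y0 y') := fun x' hx' y' =>
    (cofr_isInvertible (hUs hx')).self_apply_inverse _
  set S2 : Set (EE n × EE n) := ((S ∩ dom (n := n) z0 y0) ∩ Prod.fst ⁻¹' chU z0 U)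
    ∩ ((S ∩ dom (n := n) z0 y0) ∩ eC z0 y0 ⁻¹' chU y0 V) with hS2def
  have hS2 : IsOpen S2 := by
    have hD : IsOpen (S ∩ dom (n := n) z0 y0) := hS.inter hdom
    have hc : ContinuousOn (eC z0 y0) (S ∩ dom (n := n) z0 y0) := fun p hp =>
      (hG.smooth z0 y0 p hp.2).continuousAt.continuousWithinAt
    exact (hD.inter ((isOpen_chU hU hUs).preimage continuous_fst)).inter
      (hc.isOpen_inter_preimage hD (isOpen_chU hV hVs))
  have hS2t : ∀ p ∈ S2, p.1 ∈ (extChartAt (II n) z0).target := fun p hp =>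
    chU_subset_target hUs hp.1.2
  set N : Set (TangentBundle (II n) M) := tmk z0 '' S2 with hNdef
  have hN : IsOpen N := isOpen_tmk_image hS2 hS2t
  -- the basic fact
  have hkey : ∀ x' ∈ U, ∀ y' ∈ V,
      (extChartAt (II n) z0 x', Wh (extChartAt (II n) z0 x', extChartAt (II n) y0 y')) ∈ S2 ∧
      eC z0 y0 (extChartAt (II n) z0 x',
        Wh (extChartAt (II n) z0 x', extChartAt (II n) y0 y')) = extChartAt (II n) y0 y' := by
    intro x' hx' y' hy'
    have hq : (extChartAt (II n) z0 x', extChartAt (II n) y0 y')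
        ∈ R ∩ (fun q : EE n × EE n => (q.1, Wh q)) ⁻¹' dom (n := n) z0 y0 :=
      hAB ⟨hx'.2, hy'.2⟩
    obtain ⟨b1, b2⟩ := hRS _ hq.1
    have b3 : (extChartAt (II n) z0 x',
        Wh (extChartAt (II n) z0 x', extChartAt (II n) y0 y')) ∈ dom (n := n) z0 y0 := hq.2
    refine ⟨⟨⟨⟨b1, b3⟩, mem_image_of_mem _ hx'⟩, ⟨⟨b1, b3⟩, ?_⟩⟩, b2⟩
    show eC z0 y0 _ ∈ chU y0 V
    rw [b2]
    exact mem_image_of_mem _ hy'
  have hmkW : ∀ x' ∈ U, ∀ y' ∈ V, R213.mk x' (W x' y') ∈ N := by
    intro x' hx' y' hy'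
    refine ⟨_, (hkey x' hx' y' hy').1, ?_⟩
    rw [← hcW x' hx' y', tmk_chart (hUs hx')]
  refine ⟨W, U, V, N, ?_⟩
  refine
    { hU := hU, hV := hV, hUs := hUs, hVs := hVs, hx := hxU, hy := hyV
      hN := ?_, hNW := ?_, exp_W := ?_, W_exp := ?_, smooth := ?_ }
  · apply hN.mem_nhds
    refine ⟨(extChartAt (II n) z0 x, cofr z0 x v), ?_, tmk_chart hx v⟩
    refine ⟨⟨⟨hpS, hp0⟩, mem_image_of_mem _ hxU⟩, ⟨⟨hpS, hp0⟩, ?_⟩⟩
    show eC z0 y0 _ ∈ chU y0 V
    rw [heC0]
    exact mem_image_of_mem _ hyV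
  · intro x' hx' y' hy'
    exact hN.mem_nhds (hmkW x' hx' y' hy')
  · intro x' hx' y' hy'
    obtain ⟨c1, c2⟩ := hkey x' hx' y' hy'
    have c3 := pt_eC c1.1.1.2
    rw [c2, pt_chart (hVs hy')] at c3
    simp only at c3
    rw [← hcW x' hx' y', exp_tmk_chart (hUs hx')] at c3
    exact c3.symm
  · rintro _ ⟨s, hs, rfl⟩
    have d1 : pt z0 s.1 ∈ U := pt_mem_of_mem_chU hUs hs.1.2
    have d2 : pt y0 (eC z0 y0 s) = WeakMTW.exp (n := n) (pt z0 s.1) (fr z0 s.1 s.2) :=
      pt_eC hs.1.1.2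
    have d3 : pt y0 (eC z0 y0 s) ∈ V := pt_mem_of_mem_chU hVs hs.2.2
    refine ⟨d1, ?_, ?_⟩
    · show WeakMTW.exp (n := n) (pt z0 s.1) (fr z0 s.1 s.2) ∈ V
      rw [← d2]; exact d3
    · show W (pt z0 s.1) (WeakMTW.exp (n := n) (pt z0 s.1) (fr z0 s.1 s.2)) = fr z0 s.1 s.2
      apply cofr_injective (hUs d1)
      rw [hcW _ d1, ← d2, chart_pt (hS2t s hs), chart_pt (eC_mem_target hs.1.1.2),
        cofr_fr (hS2t s hs)]
      exact (hSR s hs.1.1.1).2
  · have hsub : (extChartAt (II n) z0 '' U) ×ˢ (extChartAt (II n) y0 '' V) ⊆ R := by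
      rintro ⟨a, b⟩ ⟨⟨x', hx', rfl⟩, ⟨y', hy', rfl⟩⟩
      exact (hAB (show (extChartAt (II n) z0 x', extChartAt (II n) y0 y') ∈ A ×ˢ B from
        ⟨hx'.2, hy'.2⟩)).1
    refine (hWs.mono hsub).congr ?_
    rintro ⟨a, b⟩ ⟨⟨x', hx', rfl⟩, ⟨y', hy', rfl⟩⟩
    rw [Uc_chart W y0 (hUs hx'), pt_chart (hVs hy'), hcW x' hx']

theorem nf_of_invertible (hG : Geom n M) {x : M} {v : TangentSpace (II n) x} {y0 : M}
    (hy : WeakMTW.exp x v ∈ (extChartAt (II n) y0).source) (hB : (Bf x y0 v).IsInvertible) :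
    NF x v := by
  obtain ⟨W, U, V, N, h⟩ := preBranch_of_invertible hG (mem_extChartAt_source x) hy hB
  exact ⟨W, x, y0, U, V, N, h⟩

theorem invertible_of_nf (hG : Geom n M) {x : M} {v : TangentSpace (II n) x} (h : NF x v) {y0 : M}
    (hy : WeakMTW.exp x v ∈ (extChartAt (II n) y0).source) : (Bf x y0 v).IsInvertible := by
  obtain ⟨W, z1, y1, U, V, N, hb⟩ := h
  have hx1 : x ∈ (extChartAt (II n) z1).source := hb.hUs hb.hx
  have hy1 : WeakMTW.exp x v ∈ (extChartAt (II n) y1).source := hb.hVs hb.hy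
  have hWv : W x (WeakMTW.exp x v) = v := (hb.W_exp _ (mem_of_mem_nhds hb.hN)).2.2
  have hpty : pt y0 (extChartAt (II n) y0 (WeakMTW.exp x v)) = WeakMTW.exp x v := pt_chart hy
  have hyt : extChartAt (II n) y0 (WeakMTW.exp x v) ∈ (extChartAt (II n) y0).target :=
    (extChartAt (II n) y0).map_source hy
  -- the branch in coordinates, as a function of the target point
  set ψ : EE n → EE n := fun a =>
    Uc W z1 y1 (extChartAt (II n) z1 x, extChartAt (II n) y1 (pt y0 a)) with hψdef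
  have hψ : DifferentiableAt ℝ ψ (extChartAt (II n) y0 (WeakMTW.exp x v)) := by
    have hopen : IsOpen ((extChartAt (II n) z1 '' U) ×ˢ (extChartAt (II n) y1 '' V)) :=
      (isOpen_chU hb.hU hb.hUs).prod (isOpen_chU hb.hV hb.hVs)
    have hmem : (extChartAt (II n) z1 x,
        extChartAt (II n) y1 (pt y0 (extChartAt (II n) y0 (WeakMTW.exp x v))))
        ∈ (extChartAt (II n) z1 '' U) ×ˢ (extChartAt (II n) y1 '' V) := by
      rw [hpty]
      exact ⟨mem_image_of_mem _ hb.hx, mem_image_of_mem _ hb.hy⟩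
    have h1 : ContDiffAt ℝ ∞ (Uc W z1 y1) (extChartAt (II n) z1 x,
        extChartAt (II n) y1 (pt y0 (extChartAt (II n) y0 (WeakMTW.exp x v)))) :=
      hb.smooth.contDiffAt (hopen.mem_nhds hmem)
    have h2 : ContDiffAt ℝ ∞ (fun a : EE n =>
        (extChartAt (II n) z1 x, extChartAt (II n) y1 (pt y0 a)))
        (extChartAt (II n) y0 (WeakMTW.exp x v)) :=
      contDiffAt_const.prodMk (contDiffAt_chart_change hy hy1)
    exact (ContDiffAt.comp (g := Uc W z1 y1) (extChartAt (II n) y0 (WeakMTW.exp x v))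
      h1 h2).differentiableAt (by simp)
  have hψ0 : ψ (extChartAt (II n) y0 (WeakMTW.exp x v)) = cofr z1 x v := by
    simp only [hψdef]
    rw [Uc_chart W y1 hx1, hpty, pt_chart hy1, hWv]
  -- `ψ` is a right inverse of `eC z1 y0 (x̂, ·)`
  have hev : ∀ᶠ a in 𝓝 (extChartAt (II n) y0 (WeakMTW.exp x v)),
      eC z1 y0 (extChartAt (II n) z1 x, ψ a) = a := by
    have e1 : ∀ᶠ a in 𝓝 (extChartAt (II n) y0 (WeakMTW.exp x v)),
        a ∈ (extChartAt (II n) y0).target := (isOpen_extChartAt_target y0).mem_nhds hyt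
    have e2 : ∀ᶠ a in 𝓝 (extChartAt (II n) y0 (WeakMTW.exp x v)), pt y0 a ∈ V := by
      have hc : ContinuousAt (pt (n := n) y0) (extChartAt (II n) y0 (WeakMTW.exp x v)) :=
        (continuousOn_pt y0).continuousAt ((isOpen_extChartAt_target y0).mem_nhds hyt)
      apply hc.eventually_mem
      rw [hpty]
      exact hb.hV.mem_nhds hb.hy
    filter_upwards [e1, e2] with a a1 a2
    simp only [hψdef]
    rw [Uc_chart W y1 hx1, pt_chart (hb.hVs a2), eC_chart y0 hx1, hb.exp_W x hb.hx _ a2,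
      chart_pt a1]
  have hE : DifferentiableAt ℝ (eC z1 y0) (extChartAt (II n) z1 x, cofr z1 x v) :=
    (hG.smooth z1 y0 _ (mem_dom_chart hx1 v hy)).differentiableAt (by simp)
  have hin : HasFDerivAt (fun a : EE n => (extChartAt (II n) z1 x, ψ a))
      ((0 : EE n →L[ℝ] EE n).prod (fderiv ℝ ψ (extChartAt (II n) y0 (WeakMTW.exp x v))))
      (extChartAt (II n) y0 (WeakMTW.exp x v)) :=
    (hasFDerivAt_const _ _).prodMk hψ.hasFDerivAt
  have hcomp : HasFDerivAt (fun a : EE n => eC z1 y0 (extChartAt (II n) z1 x, ψ a))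
      ((fderiv ℝ (eC z1 y0) (extChartAt (II n) z1 x, cofr z1 x v)).comp
        ((0 : EE n →L[ℝ] EE n).prod (fderiv ℝ ψ (extChartAt (II n) y0 (WeakMTW.exp x v)))))
      (extChartAt (II n) y0 (WeakMTW.exp x v)) := by
    have hE' : HasFDerivAt (eC z1 y0) (fderiv ℝ (eC z1 y0) (extChartAt (II n) z1 x, cofr z1 x v))
        (extChartAt (II n) z1 x, ψ (extChartAt (II n) y0 (WeakMTW.exp x v))) := by
      rw [hψ0]; exact hE.hasFDerivAt
    exact HasFDerivAt.comp (g := eC z1 y0) (extChartAt (II n) y0 (WeakMTW.exp x v)) hE' hin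
  have hid : HasFDerivAt (fun a : EE n => eC z1 y0 (extChartAt (II n) z1 x, ψ a))
      (ContinuousLinearMap.id ℝ (EE n)) (extChartAt (II n) y0 (WeakMTW.exp x v)) :=
    (hasFDerivAt_id _).congr_of_eventuallyEq hev
  have hkey := hcomp.unique hid
  apply isInvertible_of_surjective (cofr_isInvertible hx1)
  intro b
  obtain ⟨k, hk⟩ := cofr_surjective hx1
    (fderiv ℝ ψ (extChartAt (II n) y0 (WeakMTW.exp x v)) b)
  refine ⟨k, ?_⟩
  rw [Bf_eq hG v hx1 hy, hk]
  have := congrArg (fun L : EE n →L[ℝ] EE n => L b) hkey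
  simpa using this

/-- a nonfocal velocity has a branch in any prescribed pair of charts. -/
theorem preBranch_in_charts (hG : Geom n M) {x : M} {v : TangentSpace (II n) x} (h : NF x v)
    {z0 y0 : M} (hx : x ∈ (extChartAt (II n) z0).source)
    (hy : WeakMTW.exp x v ∈ (extChartAt (II n) y0).source) :
    ∃ W U V N, PreBranch x v W z0 y0 U V N :=
  preBranch_of_invertible hG hx hy (invertible_of_nf hG h hy)

/-- a focal velocity has a kernel vector. -/
theorem exists_kernel_of_not_nf (hG : Geom n M) {x : M} {v : TangentSpace (II n) x} (h : ¬ NF x v)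
    {y0 : M} (hy : WeakMTW.exp x v ∈ (extChartAt (II n) y0).source) :
    ∃ k : TangentSpace (II n) x, k ≠ 0 ∧ Bf x y0 v k = 0 := by
  by_contra hcon
  have hinj : Function.Injective (Bf x y0 v) := by
    intro a b hab
    by_contra hne
    exact hcon ⟨a - b, sub_ne_zero.2 hne, by rw [map_sub, hab, sub_self]⟩
  exact h (nf_of_invertible hG hy
    (isInvertible_of_injective (cofr_isInvertible (mem_extChartAt_source x)) (Bf x y0 v) hinj))

theorem nf_zero (hG : Geom n M) (x : M) : NF x (0 : TangentSpace (II n) x) := by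
  have hx : x ∈ (extChartAt (II n) x).source := mem_extChartAt_source x
  have hxt : extChartAt (II n) x x ∈ (extChartAt (II n) x).target :=
    (extChartAt (II n) x).map_source hx
  have hy : WeakMTW.exp x (0 : TangentSpace (II n) x) ∈ (extChartAt (II n) x).source := by
    have h1 := (zero_mem_dom hG hxt).2
    have h2 := exp_tmk_chart hx (0 : TangentSpace (II n) x)
    rw [map_zero] at h2
    simp only at h1
    rw [h2] at h1
    exact h1
  apply nf_of_invertible hG hy
  have : Bf x x (0 : TangentSpace (II n) x) = cofr x x := by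
    ext1 k
    rw [Bf_eq hG _ hx hy, map_zero, fderiv_eC_zero hG hxt]
    simp
  rw [this]
  exact cofr_isInvertible hx

theorem isOpen_nf : IsOpen {p : TangentBundle (II n) M | NF p.1 p.2} := by
  rw [isOpen_iff_mem_nhds]
  rintro ⟨x, u⟩ ⟨W, z0, y0, U, V, N, h⟩
  have h1 : interior N ∈ 𝓝 (R213.mk x u) := interior_mem_nhds.2 h.hN
  refine Filter.mem_of_superset h1 ?_
  rintro ⟨x', u'⟩ hp
  have hpN : (R213.mk x' u') ∈ N := interior_subset hp
  obtain ⟨a1, a2, -⟩ := h.W_exp _ hpN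
  exact ⟨W, z0, y0, U, V, N,
    { hU := h.hU, hV := h.hV, hUs := h.hUs, hVs := h.hVs, hx := a1, hy := a2
      hN := mem_interior_iff_mem_nhds.1 hp
      hNW := h.hNW, exp_W := h.exp_W, W_exp := h.W_exp, smooth := h.smooth }⟩

/-- Gauss lemma: the kernel of `D exp_x (v)` is orthogonal to `v`. -/
theorem gauss_Bf (hG : Geom n M) {x : M} (v k : TangentSpace (II n) x) {y0 : M}
    (hy : WeakMTW.exp x v ∈ (extChartAt (II n) y0).source) (hk : Bf x y0 v k = 0) :
    inner ℝ k v = 0 := by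
  have hx : x ∈ (extChartAt (II n) x).source := mem_extChartAt_source x
  have h1 := gauss hG (mem_dom_chart hx v hy) (cofr x x k)
  rw [← Bf_eq hG v hx hy k, hk] at h1
  have h2 : ∀ (a b : EE n), gC y0 a b 0 = 0 := by
    intro a b
    simp [gC]
  rw [h2] at h1
  rw [real_inner_comm, inner_eq_gC hx v k]
  exact h1

end

end Claimed.Agent.R213.Mid
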