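import Claimed.Agent.R213.Mid.Normal
import Claimed.Agent.R213.Mid.NFInv

/-!
# Row 213, MIDDLE layer, file M7: `IsBranch`, continuity / homogeneity / bilinearity / smoothness of `Hq`

Fields `branch`, `cont_H`, `hom_H` of `SoftCore`.
Sketches.  Everything follows from `Calc.exists_second_form`, `Calc.taylor_unif`, `Calc.d2_bound` applied to
`F = FN W z0 y0` at `p0 = (chart x, chart (exp x u))` (`contDiffAt_FN`), `Hq_eq_d2`, `FN_eq`, `fderiv_FN_zero`,
`inner_eq_gC`, `exists_norm_bounds` (comparison of `‖e‖` and `‖cofr z0 x' e‖`), `tendsto_mk_iff`.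
`isBranch`: shrink `U, V` to small balls in the charts (`PreBranch.shrink`), `U₀` smaller so that
`exp x' e ∈ U'` for `x' ∈ U₀`, `‖e‖ < r` (continuity of `eC z0 z0` at `(chart x, 0)`).
`cont_Hq`: for large `k`, `mk (x k) (u k) ∈ N`, so `u k = W (x k) (exp (x k) (u k))` and
`Hq (x k) (u k) (e k) = Q p_k ê_k ê_k` with `p_k → p0`, `ê_k → ê`.
`contDiffAt_Hq`: `Hq x w e = Q (chart x, eC z0 y0 (chart x, cofr z0 x w)) ê ê` for `w` near `u`.
`exists_Hop`: Riesz (`InnerProductSpace.toDual` / `continuousLinearMapOfBilin`) for the form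
`(e,e') ↦ Q p0 (cofr e) (cofr e')` on the finite dimensional inner product space `T_x M`.
-/

set_option autoImplicit false
set_option linter.unusedSectionVars false
open Claims Claims.C0370 Claims.C0370.WeakMTWGlobalSupport
open scoped Manifold ContDiff Topology
open Set Filter Manifold Bundle

namespace Claimed.Agent.R213.Mid

noncomputable section

variable {n : ℕ} {M : Type*}
    [MetricSpace M] [ChartedSpace (WeakMTW.Model n) M]
    [IsManifold (WeakMTW.model n) ∞ M]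
    [RiemannianBundle (fun x : M => TangentSpace (WeakMTW.model n) x)]
    [IsContMDiffRiemannianBundle (WeakMTW.model n) ∞ (WeakMTW.Model n)
      (fun x : M => TangentSpace (WeakMTW.model n) x)]
    [IsRiemannianManifold (WeakMTW.model n) M]

theorem continuous_mk_fibre (x : M) :
    Continuous (fun w : TangentSpace (II n) x => mk x w) :=
  FiberBundle.continuous_totalSpaceMk (EE n) (TangentSpace (II n) : M → Type _) x

/-- `d2` is homogeneous of degree two (no regularity needed). -/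
theorem d2_smul {P E : Type*} [NormedAddCommGroup P] [NormedSpace ℝ P]
    [NormedAddCommGroup E] [NormedSpace ℝ E] (F : P × E → ℝ) (p : P) (h : E) (a : ℝ) :
    Calc.d2 F p (a • h) = a ^ 2 * Calc.d2 F p h := by
  unfold Calc.d2
  have h1 : ∀ t : ℝ, deriv (fun t' : ℝ => F (p, t' • a • h)) t
      = a * deriv (fun t' : ℝ => F (p, t' • h)) (a * t) := by
    intro t
    have h2 : (fun t' : ℝ => F (p, t' • a • h)) = fun t' : ℝ => (fun s : ℝ => F (p, s • h)) (a * t') := by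
      funext t'
      rw [smul_smul, mul_comm]
    rw [h2]
    exact deriv_comp_mul_left a (fun s : ℝ => F (p, s • h)) t
  simp only [h1]
  rw [deriv_const_mul_field]
  have h3 := deriv_comp_mul_left a (fun t => deriv (fun t' : ℝ => F (p, t' • h)) t) 0
  rw [h3, smul_eq_mul, mul_zero]
  ring

variable {x : M} {u : TangentSpace (II n) x} {W : ∀ x' : M, M → TangentSpace (II n) x'}
  {z0 y0 : M} {U V : Set M} {N : Set (TangentBundle (II n) M)}

/-- the base point of the Taylor expansions. -/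
theorem PreBranch.p0_mem (h : PreBranch x u W z0 y0 U V N) :
    (extChartAt (II n) z0 x, extChartAt (II n) y0 (WeakMTW.exp x u)) ∈ chU z0 U ×ˢ chU y0 V :=
  ⟨mem_image_of_mem _ h.hx, mem_image_of_mem _ h.hy⟩

theorem PreBranch.Hq_eq_d2_self (hG : Geom n M) (h : PreBranch x u W z0 y0 U V N)
    (e : TangentSpace (II n) x) :
    Hq x u e = Calc.d2 (FN W z0 y0)
      (extChartAt (II n) z0 x, extChartAt (II n) y0 (WeakMTW.exp x u)) (cofr z0 x e) := by
  have := h.Hq_eq_d2 hG h.hx h.hy e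
  rwa [h.W_self] at this

/-- field `hom_H` of `SoftCore`. -/
theorem hom_Hq (hG : Geom n M) (x : M) (u e : TangentSpace (WeakMTW.model n) x) (a : ℝ)
    (h : NF x u) : Hq x u (a • e) = a ^ 2 * Hq x u e := by
  obtain ⟨W, z0, y0, U, V, N, hP⟩ := h
  rw [hP.Hq_eq_d2_self hG, hP.Hq_eq_d2_self hG, map_smul, d2_smul]

/-- `Hq x u` is the quadratic form of a symmetric operator. -/
theorem exists_Hop (hG : Geom n M) {x : M} {u : TangentSpace (II n) x} (h : NF x u) :
    ∃ A : TangentSpace (II n) x →L[ℝ] TangentSpace (II n) x,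
      (∀ e e' : TangentSpace (II n) x, inner ℝ (A e) e' = inner ℝ e (A e')) ∧
      ∀ e : TangentSpace (II n) x, Hq x u e = inner ℝ (A e) e := by
  obtain ⟨W, z0, y0, U, V, N, hP⟩ := h
  obtain ⟨Q, -, hQ⟩ := Calc.exists_second_form (FN W z0 y0) _ (hP.contDiffAt_FN hG hP.p0_mem)
  obtain ⟨hsymm, hd2, -⟩ := hQ.self_of_nhds
  set Q0 := Q (extChartAt (II n) z0 x, extChartAt (II n) y0 (WeakMTW.exp x u)) with hQ0
  let B : TangentSpace (II n) x →L[ℝ] TangentSpace (II n) x →L[ℝ] ℝ :=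
    Q0.bilinearComp (cofr z0 x) (cofr z0 x)
  have hB : ∀ e e', B e e' = Q0 (cofr z0 x e) (cofr z0 x e') := fun _ _ => rfl
  let b := stdOrthonormalBasis ℝ (TangentSpace (II n) x)
  let A : TangentSpace (II n) x →L[ℝ] TangentSpace (II n) x :=
    ∑ i, (B.flip (b i)).smulRight (b i)
  have hA : ∀ e e', inner ℝ (A e) e' = B e e' := by
    intro e e'
    have h1 : A e = ∑ i, B e (b i) • b i := by
      simp [A]
    rw [h1, sum_inner]
    simp only [inner_smul_left, RCLike.conj_to_real]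
    conv_rhs => rw [← b.sum_repr' e', map_sum]
    refine Finset.sum_congr rfl fun i _ => ?_
    rw [map_smul, smul_eq_mul, mul_comm]
  refine ⟨A, fun e e' => ?_, fun e => ?_⟩
  · rw [hA, real_inner_comm, hA, hB, hB, hsymm]
  · rw [hA, hB, hP.Hq_eq_d2_self hG, hd2]

theorem tendsto_clm_apply' {α E F : Type*} [NormedAddCommGroup E] [NormedSpace ℝ E]
    [NormedAddCommGroup F] [NormedSpace ℝ F] {l : Filter α} {f : α → E →L[ℝ] F} {g : α → E}
    {f0 : E →L[ℝ] F} {g0 : E} (hf : Tendsto f l (𝓝 f0)) (hg : Tendsto g l (𝓝 g0)) :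
    Tendsto (fun a => f a (g a)) l (𝓝 (f0 g0)) :=
  ((isBoundedBilinearMap_apply (𝕜 := ℝ) (E := E) (F := F)).continuous.tendsto (f0, g0)).comp
    (hf.prodMk_nhds hg)

/-- field `cont_H` of `SoftCore`. -/
theorem cont_Hq (hG : Geom n M) (x : ℕ → M) (xl : M)
    (u e : ∀ k, TangentSpace (WeakMTW.model n) (x k))
    (ul el : TangentSpace (WeakMTW.model n) xl) (h : NF xl ul)
    (hu : Tendsto (fun k => mk (x k) (u k)) atTop (𝓝 (mk xl ul)))
    (he : Tendsto (fun k => mk (x k) (e k)) atTop (𝓝 (mk xl el))) :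
    Tendsto (fun k => Hq (x k) (u k) (e k)) atTop (𝓝 (Hq xl ul el)) := by
  obtain ⟨W, z0, y0, U, V, N, hP⟩ := h
  obtain ⟨Q, hQc, hQ⟩ := Calc.exists_second_form (FN W z0 y0) _ (hP.contDiffAt_FN hG hP.p0_mem)
  have hxs : xl ∈ (extChartAt (II n) z0).source := hP.hUs hP.hx
  have hys : WeakMTW.exp xl ul ∈ (extChartAt (II n) y0).source := hP.hVs hP.hy
  have hx : Tendsto x atTop (𝓝 xl) := ((tendsto_mk_iff hxs).1 hu).1
  have hê : Tendsto (fun k => cofr z0 (x k) (e k)) atTop (𝓝 (cofr z0 xl el)) :=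
    ((tendsto_mk_iff hxs).1 he).2
  have hy : Tendsto (fun k => WeakMTW.exp (x k) (u k)) atTop (𝓝 (WeakMTW.exp xl ul)) :=
    (hG.cont_exp.tendsto (mk xl ul)).comp hu
  have hp : Tendsto (fun k => (extChartAt (II n) z0 (x k),
      extChartAt (II n) y0 (WeakMTW.exp (x k) (u k)))) atTop
      (𝓝 (extChartAt (II n) z0 xl, extChartAt (II n) y0 (WeakMTW.exp xl ul))) :=
    ((continuousAt_extChartAt' hxs).tendsto.comp hx).prodMk_nhds
      ((continuousAt_extChartAt' hys).tendsto.comp hy)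
  have hQp : Tendsto (fun k => Q (extChartAt (II n) z0 (x k),
      extChartAt (II n) y0 (WeakMTW.exp (x k) (u k)))) atTop
      (𝓝 (Q (extChartAt (II n) z0 xl, extChartAt (II n) y0 (WeakMTW.exp xl ul)))) :=
    hQc.continuousAt.tendsto.comp hp
  have hQt := tendsto_clm_apply' (tendsto_clm_apply' hQp hê) hê
  rw [hP.Hq_eq_d2_self hG, (hQ.self_of_nhds).2.1]
  refine hQt.congr' ?_
  filter_upwards [hu.eventually hP.hN, hp.eventually hQ] with k hk hk2
  obtain ⟨h1, h2, h3⟩ := hP.W_exp _ hk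
  have h4 := hP.Hq_eq_d2 hG h1 h2 (e k)
  rw [h3] at h4
  exact (h4.trans (hk2.2.1 _)).symm

/-- smoothness of `Hq` in the velocity (fixed base point). -/
theorem contDiffAt_Hq (hG : Geom n M) {x : M} {u : TangentSpace (II n) x} (h : NF x u)
    (e : TangentSpace (II n) x) :
    ContDiffAt ℝ ∞ (fun w : TangentSpace (II n) x => Hq x w e) u := by
  obtain ⟨W, z0, y0, U, V, N, hP⟩ := h
  obtain ⟨Q, hQc, hQ⟩ := Calc.exists_second_form (FN W z0 y0) _ (hP.contDiffAt_FN hG hP.p0_mem)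
  have hys : WeakMTW.exp x u ∈ (extChartAt (II n) y0).source := hP.hVs hP.hy
  have hY : ContDiffAt ℝ ∞
      (fun w : TangentSpace (II n) x => extChartAt (II n) y0 (WeakMTW.exp x w)) u :=
    differentiableAt_chart_exp hG x u y0 hys
  have hpw : ContDiffAt ℝ ∞ (fun w : TangentSpace (II n) x =>
      (extChartAt (II n) z0 x, extChartAt (II n) y0 (WeakMTW.exp x w))) u :=
    contDiffAt_const.prodMk hY
  have hQw : ContDiffAt ℝ ∞ (fun w : TangentSpace (II n) x =>
      Q (extChartAt (II n) z0 x, extChartAt (II n) y0 (WeakMTW.exp x w))) u :=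
    ContDiffAt.comp (g := Q) u hQc hpw
  have hfin : ContDiffAt ℝ ∞ (fun w : TangentSpace (II n) x =>
      Q (extChartAt (II n) z0 x, extChartAt (II n) y0 (WeakMTW.exp x w))
        (cofr z0 x e) (cofr z0 x e)) u :=
    (hQw.clm_apply contDiffAt_const).clm_apply contDiffAt_const
  refine hfin.congr_of_eventuallyEq ?_
  filter_upwards [(continuous_mk_fibre x).continuousAt.eventually hP.hN,
    hpw.continuousAt.eventually hQ] with w hw hw2
  obtain ⟨h1, h2, h3⟩ := hP.W_exp _ hw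
  have h4 := hP.Hq_eq_d2 hG h1 h2 e
  rw [h3] at h4
  exact h4.trans (hw2.2.1 _)

/-- the Riemannian norm of `e` is the norm of the frame applied to its coordinates. -/
theorem norm_fr_cofr {z0 z : M} (hz : z ∈ (extChartAt (II n) z0).source)
    (e : TangentSpace (II n) z) :
    ‖fr z0 (extChartAt (II n) z0 z) (cofr z0 z e)‖ = ‖e‖ := by
  have h1 := norm_sq_eq_gC hz e
  rw [gC_self] at h1
  exact ((sq_eq_sq₀ (norm_nonneg _) (norm_nonneg _)).1 h1).symm

/-- `IsBranch` from `PreBranch`.  (The neighbourhood `N₀` of `IsBranch` has to be smaller than the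
neighbourhood `N'` of `PreBranch`: its base points lie in `U₀`.) -/
theorem PreBranch.isBranch (hG : Geom n M) {x : M} {u : TangentSpace (II n) x}
    {W : ∀ x' : M, M → TangentSpace (II n) x'} {z0 y0 : M} {U V : Set M}
    {N : Set (TangentBundle (II n) M)} (h : PreBranch x u W z0 y0 U V N) :
    ∃ U' U₀ V' N' N₀ C r, U' ⊆ U ∧ V' ⊆ V ∧ N' ⊆ N ∧ N₀ ⊆ N' ∧
      PreBranch x u W z0 y0 U' V' N' ∧ IsBranch Hq x u W U' U₀ V' N₀ C r := by
  obtain ⟨xh, hxh⟩ : ∃ xh, xh = extChartAt (II n) z0 x := ⟨_, rfl⟩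
  obtain ⟨yh, hyh⟩ : ∃ yh, yh = extChartAt (II n) y0 (WeakMTW.exp x u) := ⟨_, rfl⟩
  have hFs := h.contDiffAt_FN hG h.p0_mem
  rw [← hxh, ← hyh] at hFs
  obtain ⟨C1, r1, hr1, hC1, hT⟩ := Calc.taylor_unif (FN W z0 y0) _ hFs
  obtain ⟨C2, r2, hr2, hC2, hD⟩ := Calc.d2_bound (FN W z0 y0) _ hFs
  have hxs : x ∈ (extChartAt (II n) z0).source := h.hUs h.hx
  have hxt : xh ∈ (extChartAt (II n) z0).target := hxh ▸ (extChartAt (II n) z0).map_source hxs
  obtain ⟨c, Cn, hc, hCn, hnb⟩ := exists_norm_bounds (n := n) hxt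
  obtain ⟨ρ1, hρ1, hball1⟩ := Metric.eventually_nhds_iff_ball.1 hnb
  obtain ⟨ρ, hρ, hρ1', hρr1, hρr2⟩ : ∃ ρ : ℝ, 0 < ρ ∧ ρ ≤ ρ1 ∧ ρ ≤ r1 ∧ ρ ≤ r2 :=
    ⟨min ρ1 (min r1 r2), by positivity, min_le_left _ _,
      (min_le_right _ _).trans (min_le_left _ _), (min_le_right _ _).trans (min_le_right _ _)⟩
  obtain ⟨U', hU'def⟩ : ∃ U' : Set M, U' = U ∩ (extChartAt (II n) z0) ⁻¹' Metric.ball xh ρ :=
    ⟨_, rfl⟩
  obtain ⟨V', hV'def⟩ : ∃ V' : Set M, V' = V ∩ (extChartAt (II n) y0) ⁻¹' Metric.ball yh ρ :=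
    ⟨_, rfl⟩
  have hU'o : IsOpen U' := hU'def ▸
    ((continuousOn_extChartAt z0).mono h.hUs).isOpen_inter_preimage h.hU Metric.isOpen_ball
  have hV'o : IsOpen V' := hV'def ▸
    ((continuousOn_extChartAt y0).mono h.hVs).isOpen_inter_preimage h.hV Metric.isOpen_ball
  have hU'U : U' ⊆ U := hU'def ▸ inter_subset_left
  have hV'V : V' ⊆ V := hV'def ▸ inter_subset_left
  have hxU' : x ∈ U' := by
    rw [hU'def]; exact ⟨h.hx, by rw [mem_preimage, ← hxh]; exact Metric.mem_ball_self hρ⟩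
  have hyV' : WeakMTW.exp x u ∈ V' := by
    rw [hV'def]; exact ⟨h.hy, by rw [mem_preimage, ← hyh]; exact Metric.mem_ball_self hρ⟩
  obtain ⟨N', hN'N, hP'⟩ := h.shrink hG hU'o hV'o hU'U hV'V hxU' hyV'
  -- the domain of the Taylor expansion
  have hO : {p : TangentBundle (II n) M | WeakMTW.exp p.1 p.2 ∈ U'} ∈
      𝓝 (R213.mk x (0 : TangentSpace (II n) x)) :=
    (hU'o.preimage hG.cont_exp).mem_nhds (by
      change WeakMTW.exp x (0 : TangentSpace (II n) x) ∈ U'
      rw [exp_zero hG]; exact hxU')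
  rw [mem_nhds_mk_iff hxs, map_zero, ← hxh] at hO
  obtain ⟨δ, hδ, hδsub⟩ := Metric.mem_nhds_iff.1 hO
  obtain ⟨U₀, hU₀def⟩ : ∃ U₀ : Set M, U₀ = U' ∩ (extChartAt (II n) z0) ⁻¹' Metric.ball xh δ :=
    ⟨_, rfl⟩
  have hU₀o : IsOpen U₀ := hU₀def ▸
    ((continuousOn_extChartAt z0).mono (hU'U.trans h.hUs)).isOpen_inter_preimage hU'o
      Metric.isOpen_ball
  have hU₀U' : U₀ ⊆ U' := hU₀def ▸ inter_subset_left
  have hxU₀ : x ∈ U₀ := by
    rw [hU₀def]; exact ⟨hxU', by rw [mem_preimage, ← hxh]; exact Metric.mem_ball_self hδ⟩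
  -- comparison of norms
  have hnorm : ∀ x' ∈ U', ∀ e : TangentSpace (II n) x', c * ‖cofr z0 x' e‖ ≤ ‖e‖ := by
    intro x' hx' e
    rw [hU'def] at hx'
    have h1 := (hball1 _ (Metric.ball_subset_ball hρ1' hx'.2) (cofr z0 x' e)).1
    rwa [norm_fr_cofr (h.hUs hx'.1)] at h1
  have hpball : ∀ x' ∈ U', ∀ y' ∈ V',
      (extChartAt (II n) z0 x', extChartAt (II n) y0 y') ∈ Metric.ball (xh, yh) ρ := by
    intro x' hx' y' hy'
    rw [hU'def] at hx'
    rw [hV'def] at hy'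
    rw [← ball_prod_same]
    exact ⟨hx'.2, hy'.2⟩
  have hle : ∀ x' ∈ U', ∀ e : TangentSpace (II n) x', ‖cofr z0 x' e‖ ≤ ‖e‖ / c := by
    intro x' hx' e
    rw [le_div_iff₀' hc]
    exact hnorm x' hx' e
  refine ⟨U', U₀, V', N', N' ∩ {p | p.1 ∈ U₀}, max (C2 / c ^ 2) (C1 / c ^ 3), c * min δ r1,
    hU'U, hV'V, hN'N, inter_subset_left, hP', ?_⟩
  refine
    { hU := hU'o
      hU₀ := hU₀o
      hUU := hU₀U'
      hx := hxU₀
      hV := hV'o
      hy := hyV'
      hN := ?_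
      hr := by positivity
      exp_W := hP'.exp_W
      W_exp := ?_
      hom := ?_
      bdd := ?_
      cont := fun x' hx' y' hy' => hP'.cont hx' hy'
      taylor := ?_ }
  · refine inter_mem hP'.hN ?_
    exact (hU₀o.preimage (FiberBundle.continuous_proj (EE n) (TangentSpace (II n) : M → Type _))).mem_nhds
      hxU₀
  · intro p hp
    obtain ⟨-, h2, h3⟩ := hP'.W_exp p hp.1
    exact ⟨hp.2, h2, h3⟩
  · intro x' hx' y' hy' e a
    exact hom_Hq hG x' _ e a (hP'.nf hx' hy')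
  · intro x' hx' y' hy' e
    rw [h.Hq_eq_d2 hG (hU'U hx') (hV'V hy') e]
    have h1 := hD _ (Metric.ball_subset_ball hρr2 (hpball x' hx' y' hy')) (cofr z0 x' e)
    have h2 := hle x' hx' e
    calc |Calc.d2 (FN W z0 y0) (extChartAt (II n) z0 x', extChartAt (II n) y0 y') (cofr z0 x' e)|
        ≤ C2 * ‖cofr z0 x' e‖ ^ 2 := h1
      _ ≤ C2 * (‖e‖ / c) ^ 2 := by gcongr
      _ = C2 / c ^ 2 * ‖e‖ ^ 2 := by rw [div_pow]; ring
      _ ≤ max (C2 / c ^ 2) (C1 / c ^ 3) * ‖e‖ ^ 2 := by gcongr; exact le_max_left _ _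
  · intro x' hx' y' hy' e he
    have hx'U' : x' ∈ U' := hU₀U' hx'
    have hx'U : x' ∈ U := hU'U hx'U'
    have hy'V : y' ∈ V := hV'V hy'
    have hβ := hnorm x' hx'U' e
    have hβlt : ‖cofr z0 x' e‖ < min δ r1 :=
      lt_of_mul_lt_mul_left (lt_of_le_of_lt hβ he) hc.le
    have hexp : WeakMTW.exp x' e ∈ U' := by
      have h1 : (extChartAt (II n) z0 x', cofr z0 x' e) ∈ Metric.ball (xh, (0 : EE n)) δ := by
        rw [← ball_prod_same]
        rw [hU₀def] at hx'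
        exact ⟨hx'.2, mem_ball_zero_iff.2 (lt_of_lt_of_le hβlt (min_le_left _ _))⟩
      have h2 := hδsub h1
      rw [mem_preimage, tmk_chart (h.hUs hx'U) e] at h2
      exact h2
    refine ⟨hexp, ?_⟩
    have hq : (extChartAt (II n) z0 x', extChartAt (II n) y0 y') ∈ chU z0 U ×ˢ chU y0 V :=
      ⟨mem_image_of_mem _ hx'U, mem_image_of_mem _ hy'V⟩
    have e1 := h.FN_eq hG hx'U hy'V e (hU'U hexp)
    have e0 : ‖W x' y'‖ ^ 2 / 2 =
        FN W z0 y0 ((extChartAt (II n) z0 x', extChartAt (II n) y0 y'), 0) := by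
      rw [h.norm_sq hx'U hy'V]
      unfold FN
      simp only
      rw [eC_zero hG ((extChartAt (II n) z0).map_source (h.hUs hx'U))]
    have e2 := h.fderiv_FN_zero hG hq (cofr z0 x' e)
    rw [h.Uc_chart hx'U hy'V] at e2
    simp only at e2
    rw [← inner_eq_gC (h.hUs hx'U)] at e2
    have e3 := h.Hq_eq_d2 hG hx'U hy'V e
    have hT' := hT _ (Metric.ball_subset_ball hρr1 (hpball x' hx'U' y' hy')) (cofr z0 x' e)
      (mem_ball_zero_iff.2 (lt_of_lt_of_le hβlt (min_le_right _ _)))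
    rw [← e1, ← e0, e2, ← e3] at hT'
    have h2 := hle x' hx'U' e
    have h3 : ‖W x' y'‖ ^ 2 / 2 - inner ℝ (W x' y') e + Hq x' (W x' y') e / 2
        = ‖W x' y'‖ ^ 2 / 2 + -inner ℝ (W x' y') e + Hq x' (W x' y') e / 2 := by ring
    rw [h3]
    calc _ ≤ C1 * ‖cofr z0 x' e‖ ^ 3 := hT'
      _ ≤ C1 * (‖e‖ / c) ^ 3 := by gcongr
      _ = C1 / c ^ 3 * ‖e‖ ^ 3 := by rw [div_pow]; ring
      _ ≤ max (C2 / c ^ 2) (C1 / c ^ 3) * ‖e‖ ^ 3 := by gcongr; exact le_max_right _ _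

/-- field `branch` of `SoftCore`. -/
theorem branch (hG : Geom n M) (x : M) (u : TangentSpace (WeakMTW.model n) x) (h : NF x u) :
    ∃ W U U₀ V N C r, IsBranch Hq x u W U U₀ V N C r := by
  obtain ⟨W, z0, y0, U, V, N, hP⟩ := h
  obtain ⟨U', U₀, V', N', N₀, C, r, -, -, -, -, -, hB⟩ := hP.isBranch hG
  exact ⟨W, U', U₀, V', N₀, C, r, hB⟩

end

end Claimed.Agent.R213.Mid
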