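import Claimed.Agent.R213.Mid.Defs

/-!
# Row 213, MIDDLE layer, file M2: metric consequences of `Geom` (no charts, no calculus)

Only the fields `geod`, `shift`, `nocorner` of `Geom` are used.
Sketches.  `dist_exp_exp_le`: `γ t = exp x (t v)` is locally an isometry up to the factor `|v|`
(`geod`), so it is `|v|`-Lipschitz on every interval (sup argument / connectedness).
`shift'`: apply `shift` to `(x, t v)` and rescale (`t ≠ 0`), `t = 0` directly; `|w| = |v|` because the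
same curve has local speed `|w|` and `|v|`.  `mk_eq_of_curve_eq`: `x = γ 0`, `v = γ'(0)` by `geod`.
`unique_min`, `nocross`: cut two short pieces of equal length on both sides of the common point,
triangle inequality, `nocorner`, then `shift'` + `mk_eq_of_curve_eq`.
-/

set_option autoImplicit false
set_option linter.unusedSectionVars false
open Claims Claims.C0370 Claims.C0370.WeakMTWGlobalSupport
open scoped Manifold ContDiff Topology
open Set Filter Manifold Bundle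

namespace Claimed.Agent.R213.Mid

noncomputable section

variable {n : ℕ} {M : Type*}
    [MetricSpace M] [ChartedSpace (WeakMTW.Model n) M]
    [IsManifold (WeakMTW.model n) ∞ M]
    [RiemannianBundle (fun x : M => TangentSpace (WeakMTW.model n) x)]
    [IsContMDiffRiemannianBundle (WeakMTW.model n) ∞ (WeakMTW.Model n)
      (fun x : M => TangentSpace (WeakMTW.model n) x)]
    [IsRiemannianManifold (WeakMTW.model n) M]

theorem exp_zero (hG : Geom n M) (x : M) :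
    WeakMTW.exp x (0 : TangentSpace (II n) x) = x := by
  obtain ⟨-, h, -⟩ := hG.geod x (0 : TangentSpace (II n) x)
  simpa using h

/-- continuity of a geodesic. -/
theorem continuous_exp_smul (hG : Geom n M) (x : M) (v : TangentSpace (II n) x) :
    Continuous (fun t : ℝ => WeakMTW.exp x (t • v)) :=
  (hG.geod x v).1.continuous

/-- local speed of a geodesic. -/
theorem local_speed (hG : Geom n M) (x : M) (v : TangentSpace (II n) x) (t : ℝ) :
    ∃ ε : ℝ, 0 < ε ∧ ∀ s ∈ Metric.ball t ε, ∀ r ∈ Metric.ball t ε,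
      dist (WeakMTW.exp x (s • v)) (WeakMTW.exp x (r • v)) = ‖v‖ * |s - r| := by
  obtain ⟨-, h, -, h3⟩ := hG.geod x v
  exact h3 t

theorem dist_exp_exp_le_aux (hG : Geom n M) (x : M) (v : TangentSpace (II n) x) (a b : ℝ)
    (hab : a ≤ b) :
    dist (WeakMTW.exp x (a • v)) (WeakMTW.exp x (b • v)) ≤ (b - a) * ‖v‖ := by
  set γ : ℝ → M := fun t : ℝ => WeakMTW.exp x (t • v) with hγ
  have hc : Continuous γ := continuous_exp_smul hG x v
  set S : Set ℝ := {t | dist (γ a) (γ t) ≤ (t - a) * ‖v‖} with hS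
  have hSc : IsClosed S :=
    isClosed_le (continuous_const.dist hc) ((continuous_id.sub continuous_const).mul continuous_const)
  have key : Icc a b ⊆ S := by
    apply IsClosed.Icc_subset_of_forall_mem_nhdsWithin (hSc.inter isClosed_Icc)
    · simp [hS]
    · rintro t ⟨ht, -⟩
      obtain ⟨ε, hε, h⟩ := local_speed hG x v t
      have : Ioo t (t + ε) ∈ 𝓝[>] t := Ioo_mem_nhdsGT (by linarith)
      filter_upwards [this] with u hu
      have h1 : dist (γ t) (γ u) = ‖v‖ * |t - u| :=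
        h t (Metric.mem_ball_self hε) u (by
          rw [Metric.mem_ball, Real.dist_eq, abs_of_pos (by linarith [hu.1])]; linarith [hu.2])
      have h2 : |t - u| = u - t := by
        rw [abs_sub_comm, abs_of_pos (by linarith [hu.1])]
      have h3 : dist (γ a) (γ u) ≤ dist (γ a) (γ t) + dist (γ t) (γ u) := dist_triangle _ _ _
      have ht' : dist (γ a) (γ t) ≤ (t - a) * ‖v‖ := ht
      show dist (γ a) (γ u) ≤ (u - a) * ‖v‖
      rw [h1, h2] at h3
      nlinarith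
  exact key ⟨hab, le_rfl⟩

theorem dist_exp_exp_le (hG : Geom n M) (x : M) (v : TangentSpace (II n) x) (s t : ℝ) :
    dist (WeakMTW.exp x (s • v)) (WeakMTW.exp x (t • v)) ≤ |s - t| * ‖v‖ := by
  rcases le_total s t with h | h
  · rw [abs_sub_comm, abs_of_nonneg (by linarith)]
    exact dist_exp_exp_le_aux hG x v s t h
  · rw [abs_of_nonneg (by linarith), dist_comm]
    exact dist_exp_exp_le_aux hG x v t s h

theorem dist_exp_le (hG : Geom n M) (x : M) (v : TangentSpace (II n) x) :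
    dist x (WeakMTW.exp x v) ≤ ‖v‖ := by
  have := dist_exp_exp_le hG x v 0 1
  simpa [exp_zero hG] using this

theorem ray (hG : Geom n M) (x : M) (v : TangentSpace (II n) x) (hv : v ∈ Ibar x)
    (r t : ℝ) (hr : 0 ≤ r) (hrt : r ≤ t) (ht : t ≤ 1) :
    dist (WeakMTW.exp x (r • v)) (WeakMTW.exp x (t • v)) = (t - r) * ‖v‖ := by
  have hv' : dist x (WeakMTW.exp x v) = ‖v‖ := hv
  have h1 := dist_exp_exp_le_aux hG x v 0 r hr
  have h2 := dist_exp_exp_le_aux hG x v r t hrt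
  have h3 := dist_exp_exp_le_aux hG x v t 1 ht
  rw [zero_smul, exp_zero hG] at h1
  rw [one_smul] at h3
  have h4 : dist x (WeakMTW.exp x v) ≤ dist x (WeakMTW.exp x (r • v)) +
      dist (WeakMTW.exp x (r • v)) (WeakMTW.exp x (t • v)) +
      dist (WeakMTW.exp x (t • v)) (WeakMTW.exp x v) := dist_triangle4 _ _ _ _
  apply le_antisymm h2
  rw [hv'] at h4
  nlinarith

theorem smul_mem_Ibar (hG : Geom n M) (x : M) (v : TangentSpace (II n) x) (hv : v ∈ Ibar x)
    (t : ℝ) (h0 : 0 ≤ t) (h1 : t ≤ 1) : t • v ∈ Ibar x := by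
  have := ray hG x v hv 0 t le_rfl h0 h1
  rw [zero_smul, exp_zero hG] at this
  show dist x (WeakMTW.exp x (t • v)) = ‖t • v‖
  rw [this, norm_smul, Real.norm_eq_abs, abs_of_nonneg h0, sub_zero]

theorem mem_Ibar_of_mem (hG : Geom n M) (x : M) (v : TangentSpace (II n) x)
    (hv : v ∈ WeakMTW.injectivityDomain x) : v ∈ Ibar x := by
  obtain ⟨a, ha, h⟩ := hv
  have h1 : a • v ∈ Ibar x := by
    show dist x (WeakMTW.exp x (a • v)) = ‖a • v‖
    rw [h, norm_smul, Real.norm_eq_abs, abs_of_pos (by linarith)]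
  have h2 := smul_mem_Ibar hG x (a • v) h1 a⁻¹ (by positivity)
    (inv_le_one_of_one_le₀ ha.le)
  rwa [smul_smul, inv_mul_cancel₀ (by linarith), one_smul] at h2

theorem smul_mem_injDomain (hG : Geom n M) (x : M) (v : TangentSpace (II n) x) (hv : v ∈ Ibar x)
    (t : ℝ) (h0 : 0 ≤ t) (h1 : t < 1) : t • v ∈ WeakMTW.injectivityDomain x := by
  rcases h0.eq_or_lt with rfl | h0
  · refine ⟨2, by norm_num, ?_⟩
    simp [exp_zero hG]
  · refine ⟨t⁻¹, (one_lt_inv₀ h0).2 h1, ?_⟩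
    have hv' : dist x (WeakMTW.exp x v) = ‖v‖ := hv
    rw [smul_smul, inv_mul_cancel₀ h0.ne', one_smul, hv', norm_smul, Real.norm_eq_abs,
      abs_of_pos h0, ← mul_assoc, inv_mul_cancel₀ h0.ne', one_mul]

/-- two parametrisations of the same curve near a point have the same speed. -/
theorem norm_eq_of_curve_eq (hG : Geom n M) (x y : M) (v : TangentSpace (II n) x)
    (w : TangentSpace (II n) y) (t : ℝ)
    (h : ∀ s : ℝ, WeakMTW.exp y (s • w) = WeakMTW.exp x ((t + s) • v)) : ‖w‖ = ‖v‖ := by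
  obtain ⟨ε₁, hε₁, h₁⟩ := local_speed hG y w 0
  obtain ⟨ε₂, hε₂, h₂⟩ := local_speed hG x v t
  set δ : ℝ := min ε₁ ε₂ / 2 with hδ
  have hm : 0 < min ε₁ ε₂ := lt_min hε₁ hε₂
  have hδ0 : 0 < δ := by positivity
  have hδ1 : δ < ε₁ := by have := min_le_left ε₁ ε₂; linarith
  have hδ2 : δ < ε₂ := by have := min_le_right ε₁ ε₂; linarith
  have e1 := h₁ 0 (Metric.mem_ball_self hε₁) δ (by
    rw [Metric.mem_ball, Real.dist_eq, sub_zero, abs_of_pos hδ0]; exact hδ1)
  have e2 := h₂ (t + 0) (by simpa using hε₂) (t + δ) (by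
    rw [Metric.mem_ball, Real.dist_eq, add_sub_cancel_left, abs_of_pos hδ0]; exact hδ2)
  rw [h 0, h δ, e2] at e1
  have e3 : |t + 0 - (t + δ)| = δ := by
    rw [show t + 0 - (t + δ) = -δ by ring, abs_neg, abs_of_pos hδ0]
  have e4 : |(0 : ℝ) - δ| = δ := by rw [zero_sub, abs_neg, abs_of_pos hδ0]
  rw [e3, e4] at e1
  exact (mul_right_cancel₀ hδ0.ne' e1).symm

/-- flow property at any time, with the speed. -/
theorem shift' (hG : Geom n M) (x : M) (v : TangentSpace (II n) x) (t : ℝ) (y : M)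
    (hy : WeakMTW.exp x (t • v) = y) :
    ∃ w : TangentSpace (II n) y, ‖w‖ = ‖v‖ ∧
      ∀ s : ℝ, WeakMTW.exp y (s • w) = WeakMTW.exp x ((t + s) • v) := by
  suffices H : ∃ w : TangentSpace (II n) y,
      ∀ s : ℝ, WeakMTW.exp y (s • w) = WeakMTW.exp x ((t + s) • v) by
    obtain ⟨w, hw⟩ := H
    exact ⟨w, norm_eq_of_curve_eq hG x y v w t hw, hw⟩
  rcases eq_or_ne t 0 with rfl | ht
  · have hxy : x = y := by rw [← hy, zero_smul, exp_zero hG]
    subst hxy
    exact ⟨v, fun s => by rw [zero_add]⟩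
  · subst hy
    obtain ⟨w, hw⟩ := hG.shift x (t • v)
    refine ⟨t⁻¹ • w, fun s => ?_⟩
    rw [smul_smul, hw, smul_smul]
    congr 2
    field_simp

/-- a geodesic determines its initial data (general form). -/
theorem mk_eq_of_geod (x₁ x₂ : M) (v₁ : TangentSpace (II n) x₁)
    (v₂ : TangentSpace (II n) x₂) (γ : ℝ → M)
    (h₁ : WeakMTW.CompleteGeodesicWithInitialData x₁ v₁ γ)
    (h₂ : WeakMTW.CompleteGeodesicWithInitialData x₂ v₂ γ) : mk x₁ v₁ = mk x₂ v₂ := by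
  obtain ⟨-, e₁, hv₁, -⟩ := h₁
  obtain ⟨-, e₂, hv₂, -⟩ := h₂
  subst e₁
  subst e₂
  subst hv₁
  subst hv₂
  rfl

/-- a geodesic determines its initial data. -/
theorem mk_eq_of_curve_eq (hG : Geom n M) (x₁ x₂ : M) (v₁ : TangentSpace (II n) x₁)
    (v₂ : TangentSpace (II n) x₂)
    (h : ∀ t : ℝ, WeakMTW.exp x₁ (t • v₁) = WeakMTW.exp x₂ (t • v₂)) : mk x₁ v₁ = mk x₂ v₂ := by
  have h₁ := hG.geod x₁ v₁
  have h₂ := hG.geod x₂ v₂
  rw [show (fun t : ℝ => WeakMTW.exp x₁ (t • v₁)) = fun t : ℝ => WeakMTW.exp x₂ (t • v₂) from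
    funext h] at h₁
  exact mk_eq_of_geod x₁ x₂ v₁ v₂ _ h₁ h₂

/-- the corner argument: two geodesics through `y` (at times `t₁`, `t₂`) with the same speed `L`
such that a short piece of the first one before `y` followed by a short piece of the second one
after `y` is minimising, coincide. -/
theorem curve_eq_of_corner (hG : Geom n M) (x₁ x₂ : M) (v₁ : TangentSpace (II n) x₁)
    (v₂ : TangentSpace (II n) x₂) (t₁ t₂ δ : ℝ) (hδ : 0 < δ) (hn : ‖v₁‖ = ‖v₂‖)
    (he : WeakMTW.exp x₁ (t₁ • v₁) = WeakMTW.exp x₂ (t₂ • v₂))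
    (hd : 2 * δ * ‖v₁‖ ≤ dist (WeakMTW.exp x₁ ((t₁ - δ) • v₁)) (WeakMTW.exp x₂ ((t₂ + δ) • v₂))) :
    ∀ s : ℝ, WeakMTW.exp x₁ ((t₁ + s) • v₁) = WeakMTW.exp x₂ ((t₂ + s) • v₂) := by
  obtain ⟨w₁, hw₁, f₁⟩ := shift' hG x₁ v₁ t₁ _ rfl
  obtain ⟨w₂, hw₂, f₂⟩ := shift' hG x₂ v₂ t₂ _ he.symm
  have hA : WeakMTW.exp (WeakMTW.exp x₁ (t₁ • v₁)) (-(δ • w₁)) =
      WeakMTW.exp x₁ ((t₁ - δ) • v₁) := by
    rw [← neg_smul, f₁, sub_eq_add_neg]
  have hB : WeakMTW.exp (WeakMTW.exp x₁ (t₁ • v₁)) (δ • w₂) =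
      WeakMTW.exp x₂ ((t₂ + δ) • v₂) := f₂ δ
  have n1 : ‖δ • w₁‖ = δ * ‖v₁‖ := by
    rw [norm_smul, Real.norm_eq_abs, abs_of_pos hδ, hw₁]
  have n2 : ‖δ • w₂‖ = δ * ‖v₁‖ := by
    rw [norm_smul, Real.norm_eq_abs, abs_of_pos hδ, hw₂, hn]
  have hle : dist (WeakMTW.exp (WeakMTW.exp x₁ (t₁ • v₁)) (-(δ • w₁)))
      (WeakMTW.exp (WeakMTW.exp x₁ (t₁ • v₁)) (δ • w₂)) ≤ 2 * ‖δ • w₁‖ := by
    have a1 := dist_exp_le hG (WeakMTW.exp x₁ (t₁ • v₁)) (-(δ • w₁))
    have a2 := dist_exp_le hG (WeakMTW.exp x₁ (t₁ • v₁)) (δ • w₂)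
    have a3 := dist_triangle_left (WeakMTW.exp (WeakMTW.exp x₁ (t₁ • v₁)) (-(δ • w₁)))
      (WeakMTW.exp (WeakMTW.exp x₁ (t₁ • v₁)) (δ • w₂)) (WeakMTW.exp x₁ (t₁ • v₁))
    rw [norm_neg] at a1
    rw [n1] at a1 ⊢
    rw [n2] at a2
    linarith
  have heq : δ • w₁ = δ • w₂ := by
    apply hG.nocorner _ _ _ (n1.trans n2.symm)
    apply le_antisymm hle
    rw [hA, hB, n1]
    linarith
  have hw : w₁ = w₂ := smul_right_injective _ hδ.ne' heq
  intro s
  rw [← f₁, ← f₂, hw]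

/-- field `nocross` of `SoftCore`. -/
theorem nocross (hG : Geom n M) (x₁ x₂ : M) (v₁ : TangentSpace (WeakMTW.model n) x₁)
    (v₂ : TangentSpace (WeakMTW.model n) x₂) (r : ℝ) (h0 : 0 < r) (h1 : r < 1)
    (hv₁ : v₁ ∈ Ibar x₁) (hv₂ : v₂ ∈ Ibar x₂) (hn : ‖v₁‖ = ‖v₂‖)
    (he : WeakMTW.exp x₁ (r • v₁) = WeakMTW.exp x₂ (r • v₂))
    (hd : dist x₁ (WeakMTW.exp x₂ v₂) = ‖v₁‖) : mk x₁ v₁ = mk x₂ v₂ := by
  set δ : ℝ := min r (1 - r) with hδ
  have hδ0 : 0 < δ := lt_min h0 (by linarith)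
  have hδ1 : δ ≤ r := min_le_left _ _
  have hδ2 : δ ≤ 1 - r := min_le_right _ _
  have key := curve_eq_of_corner hG x₁ x₂ v₁ v₂ r r δ hδ0 hn he (by
    have a1 := dist_exp_exp_le_aux hG x₁ v₁ 0 (r - δ) (by linarith)
    have a2 := dist_exp_exp_le_aux hG x₂ v₂ (r + δ) 1 (by linarith)
    rw [zero_smul, exp_zero hG] at a1
    rw [one_smul, ← hn] at a2
    have a3 : dist x₁ (WeakMTW.exp x₂ v₂) ≤ dist x₁ (WeakMTW.exp x₁ ((r - δ) • v₁)) +
      dist (WeakMTW.exp x₁ ((r - δ) • v₁)) (WeakMTW.exp x₂ ((r + δ) • v₂)) +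
      dist (WeakMTW.exp x₂ ((r + δ) • v₂)) (WeakMTW.exp x₂ v₂) := dist_triangle4 _ _ _ _
    rw [hd] at a3
    nlinarith)
  apply mk_eq_of_curve_eq hG
  intro t
  have := key (t - r)
  rwa [add_sub_cancel] at this

/-- interior velocities are the unique minimising velocities to their end point. -/
theorem unique_min (hG : Geom n M) (x : M) (v w : TangentSpace (II n) x)
    (hv : v ∈ WeakMTW.injectivityDomain x) (hw : w ∈ Vmin x (WeakMTW.exp x v)) : w = v := by
  have hvI : dist x (WeakMTW.exp x v) = ‖v‖ := mem_Ibar_of_mem hG x v hv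
  obtain ⟨a, ha, h⟩ := hv
  obtain ⟨hw1, hw2⟩ := hw
  have hn : ‖w‖ = ‖v‖ := hw2.trans hvI
  have hav : a • v ∈ Ibar x := by
    show dist x (WeakMTW.exp x (a • v)) = ‖a • v‖
    rw [h, norm_smul, Real.norm_eq_abs, abs_of_pos (by linarith)]
  set δ : ℝ := min 1 (a - 1) with hδ
  have hδ0 : 0 < δ := lt_min one_pos (by linarith)
  have hδ1 : δ ≤ 1 := min_le_left _ _
  have hδ2 : δ ≤ a - 1 := min_le_right _ _
  have ha0 : 0 < a := by linarith
  have key := curve_eq_of_corner hG x x w v 1 1 δ hδ0 hn (by rw [one_smul, one_smul, hw1]) (by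
    have a1 := dist_exp_exp_le_aux hG x w 0 (1 - δ) (by linarith)
    rw [zero_smul, exp_zero hG] at a1
    have a2 := ray hG x (a • v) hav 0 ((1 + δ) / a) le_rfl (by positivity)
      ((div_le_one ha0).2 (by linarith))
    rw [zero_smul, exp_zero hG, smul_smul, div_mul_cancel₀ _ ha0.ne', norm_smul,
      Real.norm_eq_abs, abs_of_pos ha0, sub_zero, ← mul_assoc, div_mul_cancel₀ _ ha0.ne'] at a2
    have a3 := dist_triangle x (WeakMTW.exp x ((1 - δ) • w)) (WeakMTW.exp x ((1 + δ) • v))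
    rw [a2] at a3
    rw [hn] at a1 ⊢
    nlinarith)
  have h2 : mk x w = mk x v := by
    apply mk_eq_of_curve_eq hG
    intro t
    have := key (t - 1)
    rwa [add_sub_cancel] at this
  exact eq_of_heq (Bundle.TotalSpace.mk.inj h2).2

end

end Claimed.Agent.R213.Mid
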