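import Claimed.Agent.R213.Mid.Plumb
import Claimed.Agent.R213.Mid.Metric

/-!
# Row 213, MIDDLE layer, file M3: `exp` in charts

Consequences of `Geom` for `eC z0 y0`, `vC z0 y0` (position and velocity at time one in charts).
Sketches.  `flowC`: by `shift` there is `w` with `exp y (s w) = exp x ((1+s) v)`; by `geod` at `(y,w)`,
`w` is the velocity at `0` of `s ↦ exp y (s w)`; read in the chart at `y0`
(`hasDerivAt_chart_curve`) this is `d/ds eC (x,(1+s)u) = vC`.  `flow_inj`: on a neighbourhood of `p`,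
`eC y0 z0 (eC z0 y0 q, - vC z0 y0 q) = q.1` and `vC y0 z0 (eC z0 y0 q, - vC z0 y0 q) = - q.2`
(`flowC` with `s = -1 + t`), differentiate.  `gauss`: `first_var` with `δ = (0,k)`.
-/

set_option autoImplicit false
set_option linter.unusedSectionVars false
open Claims Claims.C0370 Claims.C0370.WeakMTWGlobalSupport
open scoped Manifold ContDiff Topology
open Set Filter Manifold Bundle

namespace Claimed.Agent.R213.Mid

noncomputable section

/-- derivative in the fibre direction of a quadratic form depending on a parameter. -/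
theorem ce_fderiv_quad {E : Type*} [NormedAddCommGroup E] [NormedSpace ℝ E]
    (G : E → E →L[ℝ] E →L[ℝ] ℝ) (p : E × E) (hG : ContDiffAt ℝ 1 G p.1)
    (hsymm : ∀ a b, G p.1 a b = G p.1 b a) (k : E) :
    fderiv ℝ (fun q : E × E => G q.1 q.2 q.2 / 2) p (0, k) = G p.1 p.2 k := by
  have c1 : ContDiffAt ℝ 1 (fun q : E × E => G q.1) p := by
    have := hG.fst' (y := p.2)
    simpa using this
  have c2 : ContDiffAt ℝ 1 (fun q : E × E => G q.1 q.2) p := c1.clm_apply contDiffAt_snd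
  have c3 : ContDiffAt ℝ 1 (fun q : E × E => G q.1 q.2 q.2) p := c2.clm_apply contDiffAt_snd
  have c4 : DifferentiableAt ℝ (fun q : E × E => G q.1 q.2 q.2 / 2) p := by
    have := (c3.differentiableAt (by simp)).mul_const (2⁻¹ : ℝ)
    simpa only [div_eq_mul_inv] using this
  have d1 : HasDerivAt (fun s : ℝ => (p.1, p.2 + s • k)) ((0 : E), k) 0 := by
    have h3 : HasDerivAt (fun s : ℝ => p.2 + s • k) k 0 := by
      simpa using ((hasDerivAt_id (0 : ℝ)).smul_const k).const_add p.2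
    exact (hasDerivAt_const 0 p.1).prodMk h3
  have c5 : HasFDerivAt (fun q : E × E => G q.1 q.2 q.2 / 2)
      (fderiv ℝ (fun q : E × E => G q.1 q.2 q.2 / 2) p) ((fun s : ℝ => (p.1, p.2 + s • k)) 0) := by
    simpa using c4.hasFDerivAt
  have d2 := c5.comp_hasDerivAt (0 : ℝ) d1
  have d3 : HasDerivAt (fun s : ℝ => (G p.1 p.2 p.2 + s * (2 * G p.1 p.2 k) + s ^ 2 * G p.1 k k) / 2)
      (G p.1 p.2 k) 0 := by
    have a1 : HasDerivAt (fun s : ℝ => s * (2 * G p.1 p.2 k)) (2 * G p.1 p.2 k) 0 := by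
      simpa using (hasDerivAt_id (0 : ℝ)).mul_const (2 * G p.1 p.2 k)
    have a2 : HasDerivAt (fun s : ℝ => s ^ 2 * G p.1 k k) 0 0 := by
      simpa using ((hasDerivAt_id (0 : ℝ)).pow 2).mul_const (G p.1 k k)
    have a3 := ((a1.const_add (G p.1 p.2 p.2)).add a2).div_const 2
    simpa using a3
  have e : ((fun q : E × E => G q.1 q.2 q.2 / 2) ∘ fun s : ℝ => (p.1, p.2 + s • k))
      = fun s : ℝ => (G p.1 p.2 p.2 + s * (2 * G p.1 p.2 k) + s ^ 2 * G p.1 k k) / 2 := by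
    funext s
    simp only [Function.comp_apply, map_add, map_smul, add_apply,
      smul_apply, smul_eq_mul]
    rw [hsymm k p.2]
    ring
  rw [e] at d2
  exact d2.unique d3

variable {n : ℕ} {M : Type*}
    [MetricSpace M] [ChartedSpace (WeakMTW.Model n) M]
    [IsManifold (WeakMTW.model n) ∞ M]
    [RiemannianBundle (fun x : M => TangentSpace (WeakMTW.model n) x)]
    [IsContMDiffRiemannianBundle (WeakMTW.model n) ∞ (WeakMTW.Model n)
      (fun x : M => TangentSpace (WeakMTW.model n) x)]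
    [IsRiemannianManifold (WeakMTW.model n) M]

theorem isOpen_dom (hG : Geom n M) (z0 y0 : M) : IsOpen (dom (n := n) z0 y0) := by
  have h1 : ContinuousOn (fun p : EE n × EE n => WeakMTW.exp (n := n) (tmk z0 p).1 (tmk z0 p).2)
      ((extChartAt (II n) z0).target ×ˢ (univ : Set (EE n))) :=
    hG.cont_exp.comp_continuousOn (continuousOn_tmk z0)
  have h2 := h1.isOpen_inter_preimage ((isOpen_extChartAt_target z0).prod isOpen_univ)
    (isOpen_extChartAt_source (I := II n) y0)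
  convert h2 using 1
  ext p
  simp only [dom, mem_ofPred_eq, mem_inter_iff, mem_prod, mem_univ, and_true, mem_preimage]
  rfl

theorem mem_dom_chart {z0 y0 z : M} (hz : z ∈ (extChartAt (II n) z0).source)
    (v : TangentSpace (II n) z) (hy : WeakMTW.exp z v ∈ (extChartAt (II n) y0).source) :
    (extChartAt (II n) z0 z, cofr z0 z v) ∈ dom (n := n) z0 y0 := by
  refine ⟨(extChartAt (II n) z0).map_source hz, ?_⟩
  show WeakMTW.exp (n := n) (pt z0 (extChartAt (II n) z0 z))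
      (fr z0 (extChartAt (II n) z0 z) (cofr z0 z v)) ∈ _
  rw [exp_tmk_chart hz v]
  exact hy

theorem eC_chart {z0 : M} (y0 : M) {z : M} (hz : z ∈ (extChartAt (II n) z0).source)
    (v : TangentSpace (II n) z) :
    eC z0 y0 (extChartAt (II n) z0 z, cofr z0 z v) = extChartAt (II n) y0 (WeakMTW.exp z v) := by
  show extChartAt (II n) y0 (WeakMTW.exp (n := n) (pt z0 (extChartAt (II n) z0 z))
      (fr z0 (extChartAt (II n) z0 z) (cofr z0 z v))) = _
  rw [exp_tmk_chart hz v]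

theorem pt_eC {z0 y0 : M} {p : EE n × EE n} (hp : p ∈ dom z0 y0) :
    pt y0 (eC z0 y0 p) = WeakMTW.exp (n := n) (pt z0 p.1) (fr z0 p.1 p.2) :=
  pt_chart hp.2

theorem eC_mem_target {z0 y0 : M} {p : EE n × EE n} (hp : p ∈ dom z0 y0) :
    eC z0 y0 p ∈ (extChartAt (II n) y0).target :=
  (extChartAt (II n) y0).map_source hp.2

theorem contDiffAt_vC (hG : Geom n M) {z0 y0 : M} {p : EE n × EE n} (hp : p ∈ dom z0 y0) :
    ContDiffAt ℝ ∞ (vC z0 y0) p := by
  have h1 : ContDiffAt ℝ ∞ (fderiv ℝ (eC z0 y0)) p :=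
    (hG.smooth z0 y0 p hp).fderiv_right (m := ∞) (by simp)
  have h2 : ContDiffAt ℝ ∞ (fun q : EE n × EE n => ((0 : EE n), q.2)) p :=
    contDiffAt_const.prodMk contDiffAt_snd
  exact h1.clm_apply h2

/-- velocity of the geodesic at time `t`, in the chart. -/
theorem hasDerivAt_eC_ray (hG : Geom n M) {z0 y0 : M} {x u : EE n} {t : ℝ}
    (hp : (x, t • u) ∈ dom (n := n) z0 y0) :
    HasDerivAt (fun s : ℝ => eC z0 y0 (x, s • u)) (fderiv ℝ (eC z0 y0) (x, t • u) (0, u)) t := by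
  have h1 : HasFDerivAt (eC z0 y0) (fderiv ℝ (eC z0 y0) (x, t • u)) (x, t • u) :=
    ((hG.smooth z0 y0 _ hp).differentiableAt (by simp)).hasFDerivAt
  have h2 : HasDerivAt (fun s : ℝ => (x, s • u)) ((0 : EE n), u) t := by
    have h3 : HasDerivAt (fun s : ℝ => s • u) u t := by
      simpa using (hasDerivAt_id t).smul_const u
    exact (hasDerivAt_const t x).prodMk h3
  exact h1.comp_hasDerivAt t h2

/-- transport of tangent vectors does not change the chart coordinates. -/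
theorem ce_cofr_cast (y0 : M) {a b : M} (h : a = b) (m : TangentSpace (II n) a) :
    cofr y0 b (h ▸ m) = cofr y0 a m := by
  subst h
  rfl

/-- **key lemma**: chart coordinates of the velocity of a geodesic. -/
theorem ce_cofr_eq (hG : Geom n M) {z0 y0 x y : M} (v : TangentSpace (II n) x)
    (w : TangentSpace (II n) y) (t : ℝ) (hx : x ∈ (extChartAt (II n) z0).source)
    (hy : y ∈ (extChartAt (II n) y0).source) (hyt : WeakMTW.exp x (t • v) = y)
    (hw : ∀ s : ℝ, WeakMTW.exp y (s • w) = WeakMTW.exp x ((t + s) • v)) :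
    cofr y0 y w =
      fderiv ℝ (eC z0 y0) (extChartAt (II n) z0 x, t • cofr z0 x v) (0, cofr z0 x v) := by
  obtain ⟨hsm, h0, hder, -⟩ := hG.geod y w
  have hmd : MDifferentiableAt 𝓘(ℝ, ℝ) (II n) (fun s : ℝ => WeakMTW.exp y (s • w)) 0 :=
    hsm.mdifferentiableAt (by simp)
  have h0' : WeakMTW.exp y ((0 : ℝ) • w) = y := h0
  have d1 := hasDerivAt_chart_curve (z0 := y0) hmd (by
    show WeakMTW.exp y ((0 : ℝ) • w) ∈ _
    rw [h0']; exact hy)
  have e1 : cofr y0 ((fun s : ℝ => WeakMTW.exp y (s • w)) 0)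
      (mfderiv 𝓘(ℝ, ℝ) (II n) (fun s : ℝ => WeakMTW.exp y (s • w)) 0 (1 : ℝ)) = cofr y0 y w := by
    have e0 := ce_cofr_cast y0 h0
      (mfderiv 𝓘(ℝ, ℝ) (II n) (fun s : ℝ => WeakMTW.exp y (s • w)) 0 (1 : ℝ))
    rw [hder] at e0
    exact e0.symm
  rw [e1] at d1
  have hmem : (extChartAt (II n) z0 x, t • cofr z0 x v) ∈ dom (n := n) z0 y0 := by
    have := mem_dom_chart (y0 := y0) hx (t • v) (by rw [hyt]; exact hy)
    rwa [map_smul] at this
  have d2 := hasDerivAt_eC_ray hG hmem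
  have d3 : HasDerivAt (fun s : ℝ => eC z0 y0 (extChartAt (II n) z0 x, (t + s) • cofr z0 x v))
      (fderiv ℝ (eC z0 y0) (extChartAt (II n) z0 x, t • cofr z0 x v) (0, cofr z0 x v)) 0 := by
    have d2' : HasDerivAt (fun s : ℝ => eC z0 y0 (extChartAt (II n) z0 x, s • cofr z0 x v))
      (fderiv ℝ (eC z0 y0) (extChartAt (II n) z0 x, t • cofr z0 x v) (0, cofr z0 x v)) (t + 0) := by
      rw [add_zero]; exact d2
    exact d2'.comp_const_add t 0
  have e2 : (fun s : ℝ => extChartAt (II n) y0 (WeakMTW.exp y (s • w)))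
      = fun s : ℝ => eC z0 y0 (extChartAt (II n) z0 x, (t + s) • cofr z0 x v) := by
    funext s
    rw [hw s, ← map_smul, eC_chart y0 hx]
  rw [e2] at d1
  exact d1.unique d3

/-- the velocity at time one. -/
theorem ce_exists_w (hG : Geom n M) {z0 y0 : M} {p : EE n × EE n} (hp : p ∈ dom z0 y0) :
    ∃ w : TangentSpace (II n) (WeakMTW.exp (n := n) (pt z0 p.1) (fr z0 p.1 p.2)),
      ‖w‖ = ‖fr z0 p.1 p.2‖ ∧
      (∀ s : ℝ, WeakMTW.exp (WeakMTW.exp (n := n) (pt z0 p.1) (fr z0 p.1 p.2)) (s • w)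
        = WeakMTW.exp (pt z0 p.1) ((1 + s) • fr z0 p.1 p.2)) ∧
      cofr y0 (WeakMTW.exp (n := n) (pt z0 p.1) (fr z0 p.1 p.2)) w = vC z0 y0 p := by
  obtain ⟨w, hn, hw⟩ := shift' hG (pt z0 p.1) (fr z0 p.1 p.2) 1
    (WeakMTW.exp (n := n) (pt z0 p.1) (fr z0 p.1 p.2)) (by rw [one_smul])
  refine ⟨w, hn, hw, ?_⟩
  have h := ce_cofr_eq hG (z0 := z0) (y0 := y0) (fr z0 p.1 p.2) w 1 (pt_mem_source hp.1) hp.2
    (by rw [one_smul]) hw
  rw [chart_pt hp.1, cofr_fr hp.1, one_smul] at h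
  exact h

/-- flow property in charts. -/
theorem flowC (hG : Geom n M) {z0 y0 : M} {p : EE n × EE n} (hp : p ∈ dom z0 y0) (s : ℝ) :
    WeakMTW.exp (n := n) (pt y0 (eC z0 y0 p)) (s • fr y0 (eC z0 y0 p) (vC z0 y0 p)) =
      WeakMTW.exp (pt z0 p.1) ((1 + s) • fr z0 p.1 p.2) := by
  obtain ⟨w, hn, hw, hc⟩ := ce_exists_w hG hp
  have h := exp_tmk_chart (z0 := y0) hp.2 (s • w)
  rw [map_smul, hc, map_smul] at h
  exact h.trans (hw s)

/-- conservation of the speed. -/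
theorem speedC (hG : Geom n M) {z0 y0 : M} {p : EE n × EE n} (hp : p ∈ dom z0 y0) :
    gC y0 (eC z0 y0 p) (vC z0 y0 p) (vC z0 y0 p) = gC z0 p.1 p.2 p.2 := by
  obtain ⟨w, hn, hw, hc⟩ := ce_exists_w hG hp
  have h := norm_sq_eq_gC (z0 := y0) hp.2 w
  rw [hc, hn] at h
  rw [gC_self z0 p.1 p.2, h]
  rfl

/-- running the geodesic backwards. -/
theorem ce_back_exp (hG : Geom n M) {z0 y0 : M} {q : EE n × EE n} (hq : q ∈ dom z0 y0) (s : ℝ) :
    WeakMTW.exp (n := n) (pt y0 (eC z0 y0 q)) (s • fr y0 (eC z0 y0 q) (-vC z0 y0 q)) =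
      WeakMTW.exp (pt z0 q.1) ((1 - s) • fr z0 q.1 q.2) := by
  have h := flowC hG hq (-s)
  rw [map_neg, smul_neg, ← neg_smul, h, sub_eq_add_neg]

theorem ce_back_mem (hG : Geom n M) {z0 y0 : M} {q : EE n × EE n} (hq : q ∈ dom z0 y0) :
    (eC z0 y0 q, -vC z0 y0 q) ∈ dom (n := n) y0 z0 := by
  refine ⟨eC_mem_target hq, ?_⟩
  show WeakMTW.exp (n := n) (pt y0 (eC z0 y0 q)) (fr y0 (eC z0 y0 q) (-vC z0 y0 q)) ∈ _
  have h := ce_back_exp hG hq 1
  rw [one_smul, sub_self, zero_smul, exp_zero hG] at h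
  rw [h]
  exact pt_mem_source hq.1

theorem ce_back_eC (hG : Geom n M) {z0 y0 : M} {q : EE n × EE n} (hq : q ∈ dom z0 y0) :
    eC y0 z0 (eC z0 y0 q, -vC z0 y0 q) = q.1 := by
  show extChartAt (II n) z0
    (WeakMTW.exp (n := n) (pt y0 (eC z0 y0 q)) (fr y0 (eC z0 y0 q) (-vC z0 y0 q))) = q.1
  have h := ce_back_exp hG hq 1
  rw [one_smul, sub_self, zero_smul, exp_zero hG] at h
  rw [h, chart_pt hq.1]

theorem ce_back_vC (hG : Geom n M) {z0 y0 : M} {q : EE n × EE n} (hq : q ∈ dom z0 y0) :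
    vC y0 z0 (eC z0 y0 q, -vC z0 y0 q) = -q.2 := by
  obtain ⟨w, -, hw, hc⟩ := ce_exists_w hG (ce_back_mem hG hq)
  have hcurve : ∀ t : ℝ, WeakMTW.exp (WeakMTW.exp (n := n) (pt y0 (eC z0 y0 q))
      (fr y0 (eC z0 y0 q) (-vC z0 y0 q))) (t • w)
      = WeakMTW.exp (pt z0 q.1) (t • (-(fr z0 q.1 q.2))) := by
    intro t
    have h1 := hw t
    have h2 := ce_back_exp hG hq (1 + t)
    rw [show (1 : ℝ) - (1 + t) = -t by ring, neg_smul, ← smul_neg] at h2
    exact h1.trans h2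
  have hmk := mk_eq_of_curve_eq hG _ _ w (-(fr z0 q.1 q.2)) hcurve
  have h3 := congrArg (fun P => (Geo.tcoord z0 P).2) hmk
  have h4 : cofr z0 (WeakMTW.exp (n := n) (pt y0 (eC z0 y0 q))
      (fr y0 (eC z0 y0 q) (-vC z0 y0 q))) w = cofr z0 (pt z0 q.1) (-(fr z0 q.1 q.2)) := h3
  rw [← hc]
  refine h4.trans ?_
  rw [map_neg, cofr_fr hq.1]

/-- the geodesic flow is an immersion. -/
theorem flow_inj (hG : Geom n M) {z0 y0 : M} {p : EE n × EE n} (hp : p ∈ dom z0 y0)
    (δ : EE n × EE n) (h1 : fderiv ℝ (eC z0 y0) p δ = 0) (h2 : fderiv ℝ (vC z0 y0) p δ = 0) :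
    δ = 0 := by
  have hE : HasFDerivAt (eC z0 y0) (fderiv ℝ (eC z0 y0) p) p :=
    ((hG.smooth z0 y0 p hp).differentiableAt (by simp)).hasFDerivAt
  have hV : HasFDerivAt (vC z0 y0) (fderiv ℝ (vC z0 y0) p) p :=
    ((contDiffAt_vC hG hp).differentiableAt (by simp)).hasFDerivAt
  have hP := ce_back_mem hG hp
  have hE' : HasFDerivAt (eC y0 z0) (fderiv ℝ (eC y0 z0) (eC z0 y0 p, -vC z0 y0 p))
      (eC z0 y0 p, -vC z0 y0 p) :=
    ((hG.smooth y0 z0 _ hP).differentiableAt (by simp)).hasFDerivAt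
  have hV' : HasFDerivAt (vC y0 z0) (fderiv ℝ (vC y0 z0) (eC z0 y0 p, -vC z0 y0 p))
      (eC z0 y0 p, -vC z0 y0 p) :=
    ((contDiffAt_vC hG hP).differentiableAt (by simp)).hasFDerivAt
  have hΦ : HasFDerivAt (fun q => (eC z0 y0 q, -vC z0 y0 q))
      ((fderiv ℝ (eC z0 y0) p).prod (-(fderiv ℝ (vC z0 y0) p))) p := hE.prodMk hV.neg
  have hΨ : HasFDerivAt (fun P => (eC y0 z0 P, vC y0 z0 P))
      ((fderiv ℝ (eC y0 z0) (eC z0 y0 p, -vC z0 y0 p)).prod
        (fderiv ℝ (vC y0 z0) (eC z0 y0 p, -vC z0 y0 p))) (eC z0 y0 p, -vC z0 y0 p) :=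
    hE'.prodMk hV'
  have hcomp := hΨ.comp p hΦ
  have hL : HasFDerivAt (fun q : EE n × EE n => (q.1, -q.2))
      ((ContinuousLinearMap.fst ℝ (EE n) (EE n)).prod (-(ContinuousLinearMap.snd ℝ (EE n) (EE n))))
      p := hasFDerivAt_fst.prodMk hasFDerivAt_snd.neg
  have heq : (fun q : EE n × EE n => (q.1, -q.2)) =ᶠ[𝓝 p]
      ((fun P => (eC y0 z0 P, vC y0 z0 P)) ∘ fun q => (eC z0 y0 q, -vC z0 y0 q)) := by
    filter_upwards [(isOpen_dom hG z0 y0).mem_nhds hp] with q hq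
    show (q.1, -q.2) = (eC y0 z0 (eC z0 y0 q, -vC z0 y0 q), vC y0 z0 (eC z0 y0 q, -vC z0 y0 q))
    rw [ce_back_eC hG hq, ce_back_vC hG hq]
  have huniq := (hcomp.congr_of_eventuallyEq heq).unique hL
  have h3 := congrArg (fun L : EE n × EE n →L[ℝ] EE n × EE n => L δ) huniq
  have h4 : ((fderiv ℝ (eC z0 y0) p).prod (-(fderiv ℝ (vC z0 y0) p))) δ = 0 := by
    rw [ContinuousLinearMap.prod_apply, neg_apply, h1, h2, neg_zero]
    rfl
  simp only [ContinuousLinearMap.comp_apply, h4, map_zero] at h3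
  rw [ContinuousLinearMap.prod_apply] at h3
  have h5 : δ.1 = 0 := (congrArg Prod.fst h3).symm
  have h6 : -δ.2 = 0 := (congrArg Prod.snd h3).symm
  exact Prod.ext h5 (neg_eq_zero.1 h6)

/-- `D (eC z0 y0) p` is onto. -/
theorem fderiv_eC_surjective (hG : Geom n M) {z0 y0 : M} {p : EE n × EE n} (hp : p ∈ dom z0 y0) :
    Function.Surjective (fderiv ℝ (eC z0 y0) p) := by
  let Tl : (EE n × EE n) →ₗ[ℝ] (EE n × EE n) :=
    (((fderiv ℝ (eC z0 y0) p).prod (fderiv ℝ (vC z0 y0) p) :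
      EE n × EE n →L[ℝ] EE n × EE n) : (EE n × EE n) →ₗ[ℝ] (EE n × EE n))
  have hinj : Function.Injective Tl := by
    rw [injective_iff_map_eq_zero]
    intro δ hδ
    have h1 : fderiv ℝ (eC z0 y0) p δ = 0 := congrArg Prod.fst hδ
    have h2 : fderiv ℝ (vC z0 y0) p δ = 0 := congrArg Prod.snd hδ
    exact flow_inj hG hp δ h1 h2
  have hsurj : Function.Surjective Tl := LinearMap.injective_iff_surjective.1 hinj
  intro y
  obtain ⟨δ, hδ⟩ := hsurj (y, 0)
  exact ⟨δ, congrArg Prod.fst hδ⟩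

theorem zero_mem_dom {z0 : M} (hG : Geom n M) {x : EE n}
    (hx : x ∈ (extChartAt (II n) z0).target) : (x, (0 : EE n)) ∈ dom (n := n) z0 z0 := by
  refine ⟨hx, ?_⟩
  show WeakMTW.exp (n := n) (pt z0 x) (fr z0 x 0) ∈ _
  rw [map_zero, exp_zero hG]
  exact pt_mem_source hx

theorem eC_zero (hG : Geom n M) {z0 : M} {x : EE n} (hx : x ∈ (extChartAt (II n) z0).target) :
    eC z0 z0 (x, 0) = x := by
  show extChartAt (II n) z0 (WeakMTW.exp (n := n) (pt z0 x) (fr z0 x 0)) = x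
  rw [map_zero, exp_zero hG, chart_pt hx]

theorem fderiv_eC_zero (hG : Geom n M) {z0 : M} {x : EE n}
    (hx : x ∈ (extChartAt (II n) z0).target) (δ : EE n × EE n) :
    fderiv ℝ (eC z0 z0) (x, 0) δ = δ.1 + δ.2 := by
  have hd : HasFDerivAt (eC z0 z0) (fderiv ℝ (eC z0 z0) (x, 0)) (x, 0) :=
    ((hG.smooth z0 z0 _ (zero_mem_dom hG hx)).differentiableAt (by simp)).hasFDerivAt
  have hA : ∀ a : EE n, fderiv ℝ (eC z0 z0) (x, 0) (a, 0) = a := by
    intro a
    have c1 : HasDerivAt (fun s : ℝ => x + s • a) a 0 := by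
      simpa using ((hasDerivAt_id (0 : ℝ)).smul_const a).const_add x
    have c2 : HasDerivAt (fun s : ℝ => (x + s • a, (0 : EE n))) (a, (0 : EE n)) 0 :=
      c1.prodMk (hasDerivAt_const 0 0)
    have hd' : HasFDerivAt (eC z0 z0) (fderiv ℝ (eC z0 z0) (x, 0))
        ((fun s : ℝ => (x + s • a, (0 : EE n))) 0) := by
      simpa using hd
    have c3 := hd'.comp_hasDerivAt (0 : ℝ) c2
    have hev : ∀ᶠ s : ℝ in 𝓝 0, x + s • a ∈ (extChartAt (II n) z0).target := by
      have hc : ContinuousAt (fun s : ℝ => x + s • a) 0 := c1.continuousAt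
      refine hc.eventually_mem ?_
      simpa using (isOpen_extChartAt_target z0).mem_nhds hx
    have c4 : HasDerivAt (fun s : ℝ => x + s • a) (fderiv ℝ (eC z0 z0) (x, 0) (a, 0)) 0 := by
      refine c3.congr_of_eventuallyEq ?_
      filter_upwards [hev] with s hs
      exact (eC_zero hG hs).symm
    exact c4.unique c1
  have hB : ∀ u : EE n, fderiv ℝ (eC z0 z0) (x, 0) (0, u) = u := by
    intro u
    have h := ce_cofr_eq hG (z0 := z0) (y0 := z0) (fr z0 x u) (fr z0 x u) 0 (pt_mem_source hx)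
      (pt_mem_source hx) (by rw [zero_smul, exp_zero hG]) (fun s => by rw [zero_add])
    rw [chart_pt hx, cofr_fr hx, zero_smul] at h
    exact h.symm
  have e : δ = (δ.1, 0) + (0, δ.2) := by simp
  conv_lhs => rw [e]
  rw [map_add, hA, hB]

/-- Gauss lemma. -/
theorem gauss (hG : Geom n M) {z0 y0 : M} {p : EE n × EE n} (hp : p ∈ dom z0 y0) (k : EE n) :
    gC z0 p.1 p.2 k = gC y0 (eC z0 y0 p) (vC z0 y0 p) (fderiv ℝ (eC z0 y0) p (0, k)) := by
  have h := hG.first_var z0 y0 p hp (0, k)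
  have hz : gC z0 p.1 p.2 (0 : EE n) = 0 := by
    unfold gC
    rw [map_zero, inner_zero_right]
  have hdiff : ContDiffAt ℝ 1 (Geo.gChart (n := n) z0) p.1 :=
    ((contDiffOn_gChart' z0).contDiffAt ((isOpen_extChartAt_target z0).mem_nhds hp.1)).of_le
      (by simp)
  have e1 := ce_fderiv_quad (Geo.gChart (n := n) z0) p hdiff (Geo.gChart_symm z0 p.1) k
  have e2 : (fun q : EE n × EE n => gC z0 q.1 q.2 q.2 / 2)
      = fun q : EE n × EE n => Geo.gChart z0 q.1 q.2 q.2 / 2 := rfl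
  rw [e2, e1, hz, sub_zero] at h
  exact h

/-- the velocity vector of the geodesic `t ↦ exp_x (t v)` at time `t` as a point of `TM`: it has
chart coordinates `(eC (x̂, t û), D eC (x̂, t û) (0,û))`, generates the same geodesic, and depends
continuously on `t`. -/
theorem exists_velocity (hG : Geom n M) (x : M) (v : TangentSpace (II n) x) :
    ∃ w : ∀ t : ℝ, TangentSpace (II n) (WeakMTW.exp x (t • v)),
      (∀ t s : ℝ, WeakMTW.exp (WeakMTW.exp x (t • v)) (s • w t) = WeakMTW.exp x ((t + s) • v)) ∧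
      (∀ t : ℝ, ‖w t‖ = ‖v‖) ∧
      Continuous (fun t : ℝ => mk (WeakMTW.exp x (t • v)) (w t)) ∧
      mk (WeakMTW.exp x ((0 : ℝ) • v)) (w 0) = mk x v ∧
      ∀ (z0 y0 : M) (t : ℝ), x ∈ (extChartAt (II n) z0).source →
        WeakMTW.exp x (t • v) ∈ (extChartAt (II n) y0).source →
        cofr y0 (WeakMTW.exp x (t • v)) (w t) =
          fderiv ℝ (eC z0 y0) (extChartAt (II n) z0 x, t • cofr z0 x v) (0, cofr z0 x v) := by
  have hex : ∀ t : ℝ, ∃ w : TangentSpace (II n) (WeakMTW.exp x (t • v)), ‖w‖ = ‖v‖ ∧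
      ∀ s : ℝ, WeakMTW.exp (WeakMTW.exp x (t • v)) (s • w) = WeakMTW.exp x ((t + s) • v) :=
    fun t => shift' hG x v t _ rfl
  choose w hn hw using hex
  have hchart : ∀ (z0 y0 : M) (t : ℝ), x ∈ (extChartAt (II n) z0).source →
      WeakMTW.exp x (t • v) ∈ (extChartAt (II n) y0).source →
      cofr y0 (WeakMTW.exp x (t • v)) (w t) =
        fderiv ℝ (eC z0 y0) (extChartAt (II n) z0 x, t • cofr z0 x v) (0, cofr z0 x v) :=
    fun z0 y0 t hx hy => ce_cofr_eq hG v (w t) t hx hy rfl (hw t)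
  have hcont : Continuous fun t : ℝ => WeakMTW.exp x (t • v) := (hG.geod x v).1.continuous
  refine ⟨w, hw, hn, ?_, ?_, hchart⟩
  · rw [continuous_iff_continuousAt]
    intro t0
    have hx : x ∈ (extChartAt (II n) x).source := mem_extChartAt_source x
    have hy : WeakMTW.exp x (t0 • v) ∈ (extChartAt (II n) (WeakMTW.exp x (t0 • v))).source :=
      mem_extChartAt_source _
    show Tendsto _ _ _
    rw [tendsto_mk_iff (z0 := WeakMTW.exp x (t0 • v)) hy]
    refine ⟨hcont.tendsto t0, ?_⟩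
    have hev : ∀ᶠ t in 𝓝 t0,
        WeakMTW.exp x (t • v) ∈ (extChartAt (II n) (WeakMTW.exp x (t0 • v))).source :=
      hcont.continuousAt.eventually_mem ((isOpen_extChartAt_source _).mem_nhds hy)
    have hmem : (extChartAt (II n) x x, t0 • cofr x x v)
        ∈ dom (n := n) x (WeakMTW.exp x (t0 • v)) := by
      have := mem_dom_chart (y0 := WeakMTW.exp x (t0 • v)) hx (t0 • v) hy
      rwa [map_smul] at this
    have hfd : ContinuousAt (fderiv ℝ (eC x (WeakMTW.exp x (t0 • v))))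
        (extChartAt (II n) x x, t0 • cofr x x v) :=
      ((hG.smooth _ _ _ hmem).fderiv_right (m := 0) (by simp)).continuousAt
    have hcurve : ContinuousAt (fun t : ℝ => (extChartAt (II n) x x, t • cofr x x v)) t0 := by
      fun_prop
    have hlim : Tendsto (fun t : ℝ => fderiv ℝ (eC x (WeakMTW.exp x (t0 • v)))
        (extChartAt (II n) x x, t • cofr x x v) (0, cofr x x v)) (𝓝 t0)
        (𝓝 (fderiv ℝ (eC x (WeakMTW.exp x (t0 • v)))
          (extChartAt (II n) x x, t0 • cofr x x v) (0, cofr x x v))) :=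
      (ContinuousAt.comp (f := fun t : ℝ => (extChartAt (II n) x x, t • cofr x x v)) hfd
        hcurve).clm_apply continuousAt_const
    rw [hchart x _ t0 hx hy]
    refine hlim.congr' ?_
    filter_upwards [hev] with t ht
    exact (hchart x _ t hx ht).symm
  · refine mk_eq_of_curve_eq hG _ _ (w 0) v fun t => ?_
    rw [hw 0 t, zero_add]

/-- field `vel` of `SoftCore`. -/
theorem vel (hG : Geom n M) (x : M) (e : TangentSpace (WeakMTW.model n) x) :
    ∃ E : ∀ ε : ℝ, TangentSpace (WeakMTW.model n) (WeakMTW.exp x (ε • e)),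
      (∀ ε : ℝ, WeakMTW.exp (WeakMTW.exp x (ε • e)) ((-ε) • E ε) = x) ∧
      Tendsto (fun ε : ℝ => mk (WeakMTW.exp x (ε • e)) (E ε)) (𝓝 0) (𝓝 (mk x e)) := by
  obtain ⟨w, hw, -, hc, h0, -⟩ := exists_velocity hG x e
  refine ⟨w, fun ε => ?_, ?_⟩
  · rw [hw ε (-ε), add_neg_cancel, zero_smul, exp_zero hG]
  · have := hc.tendsto 0
    rwa [h0] at this

end

end Claimed.Agent.R213.Mid
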