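import Mathlib

/-!
# Row 213, MIDDLE layer: pure calculus for `concave_H` and `radial_H`

Bookkeeping for iterated one-variable derivatives (the shape in which `Def_0370.mtw` and
`Mid.hess2` are written) of jointly smooth functions, and concavity from the sign of the second
derivative along a chord.   Mathlib only.
-/

set_option autoImplicit false
set_option maxSynthPendingDepth 3
open scoped Topology ContDiff
open Set Filter

namespace Claimed.Agent.R213.Mid

variable {T : Type*} [NormedAddCommGroup T] [NormedSpace ℝ T]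

/-- derivative along the first variable of a function on `ℝ × T`. -/
theorem deriv_slice {f : ℝ × T → ℝ} {t : ℝ} {v : T} (h : DifferentiableAt ℝ f (t, v)) :
    deriv (fun t' => f (t', v)) t = fderiv ℝ f (t, v) (1, 0) := by
  have h1 : HasDerivAt (fun t' : ℝ => (t', v)) ((1 : ℝ), (0 : T)) t :=
    (hasDerivAt_id t).prodMk (hasDerivAt_const t v)
  exact (h.hasFDerivAt.comp_hasDerivAt t h1).deriv

/-- the first partial derivative, as a function on `ℝ × T`. -/
noncomputable def dT (f : ℝ × T → ℝ) (p : ℝ × T) : ℝ := fderiv ℝ f p (1, 0)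

theorem contDiffAt_dT {f : ℝ × T → ℝ} {p : ℝ × T} {m n : WithTop ℕ∞} (h : ContDiffAt ℝ n f p)
    (hmn : m + 1 ≤ n) : ContDiffAt ℝ m (dT f) p :=
  (h.fderiv_right hmn).clm_apply contDiffAt_const

/-- the iterated one-variable derivative is the iterated partial derivative. -/
theorem eventually_hessT_eq {f : ℝ × T → ℝ} {v₀ : T} (h : ContDiffAt ℝ 2 f (0, v₀)) :
    ∀ᶠ v in 𝓝 v₀, deriv (fun t => deriv (fun t' => f (t', v)) t) 0 = dT (dT f) (0, v) := by
  have h1 : ∀ᶠ p in 𝓝 ((0 : ℝ), v₀), ContDiffAt ℝ 2 f p := h.eventually (by simp)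
  obtain ⟨u, hu, w, hw, huw⟩ := mem_nhds_prod_iff.1 h1
  filter_upwards [hw] with v hv
  have h2 : (fun t => deriv (fun t' => f (t', v)) t) =ᶠ[𝓝 0] fun t => dT f (t, v) := by
    filter_upwards [hu] with t ht
    have : ContDiffAt ℝ 2 f (t, v) := huw (mk_mem_prod ht hv)
    exact deriv_slice (this.differentiableAt (by norm_num))
  rw [h2.deriv_eq]
  have h3 : ContDiffAt ℝ 2 f (0, v) := huw (mk_mem_prod (mem_of_mem_nhds hu) hv)
  have h4 : ContDiffAt ℝ 1 (dT f) (0, v) := contDiffAt_dT h3 (by norm_num)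
  exact deriv_slice (h4.differentiableAt (by norm_num))

/-- smooth dependence on the parameter of the second derivative at `t = 0`. -/
theorem contDiffAt_hessT {f : ℝ × T → ℝ} {v₀ : T} (h : ContDiffAt ℝ ∞ f (0, v₀)) :
    ContDiffAt ℝ ∞ (fun v => deriv (fun t => deriv (fun t' => f (t', v)) t) 0) v₀ := by
  have h2 : ContDiffAt ℝ 2 f (0, v₀) := h.of_le (WithTop.coe_le_coe.2 le_top)
  have h3 : ContDiffAt ℝ ∞ (dT (dT f)) (0, v₀) :=
    contDiffAt_dT (contDiffAt_dT h (m := ∞) (by simp)) (by simp)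
  have h4 : ContDiffAt ℝ ∞ (fun v : T => dT (dT f) (0, v)) v₀ :=
    h3.comp v₀ (contDiffAt_const.prodMk contDiffAt_id)
  exact h4.congr_of_eventuallyEq (eventually_hessT_eq h2)

/-- second derivative along a line through the origin: it is the quadratic form `D²F(0)`. -/
theorem hess_line {F : T → ℝ} (h : ContDiffAt ℝ 2 F 0) (e : T) :
    deriv (fun t => deriv (fun t' : ℝ => F (t' • e)) t) 0 = fderiv ℝ (fderiv ℝ F) 0 e e := by
  have h1 : ∀ᶠ p in 𝓝 (0 : T), ContDiffAt ℝ 2 F p := h.eventually (by simp)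
  have hc : Tendsto (fun t : ℝ => t • e) (𝓝 0) (𝓝 (0 : T)) := by
    have : Continuous (fun t : ℝ => t • e) := continuous_id.smul continuous_const
    simpa using this.tendsto 0
  have hl : ∀ t : ℝ, HasDerivAt (fun t' : ℝ => t' • e) e t := fun t => by
    simpa using (hasDerivAt_id t).smul_const e
  have h2 : (fun t => deriv (fun t' : ℝ => F (t' • e)) t) =ᶠ[𝓝 0] fun t => fderiv ℝ F (t • e) e := by
    filter_upwards [hc.eventually h1] with t ht
    exact ((ht.differentiableAt (by norm_num)).hasFDerivAt.comp_hasDerivAt t (hl t)).deriv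
  rw [h2.deriv_eq]
  have h3 : ContDiffAt ℝ 1 (fderiv ℝ F) 0 := h.fderiv_right (by norm_num)
  have h4 : HasFDerivAt (fderiv ℝ F) (fderiv ℝ (fderiv ℝ F) 0) ((0 : ℝ) • e) := by
    rw [zero_smul]; exact (h3.differentiableAt (by norm_num)).hasFDerivAt
  have h5 : HasDerivAt (fun t : ℝ => fderiv ℝ F (t • e)) (fderiv ℝ (fderiv ℝ F) 0 e) 0 :=
    h4.comp_hasDerivAt (0 : ℝ) (hl 0)
  have h6 : HasDerivAt (fun t : ℝ => fderiv ℝ F (t • e) e) (fderiv ℝ (fderiv ℝ F) 0 e e) 0 := by
    have := h5.clm_apply (hasDerivAt_const (0 : ℝ) e)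
    simpa using this
  exact h6.deriv

/-- symmetry of `D²F(0)`. -/
theorem hess_symm {F : T → ℝ} (h : ContDiffAt ℝ 2 F 0) (e e' : T) :
    fderiv ℝ (fderiv ℝ F) 0 e e' = fderiv ℝ (fderiv ℝ F) 0 e' e :=
  (h.isSymmSndFDerivAt (by simp)) e e'

/-- mixed second derivative: `D²F(0)(u,e) = d/dt DF(t u) e` at `t = 0`. -/
theorem hess_mixed {F : T → ℝ} (h : ContDiffAt ℝ 2 F 0) (u e : T) :
    HasDerivAt (fun t : ℝ => fderiv ℝ F (t • u) e) (fderiv ℝ (fderiv ℝ F) 0 u e) 0 := by
  have hl : HasDerivAt (fun t' : ℝ => t' • u) u 0 := by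
    simpa using (hasDerivAt_id (0 : ℝ)).smul_const u
  have h3 : ContDiffAt ℝ 1 (fderiv ℝ F) 0 := h.fderiv_right (by norm_num)
  have h4 : HasFDerivAt (fderiv ℝ F) (fderiv ℝ (fderiv ℝ F) 0) ((0 : ℝ) • u) := by
    rw [zero_smul]; exact (h3.differentiableAt (by norm_num)).hasFDerivAt
  have h5 : HasDerivAt (fun t : ℝ => fderiv ℝ F (t • u)) (fderiv ℝ (fderiv ℝ F) 0 u) 0 :=
    h4.comp_hasDerivAt (0 : ℝ) hl
  have := h5.clm_apply (hasDerivAt_const (0 : ℝ) e)
  simpa using this

/-- **Concavity along a chord** from the sign of the iterated derivative (the shape of `mtw`). -/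
theorem concave_chord {A : T → ℝ} {a η : T}
    (hsm : ∀ l ∈ Icc (0 : ℝ) 1, ContDiffAt ℝ 2 A (a + l • η))
    (hneg : ∀ l ∈ Ioo (0 : ℝ) 1,
      deriv (fun s => deriv (fun s' : ℝ => A ((a + l • η) + s' • η)) s) 0 ≤ 0) :
    ∀ l ∈ Icc (0 : ℝ) 1, (1 - l) * A a + l * A (a + η) ≤ A (a + l • η) := by
  set φ : ℝ → ℝ := fun l => A (a + l • η) with hφ
  have hline : ContDiff ℝ 2 (fun l : ℝ => a + l • η) :=
    contDiff_const.add (contDiff_id.smul contDiff_const)
  have hφs : ∀ l ∈ Icc (0 : ℝ) 1, ContDiffAt ℝ 2 φ l := fun l hl =>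
    (hsm l hl).comp l hline.contDiffAt
  have hint : interior (Icc (0 : ℝ) 1) = Ioo 0 1 := interior_Icc
  have hd1 : ∀ l ∈ Icc (0 : ℝ) 1, ContDiffAt ℝ 1 (deriv φ) l := fun l hl => by
    have h2 : ContDiffAt ℝ 1 (fderiv ℝ φ) l := (hφs l hl).fderiv_right (by norm_num)
    exact h2.clm_apply contDiffAt_const
  have hconc : ConcaveOn ℝ (Icc (0 : ℝ) 1) φ := by
    refine concaveOn_of_deriv2_nonpos (convex_Icc 0 1)
      (fun l hl => (hφs l hl).continuousAt.continuousWithinAt) ?_ ?_ ?_
    · intro l hl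
      rw [hint] at hl
      exact ((hφs l (Ioo_subset_Icc_self hl)).differentiableAt (by norm_num)).differentiableWithinAt
    · intro l hl
      rw [hint] at hl
      exact ((hd1 l (Ioo_subset_Icc_self hl)).differentiableAt (by norm_num)).differentiableWithinAt
    · intro l hl
      rw [hint] at hl
      have h := hneg l hl
      have e1 : ∀ s : ℝ, (fun s' : ℝ => A ((a + l • η) + s' • η)) = fun s' => φ (l + s') := by
        intro s; funext s'
        simp only [hφ, add_smul, add_assoc]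
      have e2 : (fun s => deriv (fun s' : ℝ => A ((a + l • η) + s' • η)) s)
          = fun s => deriv φ (l + s) := by
        funext s
        rw [e1 s, deriv_comp_const_add]
      rw [e2, deriv_comp_const_add, add_zero] at h
      simpa [Function.iterate_succ] using h
  intro l hl
  have h := hconc.2 (left_mem_Icc.2 zero_le_one) (right_mem_Icc.2 zero_le_one)
    (sub_nonneg.2 hl.2) hl.1 (by ring)
  simp only [smul_eq_mul, mul_zero, mul_one, zero_add] at h
  simpa [hφ] using h

end Claimed.Agent.R213.Mid
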