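import Claimed.Agent.R213.Mid.CostEq
import Claimed.Agent.R213.Mid.ConcCalc

/-!
# Row 213, MIDDLE layer, file M10: weak MTW = concavity of `Hq` (field `concave_H` of `SoftCore`)

Sketches.  `mtw_eq`: unfolding `WeakMTW.mtw` and `hess2`,
`mtw x v ξ η = -(3/2) * deriv (fun s => deriv (fun s' => hess2 (fun x' => cost x' (exp x (v + s' • η))) x ξ) s) 0`
holds by `rfl`; by `hess_cost_eq_Hq` the inner function of `s'` equals `Hq x (v + s' • η) ξ` for `s'` near `0`
(`Filter.EventuallyEq.deriv` twice).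
`concave_Hq`: `f s := Hq x (a + s • (b - a)) e`, `Calc.concave_of_deriv2_nonpos`; `ContDiffAt ℝ 2 f s` from
`contDiffAt_Hq` (`hnf`), the sign from `mtw_eq` at `v = a + s • (b - a)`, `η = b - a`, `ξ = e` and `hmtw`.
-/

set_option autoImplicit false
set_option linter.unusedSectionVars false
open Claims Claims.C0370 Claims.C0370.WeakMTWGlobalSupport
open scoped Manifold ContDiff Topology
open Set Filter Manifold Bundle

namespace Claimed.Agent.R213.Mid

noncomputable section

variable {n : ℕ} {M : Type*}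
    [MetricSpace M] [ChartedSpace (WeakMTW.Model n) M]
    [IsManifold (WeakMTW.model n) ∞ M]
    [RiemannianBundle (fun x : M => TangentSpace (WeakMTW.model n) x)]
    [IsContMDiffRiemannianBundle (WeakMTW.model n) ∞ (WeakMTW.Model n)
      (fun x : M => TangentSpace (WeakMTW.model n) x)]
    [IsRiemannianManifold (WeakMTW.model n) M]

theorem mtw_eq (hG : Geom n M)
    (hnf : ∀ (x : M) (v : TangentSpace (II n) x), v ∈ WeakMTW.injectivityDomain x → NF x v)
    (x : M) (v ξ η : TangentSpace (II n) x) (hv : v ∈ WeakMTW.injectivityDomain x) :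
    WeakMTW.mtw x v ξ η =
      -(3 / 2 : ℝ) * deriv (fun s : ℝ => deriv (fun s' : ℝ => Hq x (v + s' • η) ξ) s) 0 := by
  have h0 : WeakMTW.mtw x v ξ η = -(3 / 2 : ℝ) * deriv (fun s : ℝ => deriv (fun s' : ℝ =>
      hess2 (fun x' => WeakMTW.cost x' (WeakMTW.exp x (v + s' • η))) x ξ) s) 0 := rfl
  rw [h0]
  have hc : Tendsto (fun s' : ℝ => v + s' • η) (𝓝 0) (𝓝 v) := by
    have h1 : Continuous (fun s' : ℝ => v + s' • η) :=
      continuous_const.add (continuous_id.smul continuous_const)
    simpa using h1.tendsto 0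
  have h2 : (fun s' : ℝ => hess2 (fun x' => WeakMTW.cost x' (WeakMTW.exp x (v + s' • η))) x ξ)
      =ᶠ[𝓝 0] fun s' : ℝ => Hq x (v + s' • η) ξ := by
    filter_upwards [hc.eventually (hess_cost_eq_Hq hG hnf x v hv)] with s' hs'
    exact hs' ξ
  rw [h2.deriv.deriv_eq]

/-- field `concave_H` of `SoftCore`. -/
theorem concave_Hq (hG : Geom n M)
    (hnf : ∀ (x : M) (v : TangentSpace (II n) x), v ∈ WeakMTW.injectivityDomain x → NF x v)
    (hmtw : WeakMTW.HasWeakMTW (n := n) (M := M))
    (x : M) (a b e : TangentSpace (WeakMTW.model n) x)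
    (hc : ∀ l : ℝ, 0 ≤ l → l ≤ 1 → (1 - l) • a + l • b ∈ WeakMTW.injectivityDomain x)
    (he : inner ℝ e (b - a) = 0) (l : ℝ) (h0 : 0 ≤ l) (h1 : l ≤ 1) :
    (1 - l) * Hq x a e + l * Hq x b e ≤ Hq x ((1 - l) • a + l • b) e := by
  have hline : ∀ s : ℝ, a + s • (b - a) = (1 - s) • a + s • b := by
    intro s
    rw [smul_sub, sub_smul, one_smul]
    abel
  have hmem : ∀ s ∈ Icc (0 : ℝ) 1, a + s • (b - a) ∈ WeakMTW.injectivityDomain x := by
    intro s hs
    rw [hline]
    exact hc s hs.1 hs.2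
  have key := concave_chord (A := fun w : TangentSpace (II n) x => Hq x w e) (a := a) (η := b - a)
    (fun s hs => (contDiffAt_Hq hG (hnf x _ (hmem s hs)) e).of_le (WithTop.coe_le_coe.2 le_top))
    (fun s hs => by
      have h3 := hmtw x _ (hmem s (Ioo_subset_Icc_self hs)) e (b - a) he
      rw [mtw_eq hG hnf x _ e (b - a) (hmem s (Ioo_subset_Icc_self hs))] at h3
      linarith)
    l ⟨h0, h1⟩
  simp only [hline] at key
  have hb : a + (b - a) = b := by abel
  rwa [hb] at key

end

end Claimed.Agent.R213.Mid
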