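import Claimed.Agent.R213.Mid.Semi

/-!
# Row 213, MIDDLE layer, file M9: the cost equals its branch near an interior velocity; `I(x)` is open;
`Hq` is the Hessian of the cost on `I(x)`; upper bound of `Hq` on `I(x)`

Sketches.
`cost_eq`: by contradiction with a sequence `q_k → (x, exp x u)` (`M × M` is first countable); minimising
velocities `w_k ∈ Vmin q_k.1 q_k.2` (`hG.hopf_rinow`) are bounded, `tm_cpt` gives a limit `mk x wl` along a
subsequence; `exp x wl = exp x u`, `‖wl‖ = dist` by `hG.cont_exp`, `tm_cont_norm`; so `wl = u` (`huniq`), hence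
`mk q_k.1 w_k ∈ N` eventually and `W q_k.1 q_k.2 = w_k` by `W_exp`: `‖W‖²/2 = dist²/2`.
`isOpen_injDomain`: `v ∈ I(x)` with `a > 1`; `a' = (1+a)/2`; `a' v ∈ I(x)`, so `NF`, `unique_min`, `cost_eq` at
`(x, a' v)`; for `w` near `v`: `mk x (a' w) ∈ N` (`continuous_mk_fibre`), `W x (exp x (a' w)) = a' w`, so
`dist x (exp x (a' w)) = a' ‖w‖`.
`hess_cost_eq_Hq`: branch `W` at `(x,v)`; for `w` near `v`, `W` is a branch at `(x,w)` (`W_exp`, `transfer`, `congr`),
`Hq_eq`; the neighbourhood of `cost_eq` contains a product `O₁ × O₂`; germ equality along `t' ↦ exp x (t' ξ)`.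
`Hq_le`: `semiconcave` + `cost_eq` + `IsBranch.taylor` along `t e`, `t → 0` (`hom_Hq`).
-/

set_option autoImplicit false
set_option linter.unusedSectionVars false
open Claims Claims.C0370 Claims.C0370.WeakMTWGlobalSupport
open scoped Manifold ContDiff Topology
open Set Filter Manifold Bundle

namespace Claimed.Agent.R213.Mid

noncomputable section

variable {n : ℕ} {M : Type*}
    [MetricSpace M] [ChartedSpace (WeakMTW.Model n) M]
    [IsManifold (WeakMTW.model n) ∞ M]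
    [RiemannianBundle (fun x : M => TangentSpace (WeakMTW.model n) x)]
    [IsContMDiffRiemannianBundle (WeakMTW.model n) ∞ (WeakMTW.Model n)
      (fun x : M => TangentSpace (WeakMTW.model n) x)]
    [IsRiemannianManifold (WeakMTW.model n) M]

theorem ce_tendsto_norm {X : ℕ → M} {xl : M}
    {w : ∀ k, TangentSpace (WeakMTW.model n) (X k)} {wl : TangentSpace (WeakMTW.model n) xl}
    (h : Tendsto (fun k => R213.mk (X k) (w k)) atTop (𝓝 (R213.mk xl wl))) :
    Tendsto (fun k => ‖w k‖) atTop (𝓝 ‖wl‖) := by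
  have h1 := ((tm_cont_norm (n := n) (M := M)).tendsto (R213.mk xl wl)).comp h
  dsimp only [Function.comp_def] at h1
  exact h1

theorem ce_tendsto_exp (hG : Geom n M) {X : ℕ → M} {xl : M}
    {w : ∀ k, TangentSpace (WeakMTW.model n) (X k)} {wl : TangentSpace (WeakMTW.model n) xl}
    (h : Tendsto (fun k => R213.mk (X k) (w k)) atTop (𝓝 (R213.mk xl wl))) :
    Tendsto (fun k => WeakMTW.exp (X k) (w k)) atTop (𝓝 (WeakMTW.exp xl wl)) := by
  have h1 := (hG.cont_exp.tendsto (R213.mk xl wl)).comp h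
  dsimp only [Function.comp_def] at h1
  exact h1

theorem PreBranch.cost_eq (hG : Geom n M) {x : M} {u : TangentSpace (II n) x}
    {W : ∀ x' : M, M → TangentSpace (II n) x'} {z0 y0 : M} {U V : Set M}
    {N : Set (TangentBundle (II n) M)} (h : PreBranch x u W z0 y0 U V N) (hu : u ∈ Ibar x)
    (huniq : ∀ w ∈ Vmin x (WeakMTW.exp x u), w = u) :
    ∀ᶠ q : M × M in 𝓝 (x, WeakMTW.exp x u), cst q.1 q.2 = ‖W q.1 q.2‖ ^ 2 / 2 := by
  by_contra hcon
  rw [Filter.not_eventually] at hcon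
  obtain ⟨q, hq, hbad⟩ := Filter.exists_seq_forall_of_frequently hcon
  have hq1 : Tendsto (fun k => (q k).1) atTop (𝓝 x) := (continuous_fst.tendsto _).comp hq
  have hq2 : Tendsto (fun k => (q k).2) atTop (𝓝 (WeakMTW.exp x u)) :=
    (continuous_snd.tendsto _).comp hq
  have hd : Tendsto (fun k => dist (q k).1 (q k).2) atTop (𝓝 (dist x (WeakMTW.exp x u))) :=
    hq1.dist hq2
  choose w hw using fun k => hG.hopf_rinow (q k).1 (q k).2
  obtain ⟨R, hR⟩ := hd.bddAbove_range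
  have hwR : ∀ k, ‖w k‖ ≤ R := by
    intro k
    rw [(hw k).2]
    exact hR (mem_range_self k)
  obtain ⟨wl, φ, hφ, hlim⟩ := tm_cpt (fun k => (q k).1) x w R hq1 hwR
  have he : WeakMTW.exp x wl = WeakMTW.exp x u := by
    have h1 : Tendsto (fun k => WeakMTW.exp (q (φ k)).1 (w (φ k))) atTop (𝓝 (WeakMTW.exp x wl)) :=
      ce_tendsto_exp hG hlim
    have h2 : (fun k => WeakMTW.exp (q (φ k)).1 (w (φ k))) = fun k => (q (φ k)).2 :=
      funext fun k => (hw (φ k)).1
    rw [h2] at h1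
    exact tendsto_nhds_unique h1 (hq2.comp hφ.tendsto_atTop)
  have hn : ‖wl‖ = dist x (WeakMTW.exp x u) := by
    have h1 : Tendsto (fun k => ‖w (φ k)‖) atTop (𝓝 ‖wl‖) := ce_tendsto_norm hlim
    have h2 : (fun k => ‖w (φ k)‖) = fun k => dist (q (φ k)).1 (q (φ k)).2 :=
      funext fun k => (hw (φ k)).2
    rw [h2] at h1
    exact tendsto_nhds_unique h1 (hd.comp hφ.tendsto_atTop)
  have hwl : wl = u := huniq wl ⟨he, hn⟩
  rw [hwl] at hlim
  obtain ⟨k, hk⟩ := (hlim.eventually h.hN).exists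
  have h3 := (h.W_exp _ hk).2.2
  have h4 : W (q (φ k)).1 (WeakMTW.exp (q (φ k)).1 (w (φ k))) = w (φ k) := h3
  rw [(hw (φ k)).1] at h4
  apply hbad (φ k)
  rw [h4, (hw (φ k)).2]
  rfl

theorem isOpen_injDomain (hG : Geom n M)
    (hnf : ∀ (x : M) (v : TangentSpace (II n) x), v ∈ WeakMTW.injectivityDomain x → NF x v)
    (x : M) : IsOpen (WeakMTW.injectivityDomain (n := n) x) := by
  rw [isOpen_iff_mem_nhds]
  intro v hv
  obtain ⟨a, ha, hav⟩ := hv
  set a' : ℝ := (1 + a) / 2 with ha'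
  have ha'1 : 1 < a' := by rw [ha']; linarith
  have ha'a : a' < a := by rw [ha']; linarith
  have havI : a • v ∈ Ibar x := by
    show dist x (WeakMTW.exp x (a • v)) = ‖a • v‖
    rw [hav, norm_smul, Real.norm_eq_abs, abs_of_pos (by linarith)]
  have hmem : a' • v ∈ WeakMTW.injectivityDomain x := by
    have h1 := smul_mem_injDomain hG x (a • v) havI (a' / a) (by positivity)
      ((div_lt_one (by linarith)).2 ha'a)
    rwa [smul_smul, div_mul_cancel₀ _ (by linarith : a ≠ 0)] at h1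
  obtain ⟨W, z0, y0, U, V, N, hP⟩ := hnf x (a' • v) hmem
  have hce := hP.cost_eq hG (mem_Ibar_of_mem hG x _ hmem)
    (fun w hw => unique_min hG x (a' • v) w hmem hw)
  have hc1 : Continuous (fun w : TangentSpace (II n) x => R213.mk x (a' • w)) :=
    (continuous_mk_fibre x).comp (continuous_const_smul a')
  have hc2 : Continuous (fun w : TangentSpace (II n) x => (x, WeakMTW.exp x (a' • w))) :=
    continuous_const.prodMk (hG.cont_exp.comp hc1)
  have e1 : ∀ᶠ w in 𝓝 v, R213.mk x (a' • w) ∈ N := (hc1.tendsto v).eventually hP.hN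
  have e2 : ∀ᶠ w in 𝓝 v, cst x (WeakMTW.exp x (a' • w)) =
      ‖W x (WeakMTW.exp x (a' • w))‖ ^ 2 / 2 := (hc2.tendsto v).eventually hce
  filter_upwards [e1, e2] with w hw1 hw2
  have h3 : W x (WeakMTW.exp x (a' • w)) = a' • w := (hP.W_exp _ hw1).2.2
  rw [h3] at hw2
  refine ⟨a', ha'1, ?_⟩
  have h4 : dist x (WeakMTW.exp x (a' • w)) ^ 2 = ‖a' • w‖ ^ 2 := by
    unfold cst at hw2
    linarith
  have h5 : dist x (WeakMTW.exp x (a' • w)) = ‖a' • w‖ :=
    (pow_left_inj₀ dist_nonneg (norm_nonneg _) (by norm_num)).1 h4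
  rw [h5, norm_smul, Real.norm_eq_abs, abs_of_pos (by linarith)]

theorem hess_cost_eq_Hq (hG : Geom n M)
    (hnf : ∀ (x : M) (v : TangentSpace (II n) x), v ∈ WeakMTW.injectivityDomain x → NF x v)
    (x : M) (v : TangentSpace (II n) x) (hv : v ∈ WeakMTW.injectivityDomain x) :
    ∀ᶠ w in 𝓝 v, ∀ ξ : TangentSpace (II n) x,
      hess2 (fun x' => WeakMTW.cost x' (WeakMTW.exp x w)) x ξ = Hq x w ξ := by
  obtain ⟨W, z0, y0, U, V, N, hP⟩ := hnf x v hv
  have hce := hP.cost_eq hG (mem_Ibar_of_mem hG x _ hv)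
    (fun w hw => unique_min hG x v w hv hw)
  rw [nhds_prod_eq] at hce
  obtain ⟨O₁, hO₁, O₂, hO₂, hO⟩ := Filter.eventually_prod_iff.1 hce
  have hc1 : Continuous (fun w : TangentSpace (II n) x => R213.mk x w) := continuous_mk_fibre x
  have hc2 : Continuous (fun w : TangentSpace (II n) x => WeakMTW.exp x w) :=
    hG.cont_exp.comp hc1
  have e1 : ∀ᶠ w in 𝓝 v, R213.mk x w ∈ N := (hc1.tendsto v).eventually hP.hN
  have e2 : ∀ᶠ w in 𝓝 v, O₂ (WeakMTW.exp x w) := (hc2.tendsto v).eventually hO₂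
  filter_upwards [e1, e2] with w hw1 hw2 ξ
  obtain ⟨-, hwV, hwW⟩ := hP.W_exp _ hw1
  have hwW' : W x (WeakMTW.exp x w) = w := hwW
  have hwV' : WeakMTW.exp x w ∈ V := hwV
  have hP' : PreBranch x w W z0 y0 U V N := by
    have := hP.transfer hP.hx hwV'
    rwa [hwW'] at this
  rw [hP'.Hq_eq hG ξ]
  have hct : Tendsto (fun t : ℝ => WeakMTW.exp x (t • ξ)) (𝓝 0) (𝓝 x) := by
    have := (continuous_exp_smul hG x ξ).tendsto 0
    rwa [zero_smul, exp_zero hG] at this
  have hgt : (fun t' : ℝ => WeakMTW.cost (WeakMTW.exp x (t' • ξ)) (WeakMTW.exp x w))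
      =ᶠ[𝓝 0] (fun t' : ℝ => ‖W (WeakMTW.exp x (t' • ξ)) (WeakMTW.exp x w)‖ ^ 2 / 2) := by
    filter_upwards [hct.eventually hO₁] with t ht
    exact hO ht hw2
  unfold hess2
  exact hgt.deriv.deriv_eq

theorem Hq_le [CompactSpace M] (hG : Geom n M)
    (hnf : ∀ (x : M) (v : TangentSpace (II n) x), v ∈ WeakMTW.injectivityDomain x → NF x v) :
    ∃ C : ℝ, ∀ (x : M) (v : TangentSpace (II n) x), v ∈ WeakMTW.injectivityDomain x →
      ∀ e : TangentSpace (II n) x, Hq x v e ≤ C * ‖e‖ ^ 2 := by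
  obtain ⟨C, r, hr, hsc⟩ := semiconcave hG hnf
  refine ⟨2 * C, fun x v hv e => ?_⟩
  have hvI : dist x (WeakMTW.exp x v) = ‖v‖ := mem_Ibar_of_mem hG x v hv
  have hvmin : v ∈ Vmin x (WeakMTW.exp x v) := ⟨rfl, hvI.symm⟩
  have hNF := hnf x v hv
  obtain ⟨W, z0, y0, U, V, N, hP⟩ := hNF
  obtain ⟨U', U₀, V', N', N₀, C', r', -, -, -, -, hP', hB⟩ := hP.isBranch hG
  have hce := hP'.cost_eq hG (mem_Ibar_of_mem hG x _ hv)
    (fun w hw => unique_min hG x v w hv hw)
  have hWs : W x (WeakMTW.exp x v) = v := hP'.W_self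
  have hct : Tendsto (fun t : ℝ => (WeakMTW.exp x (t • e), WeakMTW.exp x v)) (𝓝 0)
      (𝓝 (x, WeakMTW.exp x v)) := by
    have := ((continuous_exp_smul hG x e).prodMk
      (continuous_const (y := WeakMTW.exp x v))).tendsto 0
    simpa only [zero_smul, exp_zero hG] using this
  have e1 : ∀ᶠ t : ℝ in 𝓝 0, cst (WeakMTW.exp x (t • e)) (WeakMTW.exp x v)
      = ‖W (WeakMTW.exp x (t • e)) (WeakMTW.exp x v)‖ ^ 2 / 2 := hct.eventually hce
  have e2 : ∀ᶠ t : ℝ in 𝓝 0, ‖t • e‖ < min r r' := by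
    have hc : Continuous fun t : ℝ => ‖t • e‖ := (continuous_id.smul continuous_const).norm
    have := hc.tendsto 0
    simp only [zero_smul, norm_zero] at this
    exact this.eventually (gt_mem_nhds (lt_min hr hB.hr))
  have key : ∀ᶠ t : ℝ in 𝓝[>] 0, Hq x v e ≤ 2 * C * ‖e‖ ^ 2 + 2 * C' * ‖e‖ ^ 3 * t := by
    filter_upwards [nhdsWithin_le_nhds e1, nhdsWithin_le_nhds e2, self_mem_nhdsWithin]
      with t ht1 ht2 ht0
    have ht0' : (0 : ℝ) < t := ht0
    have h1 := hsc x (WeakMTW.exp x v) v hvmin (t • e) (lt_of_lt_of_le ht2 (min_le_left _ _))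
    have h2 := (hB.taylor x hB.hx (WeakMTW.exp x v) hB.hy (t • e)
      (lt_of_lt_of_le ht2 (min_le_right _ _))).2
    rw [hWs, ← ht1, hom_Hq hG x v e t (hnf x v hv)] at h2
    have h3 := (abs_le.1 h2).1
    have h4 : cst x (WeakMTW.exp x v) = ‖v‖ ^ 2 / 2 := by
      unfold cst; rw [hvI]
    have h5 : ‖t • e‖ = t * ‖e‖ := by
      rw [norm_smul, Real.norm_eq_abs, abs_of_pos ht0']
    rw [h5] at h1 h3
    rw [h4] at h1
    have h6 : t ^ 2 * Hq x v e ≤ t ^ 2 * (2 * C * ‖e‖ ^ 2 + 2 * C' * ‖e‖ ^ 3 * t) := by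
      nlinarith
    exact le_of_mul_le_mul_left h6 (by positivity)
  have hlim : Tendsto (fun t : ℝ => 2 * C * ‖e‖ ^ 2 + 2 * C' * ‖e‖ ^ 3 * t) (𝓝[>] 0)
      (𝓝 (2 * C * ‖e‖ ^ 2)) := by
    have hc : Continuous fun t : ℝ => 2 * C * ‖e‖ ^ 2 + 2 * C' * ‖e‖ ^ 3 * t := by fun_prop
    have := hc.tendsto 0
    simp only [mul_zero, add_zero] at this
    exact this.mono_left nhdsWithin_le_nhds
  exact ge_of_tendsto hlim key

end

end Claimed.Agent.R213.Mid
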