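import Claimed.Agent.R213.Mid.Concave

/-!
# Row 213, MIDDLE layer, file M11: `Hq x 0 = |.|²`, `Hq x v (v, .) = <v, .>`, radial margin (field `radial_H`)

Sketches.
`Hq_zero`: branch `W` at `(x,0)` (`nf_zero`).  With `w t` from `exists_velocity x e`: the point
`mk (exp x (t e)) ((-t) • w t)` tends to `mk x 0` and its `exp` is `x`, so by `W_exp`
`W (exp x (t e)) x = (-t) • w t` for small `t`, `‖·‖²/2 = t² ‖e‖²/2`; `Hq_eq`; second derivative of `t²‖e‖²/2`.
`Hq_polar`: branch `W` at `(x,v)` in charts `z0,y0`, `q = (chart x, chart (exp x v))`, `F = FN W z0 y0`,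
`Q` from `Calc.exists_second_form`.  For small `s`: `fderiv F (q, s • v̂) (0, ξ̂) = -(1 - s) * <v, ξ>`.  Indeed by
`fderiv_FN` it is `- gC (n_s) (Uc (n_s, ŷ)) (D eC z0 z0 (x̂, s v̂) (0,ξ̂))`, `n_s = eC z0 z0 (x̂, s v̂)`;
`Uc (n_s, ŷ) = (1 - s) • D eC z0 z0 (x̂, s v̂) (0, v̂)` (`exists_velocity` + `W_exp`: the vector `(1-s) • w s` at `exp x (s v)`
tends to `mk x v` and its `exp` is `exp x v`); and `gC (n_s) (D eC (x̂,s v̂)(0,v̂)) (D eC (x̂,s v̂)(0,ξ̂)) = gC x̂ v̂ ξ̂` by `gauss` at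
`p = (x̂, s v̂)` (divide by `s ≠ 0`; `s = 0` by `fderiv_eC_zero`, or by continuity).  Differentiate at `s = 0`:
`Q q v̂ ξ̂ = <v, ξ>`.  So for the operator `A` of `exists_Hop` (polarisation): `A v = v`.
`Hq_radial`: expand `<A (α v + e), α v + e>`.
`radial_Hq`: decompose `e = α p + e'`, `e' ⟂ p`; `Hq_radial` at `t p` and `s p` (`s > 0`), `Hq_zero` (`s = 0`, or `p = 0`),
`concave_Hq` on the chord from `0` to `t p` for `e'`, `l = s/t`.
-/

set_option autoImplicit false
set_option linter.unusedSectionVars false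
open Claims Claims.C0370 Claims.C0370.WeakMTWGlobalSupport
open scoped Manifold ContDiff Topology
open Set Filter Manifold Bundle

namespace Claimed.Agent.R213.Mid

noncomputable section

variable {n : ℕ} {M : Type*}
    [MetricSpace M] [ChartedSpace (WeakMTW.Model n) M]
    [IsManifold (WeakMTW.model n) ∞ M]
    [RiemannianBundle (fun x : M => TangentSpace (WeakMTW.model n) x)]
    [IsContMDiffRiemannianBundle (WeakMTW.model n) ∞ (WeakMTW.Model n)
      (fun x : M => TangentSpace (WeakMTW.model n) x)]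
    [IsRiemannianManifold (WeakMTW.model n) M]

theorem h687_gC_smul_left (z0 : M) (a : EE n) (c : ℝ) (b d : EE n) :
    gC z0 a (c • b) d = c * gC z0 a b d := by
  simp [gC, inner_smul_left]

/-- scalar multiples of a convergent family of tangent vectors converge. -/
theorem h687_tendsto_smul_mk {l : Filter ℝ} {x : ℝ → M} {w : ∀ t, TangentSpace (II n) (x t)}
    {z : M} {e : TangentSpace (II n) z} {c : ℝ → ℝ} {c0 : ℝ}
    (h : Tendsto (fun t => mk (x t) (w t)) l (𝓝 (mk z e))) (hc : Tendsto c l (𝓝 c0)) :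
    Tendsto (fun t => mk (x t) (c t • w t)) l (𝓝 (mk z (c0 • e))) := by
  have hz : z ∈ (extChartAt (II n) z).source := mem_extChartAt_source z
  rw [tendsto_mk_iff hz] at h ⊢
  refine ⟨h.1, ?_⟩
  have := hc.smul h.2
  simpa only [map_smul] using this

theorem Hq_zero (hG : Geom n M) (x : M) (e : TangentSpace (II n) x) :
    Hq x 0 e = ‖e‖ ^ 2 := by
  obtain ⟨W, z0, y0, U, V, N, hP⟩ := nf_zero hG x
  rw [hP.Hq_eq hG e, exp_zero hG x]
  obtain ⟨w, hw1, hw2, hw3, hw4, -⟩ := exists_velocity hG x e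
  have ht0 : Tendsto (fun t : ℝ => mk (WeakMTW.exp x (t • e)) (w t)) (𝓝 0) (𝓝 (mk x e)) := by
    have := hw3.tendsto 0
    rwa [hw4] at this
  have ht1 : Tendsto (fun t : ℝ => mk (WeakMTW.exp x (t • e)) ((-t) • w t)) (𝓝 0)
      (𝓝 (mk x (0 : TangentSpace (II n) x))) := by
    have hc : Tendsto (fun t : ℝ => -t) (𝓝 0) (𝓝 (0 : ℝ)) := by
      have := (continuous_neg (G := ℝ)).tendsto 0
      simpa using this
    have := h687_tendsto_smul_mk ht0 hc
    simpa only [zero_smul] using this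
  have hev : (fun t' : ℝ => ‖W (WeakMTW.exp x (t' • e)) x‖ ^ 2 / 2) =ᶠ[𝓝 0]
      (fun t' : ℝ => t' ^ 2 * (‖e‖ ^ 2 / 2)) := by
    filter_upwards [ht1 hP.hN] with t ht
    obtain ⟨-, -, h3⟩ := hP.W_exp _ ht
    have h4 : WeakMTW.exp (WeakMTW.exp x (t • e)) ((-t) • w t) = x := by
      rw [hw1, add_neg_cancel, zero_smul, exp_zero hG]
    have h5 : W (WeakMTW.exp x (t • e)) x = (-t) • w t := by
      have h3' : W (WeakMTW.exp x (t • e))
        (WeakMTW.exp (WeakMTW.exp x (t • e)) ((-t) • w t)) = (-t) • w t := h3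
      rwa [h4] at h3'
    rw [h5, norm_smul, hw2, mul_pow, Real.norm_eq_abs, abs_neg, sq_abs]
    ring
  unfold hess2
  rw [hev.deriv.deriv_eq]
  have h1 : deriv (fun t' : ℝ => t' ^ 2 * (‖e‖ ^ 2 / 2)) =
      fun t : ℝ => t * ‖e‖ ^ 2 := by
    funext t
    have : HasDerivAt (fun t' : ℝ => t' ^ 2 * (‖e‖ ^ 2 / 2)) (2 * t * (‖e‖ ^ 2 / 2)) t := by
      have := (hasDerivAt_pow 2 t).mul_const (‖e‖ ^ 2 / 2)
      simpa using this
    rw [this.deriv]
    ring
  rw [h1]
  have : HasDerivAt (fun t : ℝ => t * ‖e‖ ^ 2) (1 * ‖e‖ ^ 2) 0 :=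
    (hasDerivAt_id (0 : ℝ)).mul_const _
  rw [this.deriv, one_mul]

/-- the key computation for `Hq_polar`. -/
theorem PreBranch.h687_fderiv_FN_ray (hG : Geom n M) {x : M} {v : TangentSpace (II n) x}
    {W : ∀ x' : M, M → TangentSpace (II n) x'} {z0 y0 : M} {U V : Set M}
    {N : Set (TangentBundle (II n) M)} (hP : PreBranch x v W z0 y0 U V N)
    (ξ : TangentSpace (II n) x) :
    ∀ᶠ s : ℝ in 𝓝 0,
      fderiv ℝ (FN W z0 y0)
        ((extChartAt (II n) z0 x, extChartAt (II n) y0 (WeakMTW.exp x v)), s • cofr z0 x v)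
        (0, cofr z0 x ξ) = -(1 - s) * inner ℝ v ξ := by
  have hxs : x ∈ (extChartAt (II n) z0).source := hP.hUs hP.hx
  have hxt : extChartAt (II n) z0 x ∈ (extChartAt (II n) z0).target :=
    (extChartAt (II n) z0).map_source hxs
  have hq : ((extChartAt (II n) z0 x, extChartAt (II n) y0 (WeakMTW.exp x v)) : EE n × EE n) ∈
      chU (n := n) z0 U ×ˢ chU (n := n) y0 V := ⟨⟨x, hP.hx, rfl⟩, ⟨_, hP.hy, rfl⟩⟩
  obtain ⟨w, hw1, -, hw3, hw4, hw5⟩ := exists_velocity hG x v
  have ht0 : Tendsto (fun t : ℝ => R213.mk (WeakMTW.exp x (t • v)) (w t)) (𝓝 0) (𝓝 (R213.mk x v)) := by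
    have := hw3.tendsto 0
    rwa [hw4] at this
  have ht1 : Tendsto (fun t : ℝ => R213.mk (WeakMTW.exp x (t • v)) ((1 - t) • w t)) (𝓝 0)
      (𝓝 (R213.mk x v)) := by
    have hc : Tendsto (fun t : ℝ => 1 - t) (𝓝 0) (𝓝 (1 : ℝ)) := by
      have hcc : Continuous fun t : ℝ => (1 : ℝ) - t := by fun_prop
      have := hcc.tendsto 0
      rwa [sub_zero] at this
    have := h687_tendsto_smul_mk ht0 hc
    simpa only [one_smul] using this
  have hU0 : ∀ᶠ t : ℝ in 𝓝 0, WeakMTW.exp x (t • v) ∈ U := by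
    apply (continuous_exp_smul hG x v).continuousAt.eventually_mem
    rw [zero_smul, exp_zero hG]
    exact hP.hU.mem_nhds hP.hx
  filter_upwards [ht1 hP.hN, hU0] with s hsN hsU
  have hss : WeakMTW.exp x (s • v) ∈ (extChartAt (II n) z0).source := hP.hUs hsU
  -- the point `n_s`
  have hn : eC z0 z0 (extChartAt (II n) z0 x, s • cofr z0 x v) =
      extChartAt (II n) z0 (WeakMTW.exp x (s • v)) := by
    rw [← map_smul, eC_chart z0 hxs]
  have hdom : (extChartAt (II n) z0 x, s • cofr z0 x v) ∈ dom (n := n) z0 z0 := by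
    rw [← map_smul]
    exact mem_dom_chart hxs _ hss
  have hnU : eC z0 z0 (extChartAt (II n) z0 x, s • cofr z0 x v) ∈ chU (n := n) z0 U := by
    rw [hn]
    exact ⟨_, hsU, rfl⟩
  rw [hP.fderiv_FN hG hq (s • cofr z0 x v) (cofr z0 x ξ) hdom hnU]
  -- the velocity
  obtain ⟨-, -, h3⟩ := hP.W_exp _ hsN
  have h4 : WeakMTW.exp (WeakMTW.exp x (s • v)) ((1 - s) • w s) = WeakMTW.exp x v := by
    rw [hw1, add_sub_cancel, one_smul]
  have h5 : W (WeakMTW.exp x (s • v)) (WeakMTW.exp x v) = (1 - s) • w s := by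
    have h3' : W (WeakMTW.exp x (s • v))
      (WeakMTW.exp (WeakMTW.exp x (s • v)) ((1 - s) • w s)) = (1 - s) • w s := h3
    rwa [h4] at h3'
  have h6 : Uc W z0 y0 (eC z0 z0 (extChartAt (II n) z0 x, s • cofr z0 x v),
      extChartAt (II n) y0 (WeakMTW.exp x v)) =
      (1 - s) • fderiv ℝ (eC z0 z0) (extChartAt (II n) z0 x, s • cofr z0 x v) (0, cofr z0 x v) := by
    rw [hn, hP.Uc_chart hsU hP.hy, h5, map_smul, hw5 z0 z0 s hxs hss]
  show -gC z0 (eC z0 z0 (extChartAt (II n) z0 x, s • cofr z0 x v))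
      (Uc W z0 y0 (eC z0 z0 (extChartAt (II n) z0 x, s • cofr z0 x v),
        extChartAt (II n) y0 (WeakMTW.exp x v)))
      (fderiv ℝ (eC z0 z0) (extChartAt (II n) z0 x, s • cofr z0 x v) (0, cofr z0 x ξ)) = _
  rw [h6, h687_gC_smul_left, inner_eq_gC hxs]
  -- Gauss lemma
  have hga : gC z0 (eC z0 z0 (extChartAt (II n) z0 x, s • cofr z0 x v))
      (fderiv ℝ (eC z0 z0) (extChartAt (II n) z0 x, s • cofr z0 x v) (0, cofr z0 x v))
      (fderiv ℝ (eC z0 z0) (extChartAt (II n) z0 x, s • cofr z0 x v) (0, cofr z0 x ξ)) =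
      gC z0 (extChartAt (II n) z0 x) (cofr z0 x v) (cofr z0 x ξ) := by
    rcases eq_or_ne s 0 with rfl | hs
    · simp only [zero_smul]
      rw [eC_zero hG hxt, fderiv_eC_zero hG hxt, fderiv_eC_zero hG hxt]
      simp
    · have hg := gauss hG hdom (cofr z0 x ξ)
      have hv : vC z0 z0 (extChartAt (II n) z0 x, s • cofr z0 x v) =
          s • fderiv ℝ (eC z0 z0) (extChartAt (II n) z0 x, s • cofr z0 x v) (0, cofr z0 x v) := by
        show fderiv ℝ (eC z0 z0) (extChartAt (II n) z0 x, s • cofr z0 x v) (0, s • cofr z0 x v) = _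
        have h0 : ((0 : EE n), s • cofr z0 x v) = s • ((0 : EE n), cofr z0 x v) := by
          rw [Prod.smul_mk, smul_zero]
        rw [h0, map_smul]
      rw [hv] at hg
      simp only [h687_gC_smul_left] at hg
      exact (mul_left_cancel₀ hs hg).symm
  rw [hga]
  ring

/-- the Hessian operator fixes the velocity (Gauss lemma). -/
theorem Hq_polar (hG : Geom n M) {x : M} {v : TangentSpace (II n) x} (h : NF x v)
    (A : TangentSpace (II n) x →L[ℝ] TangentSpace (II n) x)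
    (hA : ∀ e e' : TangentSpace (II n) x, inner ℝ (A e) e' = inner ℝ e (A e'))
    (hH : ∀ e : TangentSpace (II n) x, Hq x v e = inner ℝ (A e) e) : A v = v := by
  obtain ⟨W, z0, y0, U, V, N, hP⟩ := h
  have hq : ((extChartAt (II n) z0 x, extChartAt (II n) y0 (WeakMTW.exp x v)) : EE n × EE n) ∈
      chU (n := n) z0 U ×ˢ chU (n := n) y0 V := ⟨⟨x, hP.hx, rfl⟩, ⟨_, hP.hy, rfl⟩⟩
  obtain ⟨Q, -, hQ⟩ := Calc.exists_second_form (FN W z0 y0) _ (hP.contDiffAt_FN hG hq)
  obtain ⟨hQs, hQd, hQder⟩ := hQ.self_of_nhds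
  set q : EE n × EE n := (extChartAt (II n) z0 x, extChartAt (II n) y0 (WeakMTW.exp x v)) with hqdef
  -- `Hq` through `Q`
  have hHQ : ∀ e : TangentSpace (II n) x, inner ℝ (A e) e = Q q (cofr z0 x e) (cofr z0 x e) := by
    intro e
    have h1 := hP.Hq_eq_d2 hG hP.hx hP.hy e
    rw [hP.W_self] at h1
    rw [← hH e, h1, hQd]
  -- polarisation
  have hpol : ∀ e e' : TangentSpace (II n) x,
      inner ℝ (A e) e' = Q q (cofr z0 x e) (cofr z0 x e') := by
    intro e e'
    have h1 := hHQ (e + e')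
    have h2 := hHQ e
    have h3 := hHQ e'
    simp only [map_add, inner_add_left, inner_add_right, add_apply] at h1
    have h4 : inner ℝ (A e') e = inner ℝ (A e) e' := by
      rw [hA e' e, real_inner_comm]
    have h5 := hQs (cofr z0 x e') (cofr z0 x e)
    linarith
  -- the derivative
  have hval : ∀ ξ : TangentSpace (II n) x, Q q (cofr z0 x v) (cofr z0 x ξ) = inner ℝ v ξ := by
    intro ξ
    have h1 := hQder (cofr z0 x v) (cofr z0 x ξ)
    have h2 : HasDerivAt (fun s : ℝ => -(1 - s) * inner ℝ v ξ) (inner ℝ v ξ) 0 := by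
      have h3 : HasDerivAt (fun s : ℝ => -(1 - s)) 1 0 := by
        have h4 : (fun s : ℝ => -(1 - s)) = fun s : ℝ => s - 1 := by
          funext s; ring
        rw [h4]
        exact (hasDerivAt_id (0 : ℝ)).sub_const 1
      simpa using h3.mul_const (inner ℝ v ξ)
    have h3 := h2.congr_of_eventuallyEq (hP.h687_fderiv_FN_ray hG ξ)
    exact h1.unique h3
  apply ext_inner_right ℝ
  intro ξ
  rw [hpol, hval]

theorem Hq_radial (hG : Geom n M) {x : M} {v : TangentSpace (II n) x} (h : NF x v) (α : ℝ)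
    (e : TangentSpace (II n) x) (he : inner ℝ v e = 0) :
    Hq x v (α • v + e) = α ^ 2 * ‖v‖ ^ 2 + Hq x v e := by
  obtain ⟨A, hA, hH⟩ := exists_Hop hG h
  have hv : A v = v := Hq_polar hG h A hA hH
  rw [hH, hH, map_add, map_smul, hv]
  have h1 : inner ℝ (A e) v = 0 := by rw [hA, hv, real_inner_comm, he]
  simp only [inner_add_left, inner_add_right, inner_smul_left, inner_smul_right, he, h1,
    real_inner_self_eq_norm_sq]
  simp
  ring

/-- field `radial_H` of `SoftCore`. -/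
theorem radial_Hq (hG : Geom n M)
    (hnf : ∀ (x : M) (v : TangentSpace (II n) x), v ∈ WeakMTW.injectivityDomain x → NF x v)
    (hmtw : WeakMTW.HasWeakMTW (n := n) (M := M))
    (x : M) (p e : TangentSpace (WeakMTW.model n) x) (hp : p ∈ Ibar x)
    (s t : ℝ) (hs : 0 ≤ s) (hst : s ≤ t) (ht : t < 1) (ht0 : 0 < t) :
    s / t * Hq x (t • p) e + (1 - s / t) * ‖e‖ ^ 2 ≤ Hq x (s • p) e := by
  rcases eq_or_ne p 0 with rfl | hp0
  · simp only [smul_zero]
    rw [Hq_zero hG]
    apply le_of_eq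
    ring
  have hpn : ‖p‖ ^ 2 ≠ 0 := by
    have := norm_pos_iff.2 hp0
    positivity
  set α : ℝ := inner ℝ p e / ‖p‖ ^ 2 with hα
  set e' : TangentSpace (II n) x := e - α • p with he'
  have hee : e = α • p + e' := by rw [he']; abel
  have hperp : inner ℝ p e' = 0 := by
    rw [he', inner_sub_right, inner_smul_right, real_inner_self_eq_norm_sq, hα]
    field_simp
    ring
  have hnorm : ‖e‖ ^ 2 = α ^ 2 * ‖p‖ ^ 2 + ‖e'‖ ^ 2 := by
    rw [hee, ← real_inner_self_eq_norm_sq, ← real_inner_self_eq_norm_sq e',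
      ← real_inner_self_eq_norm_sq p]
    simp only [inner_add_left, inner_add_right, inner_smul_left, inner_smul_right, hperp,
      real_inner_comm p e']
    simp
    ring
  -- the radial formula at `r p`, `0 ≤ r < 1`
  have hrad : ∀ r : ℝ, 0 ≤ r → r < 1 → Hq x (r • p) e = α ^ 2 * ‖p‖ ^ 2 + Hq x (r • p) e' := by
    intro r hr0 hr1
    rcases hr0.eq_or_lt with rfl | hr0
    · simp only [zero_smul]
      rw [Hq_zero hG, Hq_zero hG, hnorm]
    · have hNF : NF x (r • p) := hnf x _ (smul_mem_injDomain hG x p hp r hr0.le hr1)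
      have h1 := Hq_radial hG hNF (α / r) e' (by rw [inner_smul_left, hperp]; simp)
      have h2 : (α / r) • r • p + e' = e := by
        rw [smul_smul, div_mul_cancel₀ _ hr0.ne', ← hee]
      rw [h2] at h1
      rw [h1, norm_smul, Real.norm_eq_abs, mul_pow, sq_abs]
      field_simp
  have hl0 : 0 ≤ s / t := by positivity
  have hl1 : s / t ≤ 1 := (div_le_one ht0).2 hst
  have hc := concave_Hq hG hnf hmtw x 0 (t • p) e'
    (by
      intro l h0 h1
      rw [smul_zero, zero_add, smul_smul]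
      exact smul_mem_injDomain hG x p hp (l * t) (by positivity) (by nlinarith))
    (by rw [sub_zero, inner_smul_right, real_inner_comm, hperp, mul_zero]) (s / t) hl0 hl1
  rw [smul_zero, zero_add, smul_smul, div_mul_cancel₀ _ ht0.ne', Hq_zero hG] at hc
  rw [hrad t ht0.le ht, hrad s hs (lt_of_le_of_lt hst ht), hnorm]
  nlinarith

end

end Claimed.Agent.R213.Mid
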