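import Claimed.Agent.R213.Mid.NBRel
import Claimed.Agent.R213.Mid.Radial

/-!
# Row 213, MIDDLE layer, block FOCAL, file F3: the Focal Lemma (field `focal` of `SoftCore`)

`focal` is assembled below from `focal_abstract` (`R213/ResolventCore.lean`, sorry-free).
Sketches of the two auxiliary lemmas.
`Hq_ends`: `branch hG x a ha` gives `IsBranch Hq x a W U U₀ V N C r`; `θ ↦ mk x (θ • a)` is continuous (`continuous_mk_fibre`) with
value `mk x a` at `θ = 1`, so `mk x (θ • a) ∈ N` for `θ` in some `(θ₀, 1]`, `θ₀ < 1`; by `W_exp`, `θ • a = W x (exp x (θ • a))` with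
`x ∈ U₀ ⊆ U`, `exp .. ∈ V`; `bdd` gives `|Hq x (θ • a) e| ≤ C ‖e‖²`.
`eventually_source`: continuity of `w ↦ exp x w` (`hG.cont_exp.comp (continuous_mk_fibre x)`), the chart source is open.
-/

set_option autoImplicit false
set_option linter.unusedSectionVars false
open Claims Claims.C0370 Claims.C0370.WeakMTWGlobalSupport
open scoped Manifold ContDiff Topology
open Set Filter Manifold Bundle

namespace Claimed.Agent.R213.Mid

noncomputable section

variable {n : ℕ} {M : Type*}
    [MetricSpace M] [ChartedSpace (WeakMTW.Model n) M]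
    [IsManifold (WeakMTW.model n) ∞ M]
    [RiemannianBundle (fun x : M => TangentSpace (WeakMTW.model n) x)]
    [IsContMDiffRiemannianBundle (WeakMTW.model n) ∞ (WeakMTW.Model n)
      (fun x : M => TangentSpace (WeakMTW.model n) x)]
    [IsRiemannianManifold (WeakMTW.model n) M]

/-- lower bound of `Hq` near a nonfocal velocity, along the ray. -/
theorem Hq_ends (hG : Geom n M) {x : M} {a : TangentSpace (II n) x} (ha : NF x a) :
    ∃ C θ₀ : ℝ, θ₀ < 1 ∧ ∀ θ : ℝ, θ₀ < θ → θ < 1 → ∀ e : TangentSpace (II n) x,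
      -C * ‖e‖ ^ 2 ≤ Hq x (θ • a) e := by
  obtain ⟨W, U, U₀, V, N, C, r, hB⟩ := branch hG x a ha
  have hc : Continuous (fun θ : ℝ => R213.mk x (θ • a)) :=
    (continuous_mk_fibre x).comp (continuous_id.smul continuous_const)
  have hN : N ∈ 𝓝 (R213.mk x ((1 : ℝ) • a)) := by rw [one_smul]; exact hB.hN
  have hev : ∀ᶠ θ : ℝ in 𝓝 1, R213.mk x (θ • a) ∈ N := (hc.tendsto 1).eventually hN
  obtain ⟨ε, hε, hball⟩ := Metric.eventually_nhds_iff.1 hev
  refine ⟨C, 1 - ε, by linarith, fun θ h1 h2 e => ?_⟩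
  have hmem : R213.mk x (θ • a) ∈ N := hball (by
    rw [Real.dist_eq, abs_lt]; constructor <;> linarith)
  obtain ⟨hx, hV, hW⟩ := hB.W_exp _ hmem
  have hW' : W x (WeakMTW.exp x (θ • a)) = θ • a := hW
  have hb := hB.bdd x (hB.hUU hx) (WeakMTW.exp x (θ • a)) hV e
  rw [hW'] at hb
  have := (abs_le.1 hb).1
  linarith

theorem eventually_source (hG : Geom n M) (x : M) (v : TangentSpace (II n) x) (y0 : M)
    (hy : WeakMTW.exp x v ∈ (extChartAt (II n) y0).source) :
    ∀ᶠ w in 𝓝 v, WeakMTW.exp x w ∈ (extChartAt (II n) y0).source := by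
  have hc : Continuous (fun w : TangentSpace (II n) x => WeakMTW.exp x w) :=
    hG.cont_exp.comp (continuous_mk_fibre x)
  exact (hc.tendsto v).eventually ((isOpen_extChartAt_source y0).mem_nhds hy)

/-- field `focal` of `SoftCore`. -/
theorem focal [CompactSpace M] (hG : Geom n M)
    (hnf : ∀ (x : M) (v : TangentSpace (II n) x), v ∈ WeakMTW.injectivityDomain x → NF x v)
    (hmtw : WeakMTW.HasWeakMTW (n := n) (M := M))
    (x : M) (a b : TangentSpace (WeakMTW.model n) x) (ha : NF x a) (hb : NF x b)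
    (hI : ∀ l : ℝ, 0 ≤ l → l ≤ 1 → (1 - l) • a + l • b ∈ Ibar x)
    (l : ℝ) (h0 : 0 ≤ l) (h1 : l ≤ 1) : NF x ((1 - l) • a + l • b) := by
  by_contra hcon
  have hl0 : 0 < l := by
    rcases h0.eq_or_lt with h | h
    · exfalso; apply hcon; rw [← h]; simpa using ha
    · exact h
  have hl1 : l < 1 := by
    rcases h1.eq_or_lt with h | h
    · exfalso; apply hcon; rw [h]; simpa using hb
    · exact h
  set vb : TangentSpace (II n) x := (1 - l) • a + l • b with hvb
  have hv0 : vb ≠ 0 := by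
    intro h
    apply hcon
    rw [h]
    exact nf_zero hG x
  set y0 : M := WeakMTW.exp x vb with hy0
  have hy : WeakMTW.exp x vb ∈ (extChartAt (II n) y0).source := mem_extChartAt_source y0
  have hx : x ∈ (extChartAt (II n) x).source := mem_extChartAt_source x
  obtain ⟨k, hk0, hk⟩ := exists_kernel_of_not_nf hG hcon hy
  have hkv : inner ℝ k vb = 0 := gauss_Bf hG vb k hy hk
  obtain ⟨Ca, θa, hθa, hCa⟩ := Hq_ends hG ha
  obtain ⟨Cb, θb, hθb, hCb⟩ := Hq_ends hG hb
  obtain ⟨C, hC⟩ := Hq_le hG hnf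
  have hdim : Module.finrank ℝ (TangentSpace (II n) x) = Module.finrank ℝ (EE n) := by
    rw [finrank_tangent]; simp
  refine focal_abstract hdim (WeakMTW.injectivityDomain x) (Hq x) (fun w => Bf x y0 w)
    (fun w => Nn x y0 x w) a b k l C (max Ca Cb) (max 0 (max θa θb)) hl0 hl1
    (by simp [hθa, hθb]) hv0 hk0 hkv ?_ ?_ ?_ ?_ ?_ ?_ ?_ ?_ ?_ ?_ hk
  · intro θ hθ hθ1 l' hl'0 hl'1
    exact smul_mem_injDomain hG x _ (hI l' hl'0 hl'1) θ
      (le_trans (le_max_left _ _) hθ.le) hθ1
  · intro a' b' e hc he l' hl'0 hl'1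
    exact concave_Hq hG hnf hmtw x a' b' e hc he l' hl'0 hl'1
  · intro θ hθ hθ1 e
    have h2 : 0 ≤ ‖e‖ ^ 2 := by positivity
    have hθa' : θa < θ := lt_of_le_of_lt ((le_max_left _ _).trans (le_max_right _ _)) hθ
    have hθb' : θb < θ := lt_of_le_of_lt ((le_max_right _ _).trans (le_max_right _ _)) hθ
    constructor
    · refine le_trans ?_ (hCa θ hθa' hθ1 e)
      have : Ca ≤ max Ca Cb := le_max_left _ _
      nlinarith
    · refine le_trans ?_ (hCb θ hθb' hθ1 e)
      have : Cb ≤ max Ca Cb := le_max_right _ _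
      nlinarith
  · intro v hv e he α
    exact Hq_radial hG (hnf x v hv) α e (by rw [real_inner_comm]; exact he)
  · intro v hv
    have := hom_Hq hG x v 0 0 (hnf x v hv)
    simpa using this
  · exact (contDiffAt_Bf hG x vb y0 hy).of_le (WithTop.coe_le_coe.2 le_top)
  · exact (contDiffAt_Nn hG vb hx hy).of_le (WithTop.coe_le_coe.2 le_top)
  · filter_upwards [eventually_source hG x vb y0 hy] with v hvs hvI
    exact resRel hG (hnf x v hvI) hx hvs
  · exact Filter.Eventually.of_forall fun v hv e => hC x v hv e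
  · intro f
    exact Nn_onto hG vb hx hy f

end

end Claimed.Agent.R213.Mid
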