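import Claimed.Agent.R213.Mid.ChartExp

/-!
# Row 213, MIDDLE layer, file M5: elementary properties of a `PreBranch`, gradient of the branch cost

`Uc W z0 y0 (x̂,ŷ)` = chart coordinates of `W x' y'`, `cC W z0 y0 = gC (Uc,Uc)/2 = |W|^2/2`.
Sketches.  `fderiv_cC`: `cC = E ∘ (q ↦ (q.1, Uc q))` with `E (x,u) = gC z0 x u u / 2`; by
`Geom.first_var` at `p = (q.1, Uc q)` with `δ' = (δ.1, D Uc q δ)`, and
`D (eC z0 y0) p δ' = D (q ↦ eC z0 y0 (q.1, Uc q)) q δ = δ.2` because `eC z0 y0 (q.1, Uc q) = q.2` on an open set.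
`germ_unique`: `q ↦ mk q.1 (W' q.1 q.2)` is continuous at `(x, exp x u)` with value `mk x u`, so it is
eventually in `N`; apply `W_exp` of the first branch and `exp_W` of the second.
`Hq_eq`: `Hq` is defined with a chosen branch; use `germ_unique` (with `y' = exp x u` fixed), continuity of
`t ↦ exp x (t e)` at `0` and `Filter.EventuallyEq.deriv`.
-/

set_option autoImplicit false
set_option linter.unusedSectionVars false
open Claims Claims.C0370 Claims.C0370.WeakMTWGlobalSupport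
open scoped Manifold ContDiff Topology
open Set Filter Manifold Bundle

namespace Claimed.Agent.R213.Mid

noncomputable section

variable {n : ℕ} {M : Type*}
    [MetricSpace M] [ChartedSpace (WeakMTW.Model n) M]
    [IsManifold (WeakMTW.model n) ∞ M]
    [RiemannianBundle (fun x : M => TangentSpace (WeakMTW.model n) x)]
    [IsContMDiffRiemannianBundle (WeakMTW.model n) ∞ (WeakMTW.Model n)
      (fun x : M => TangentSpace (WeakMTW.model n) x)]
    [IsRiemannianManifold (WeakMTW.model n) M]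

variable {x : M} {u : TangentSpace (II n) x} {W : ∀ x' : M, M → TangentSpace (II n) x'}
  {z0 y0 : M} {U V : Set M} {N : Set (TangentBundle (II n) M)}

theorem PreBranch.W_self (h : PreBranch x u W z0 y0 U V N) : W x (WeakMTW.exp x u) = u :=
  (h.W_exp (R213.mk x u) (mem_of_mem_nhds h.hN)).2.2

/-- the same `W` is a branch at each of its velocities. -/
theorem PreBranch.transfer (h : PreBranch x u W z0 y0 U V N) {x' y' : M} (hx' : x' ∈ U)
    (hy' : y' ∈ V) : PreBranch x' (W x' y') W z0 y0 U V N where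
  hU := h.hU
  hV := h.hV
  hUs := h.hUs
  hVs := h.hVs
  hx := hx'
  hy := by rw [h.exp_W x' hx' y' hy']; exact hy'
  hN := h.hNW x' hx' y' hy'
  hNW := h.hNW
  exp_W := h.exp_W
  W_exp := h.W_exp
  smooth := h.smooth

theorem PreBranch.nf (h : PreBranch x u W z0 y0 U V N) {x' y' : M} (hx' : x' ∈ U)
    (hy' : y' ∈ V) : NF x' (W x' y') :=
  ⟨W, z0, y0, U, V, N, h.transfer hx' hy'⟩

/-- shrinking the domains. -/
theorem PreBranch.shrink (hG : Geom n M) (h : PreBranch x u W z0 y0 U V N) {U' V' : Set M}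
    (hU' : IsOpen U') (hV' : IsOpen V') (hUU : U' ⊆ U) (hVV : V' ⊆ V) (hx : x ∈ U')
    (hy : WeakMTW.exp x u ∈ V') :
    ∃ N', N' ⊆ N ∧ PreBranch x u W z0 y0 U' V' N' := by
  have hproj : Continuous (fun p : TangentBundle (II n) M => p.1) :=
    FiberBundle.continuous_proj (EE n) (TangentSpace (II n) : M → Type _)
  have hO : IsOpen {p : TangentBundle (II n) M | p.1 ∈ U' ∧ WeakMTW.exp p.1 p.2 ∈ V'} :=
    (hU'.preimage hproj).inter (hV'.preimage hG.cont_exp)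
  refine ⟨N ∩ {p : TangentBundle (II n) M | p.1 ∈ U' ∧ WeakMTW.exp p.1 p.2 ∈ V'},
    inter_subset_left, ?_⟩
  refine ⟨hU', hV', hUU.trans h.hUs, hVV.trans h.hVs, hx, hy, ?_, ?_, ?_, ?_, ?_⟩
  · exact inter_mem h.hN (hO.mem_nhds ⟨hx, hy⟩)
  · intro x' hx' y' hy'
    refine inter_mem (h.hNW x' (hUU hx') y' (hVV hy')) (hO.mem_nhds ⟨hx', ?_⟩)
    show WeakMTW.exp x' (W x' y') ∈ V'
    rw [h.exp_W x' (hUU hx') y' (hVV hy')]; exact hy'
  · intro x' hx' y' hy'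
    exact h.exp_W x' (hUU hx') y' (hVV hy')
  · intro p hp
    exact ⟨hp.2.1, hp.2.2, (h.W_exp p hp.1).2.2⟩
  · exact h.smooth.mono (prod_mono (image_mono hUU) (image_mono hVV))

theorem PreBranch.Uc_chart (h : PreBranch x u W z0 y0 U V N) {x' y' : M} (hx' : x' ∈ U)
    (hy' : y' ∈ V) :
    Uc W z0 y0 (extChartAt (II n) z0 x', extChartAt (II n) y0 y') = cofr z0 x' (W x' y') := by
  have key : ∀ a b : M, a = x' → b = y' → cofr z0 a (W a b) = cofr z0 x' (W x' y') := by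
    rintro a b rfl rfl; rfl
  exact key _ _ (pt_chart (h.hUs hx')) (pt_chart (h.hVs hy'))

theorem PreBranch.norm_sq (h : PreBranch x u W z0 y0 U V N) {x' y' : M} (hx' : x' ∈ U)
    (hy' : y' ∈ V) :
    ‖W x' y'‖ ^ 2 / 2 = cC W z0 y0 (extChartAt (II n) z0 x', extChartAt (II n) y0 y') := by
  unfold cC
  rw [h.Uc_chart hx' hy', norm_sq_eq_gC (h.hUs hx') (W x' y')]

theorem PreBranch.mem_dom (h : PreBranch x u W z0 y0 U V N) {q : EE n × EE n}
    (hq : q ∈ chU z0 U ×ˢ chU y0 V) : (q.1, Uc W z0 y0 q) ∈ dom (n := n) z0 y0 := by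
  obtain ⟨q1, q2⟩ := q
  obtain ⟨⟨x', hx', rfl⟩, ⟨y', hy', rfl⟩⟩ := hq
  rw [h.Uc_chart hx' hy']
  refine mem_dom_chart (h.hUs hx') (W x' y') ?_
  rw [h.exp_W x' hx' y' hy']
  exact h.hVs hy'

theorem PreBranch.eC_Uc (h : PreBranch x u W z0 y0 U V N) {q : EE n × EE n}
    (hq : q ∈ chU z0 U ×ˢ chU y0 V) : eC z0 y0 (q.1, Uc W z0 y0 q) = q.2 := by
  obtain ⟨q1, q2⟩ := q
  obtain ⟨⟨x', hx', rfl⟩, ⟨y', hy', rfl⟩⟩ := hq
  rw [h.Uc_chart hx' hy', eC_chart y0 (h.hUs hx') (W x' y'), h.exp_W x' hx' y' hy']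

theorem PreBranch.contDiffOn_cC (h : PreBranch x u W z0 y0 U V N) :
    ContDiffOn ℝ ∞ (cC W z0 y0) (chU z0 U ×ˢ chU y0 V) := by
  have hg : ContDiffOn ℝ ∞ (fun q : EE n × EE n => Geo.gChart z0 q.1)
      (chU z0 U ×ˢ chU y0 V) :=
    (contDiffOn_gChart' z0).comp contDiff_fst.contDiffOn
      (fun q hq => chU_subset_target h.hUs hq.1)
  have hUc : ContDiffOn ℝ ∞ (Uc W z0 y0) (chU z0 U ×ˢ chU y0 V) := h.smooth
  exact ((hg.clm_apply hUc).clm_apply hUc).div_const 2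

/-- gradient of the branch cost (first variation). -/
theorem PreBranch.fderiv_cC (hG : Geom n M) (h : PreBranch x u W z0 y0 U V N) {q : EE n × EE n}
    (hq : q ∈ chU z0 U ×ˢ chU y0 V) (δ : EE n × EE n) :
    fderiv ℝ (cC W z0 y0) q δ =
      gC y0 q.2 (vC z0 y0 (q.1, Uc W z0 y0 q)) δ.2 - gC z0 q.1 (Uc W z0 y0 q) δ.1 := by
  have hSo : IsOpen (chU z0 U ×ˢ chU y0 V) :=
    (isOpen_chU h.hU h.hUs).prod (isOpen_chU h.hV h.hVs)
  have hS : chU z0 U ×ˢ chU y0 V ∈ 𝓝 q := hSo.mem_nhds hq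
  have hUc : ContDiffOn ℝ ∞ (Uc W z0 y0) (chU z0 U ×ˢ chU y0 V) := h.smooth
  have hUd : DifferentiableAt ℝ (Uc W z0 y0) q :=
    (hUc.contDiffAt hS).differentiableAt (by simp)
  set Φ : EE n × EE n → EE n × EE n := fun q => (q.1, Uc W z0 y0 q) with hΦdef
  have hΦ : HasFDerivAt Φ ((ContinuousLinearMap.fst ℝ (EE n) (EE n)).prod
      (fderiv ℝ (Uc W z0 y0) q)) q := hasFDerivAt_fst.prodMk hUd.hasFDerivAt
  have hdom : Φ q ∈ dom (n := n) z0 y0 := h.mem_dom hq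
  have htgt : (extChartAt (II n) z0).target ∈ 𝓝 q.1 :=
    (isOpen_extChartAt_target z0).mem_nhds (chU_subset_target h.hUs hq.1)
  have hE : DifferentiableAt ℝ (fun p : EE n × EE n => gC z0 p.1 p.2 p.2 / 2) (Φ q) := by
    have hg : ContDiffAt ℝ ∞ (fun p : EE n × EE n => Geo.gChart z0 p.1) (Φ q) :=
      ContDiffAt.comp (g := Geo.gChart z0) (f := Prod.fst) (Φ q)
        ((contDiffOn_gChart' z0).contDiffAt htgt) contDiffAt_fst
    have h2 : ContDiffAt ℝ ∞ (fun p : EE n × EE n => Geo.gChart z0 p.1 p.2 p.2 / 2) (Φ q) :=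
      ((hg.clm_apply contDiffAt_snd).clm_apply contDiffAt_snd).div_const 2
    exact h2.differentiableAt (by simp)
  have hcomp : HasFDerivAt (cC W z0 y0)
      ((fderiv ℝ (fun p : EE n × EE n => gC z0 p.1 p.2 p.2 / 2) (Φ q)).comp
        ((ContinuousLinearMap.fst ℝ (EE n) (EE n)).prod (fderiv ℝ (Uc W z0 y0) q))) q :=
    hE.hasFDerivAt.comp q hΦ
  have he : DifferentiableAt ℝ (eC z0 y0) (Φ q) :=
    (hG.smooth z0 y0 (Φ q) hdom).differentiableAt (by simp)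
  have hcomp2 : HasFDerivAt (fun q' => eC z0 y0 (Φ q'))
      ((fderiv ℝ (eC z0 y0) (Φ q)).comp
        ((ContinuousLinearMap.fst ℝ (EE n) (EE n)).prod (fderiv ℝ (Uc W z0 y0) q))) q :=
    he.hasFDerivAt.comp q hΦ
  have hev : (fun q' => eC z0 y0 (Φ q')) =ᶠ[𝓝 q] Prod.snd := by
    filter_upwards [hS] with q' hq'
    exact h.eC_Uc hq'
  have huniq : (fderiv ℝ (eC z0 y0) (Φ q)).comp
        ((ContinuousLinearMap.fst ℝ (EE n) (EE n)).prod (fderiv ℝ (Uc W z0 y0) q))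
      = ContinuousLinearMap.snd ℝ (EE n) (EE n) :=
    (hcomp2.congr_of_eventuallyEq hev.symm).unique hasFDerivAt_snd
  have h3 : fderiv ℝ (eC z0 y0) (Φ q) (δ.1, fderiv ℝ (Uc W z0 y0) q δ) = δ.2 := by
    have := congrArg (fun L : EE n × EE n →L[ℝ] EE n => L δ) huniq
    simpa using this
  rw [hcomp.fderiv]
  show fderiv ℝ (fun p : EE n × EE n => gC z0 p.1 p.2 p.2 / 2) (Φ q)
    (δ.1, fderiv ℝ (Uc W z0 y0) q δ) = _
  rw [hG.first_var z0 y0 (Φ q) hdom, h3, h.eC_Uc hq]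

theorem PreBranch.cont (h : PreBranch x u W z0 y0 U V N) {x' y' : M} (hx' : x' ∈ U)
    (hy' : y' ∈ V) : ContinuousAt (fun q : M × M => R213.mk q.1 (W q.1 q.2)) (x', y') := by
  refine (tendsto_mk_iff (x := fun q : M × M => q.1) (v := fun q => W q.1 q.2)
    (l := 𝓝 (x', y')) (h.hUs hx')).2 ⟨continuous_fst.continuousAt, ?_⟩
  have hSo : IsOpen (chU z0 U ×ˢ chU y0 V) :=
    (isOpen_chU h.hU h.hUs).prod (isOpen_chU h.hV h.hVs)
  have hUc : ContDiffOn ℝ ∞ (Uc W z0 y0) (chU z0 U ×ˢ chU y0 V) := h.smooth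
  have hmem : (extChartAt (II n) z0 x', extChartAt (II n) y0 y') ∈ chU z0 U ×ˢ chU y0 V :=
    ⟨mem_image_of_mem _ hx', mem_image_of_mem _ hy'⟩
  have hc1 : ContinuousAt (Uc W z0 y0) (extChartAt (II n) z0 x', extChartAt (II n) y0 y') :=
    hUc.continuousOn.continuousAt (hSo.mem_nhds hmem)
  have hc2 : ContinuousAt (fun q : M × M => (extChartAt (II n) z0 q.1, extChartAt (II n) y0 q.2))
      (x', y') :=
    ((continuousAt_extChartAt' (h.hUs hx')).comp continuousAt_fst).prodMk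
      ((continuousAt_extChartAt' (h.hVs hy')).comp continuousAt_snd)
  have hc : ContinuousAt
      (fun q : M × M => Uc W z0 y0 (extChartAt (II n) z0 q.1, extChartAt (II n) y0 q.2))
      (x', y') := ContinuousAt.comp (g := Uc W z0 y0) (f := fun q : M × M =>
        (extChartAt (II n) z0 q.1, extChartAt (II n) y0 q.2)) hc1 hc2
  have hev : ∀ᶠ q : M × M in 𝓝 (x', y'),
      Uc W z0 y0 (extChartAt (II n) z0 q.1, extChartAt (II n) y0 q.2)
        = cofr z0 q.1 (W q.1 q.2) := by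
    filter_upwards [(h.hU.prod h.hV).mem_nhds (⟨hx', hy'⟩ : (x', y') ∈ U ×ˢ V)] with q hq
    exact h.Uc_chart hq.1 hq.2
  have ht := hc.tendsto
  rw [h.Uc_chart hx' hy'] at ht
  exact ht.congr' hev

/-- two branches at the same velocity have the same germ. -/
theorem PreBranch.germ_unique (h : PreBranch x u W z0 y0 U V N)
    {W' : ∀ x' : M, M → TangentSpace (II n) x'} {z0' y0' : M} {U' V' : Set M}
    {N' : Set (TangentBundle (II n) M)} (h' : PreBranch x u W' z0' y0' U' V' N') :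
    ∀ᶠ q : M × M in 𝓝 (x, WeakMTW.exp x u), W q.1 q.2 = W' q.1 q.2 := by
  have hc := h'.cont h'.hx h'.hy
  have hval : R213.mk x (W' x (WeakMTW.exp x u)) = R213.mk x u := by rw [h'.W_self]
  have hN' : N ∈ 𝓝 (R213.mk x (W' x (WeakMTW.exp x u))) := by rw [hval]; exact h.hN
  have h1 : ∀ᶠ q : M × M in 𝓝 (x, WeakMTW.exp x u), R213.mk q.1 (W' q.1 q.2) ∈ N :=
    hc.tendsto hN'
  filter_upwards [h1, (h'.hU.prod h'.hV).mem_nhds
    (⟨h'.hx, h'.hy⟩ : (x, WeakMTW.exp x u) ∈ U' ×ˢ V')] with q hq1 hq2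
  have h2 := (h.W_exp _ hq1).2.2
  have h3 : W q.1 (WeakMTW.exp q.1 (W' q.1 q.2)) = W' q.1 q.2 := h2
  rwa [h'.exp_W q.1 hq2.1 q.2 hq2.2] at h3

/-- `Hq` can be computed with any branch. -/
theorem PreBranch.Hq_eq (hG : Geom n M) (h : PreBranch x u W z0 y0 U V N)
    (e : TangentSpace (II n) x) :
    Hq x u e = hess2 (fun x' => ‖W x' (WeakMTW.exp x u)‖ ^ 2 / 2) x e := by
  have hnf : NF x u := ⟨W, z0, y0, U, V, N, h⟩
  unfold Hq
  rw [dif_pos hnf]
  obtain ⟨z0', y0', U', V', N', h'⟩ := hnf.choose_spec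
  have hg := h'.germ_unique h
  have hcx : Tendsto (fun x' : M => (x', WeakMTW.exp x u)) (𝓝 x) (𝓝 (x, WeakMTW.exp x u)) :=
    (Continuous.prodMk_left (WeakMTW.exp x u)).continuousAt
  have hgx : ∀ᶠ x' in 𝓝 x, hnf.choose x' (WeakMTW.exp x u) = W x' (WeakMTW.exp x u) :=
    hcx.eventually hg
  have hct : Tendsto (fun t : ℝ => WeakMTW.exp x (t • e)) (𝓝 0) (𝓝 x) := by
    rw [tendsto_iff_dist_tendsto_zero]
    have hb : ∀ t : ℝ, dist (WeakMTW.exp x (t • e)) x ≤ |t| * ‖e‖ := by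
      intro t
      have := dist_exp_exp_le hG x e t 0
      rwa [zero_smul, exp_zero hG, sub_zero] at this
    have hlim : Tendsto (fun t : ℝ => |t| * ‖e‖) (𝓝 0) (𝓝 0) := by
      have : Tendsto (fun t : ℝ => |t| * ‖e‖) (𝓝 0) (𝓝 (|(0 : ℝ)| * ‖e‖)) :=
        (continuous_abs.mul continuous_const).continuousAt
      simpa using this
    exact squeeze_zero (fun t => dist_nonneg) hb hlim
  have hgt : (fun t' : ℝ => ‖hnf.choose (WeakMTW.exp x (t' • e)) (WeakMTW.exp x u)‖ ^ 2 / 2)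
      =ᶠ[𝓝 0] (fun t' : ℝ => ‖W (WeakMTW.exp x (t' • e)) (WeakMTW.exp x u)‖ ^ 2 / 2) := by
    filter_upwards [hct.eventually hgx] with t ht
    rw [ht]
  unfold hess2
  exact hgt.deriv.deriv_eq

/-- the branch cost dominates the cost. -/
theorem PreBranch.cst_le (hG : Geom n M) (h : PreBranch x u W z0 y0 U V N) {x' y' : M}
    (hx' : x' ∈ U) (hy' : y' ∈ V) : cst x' y' ≤ ‖W x' y'‖ ^ 2 / 2 := by
  have h1 := dist_exp_le hG x' (W x' y')
  rw [h.exp_W x' hx' y' hy'] at h1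
  unfold cst
  have h2 : dist x' y' ^ 2 ≤ ‖W x' y'‖ ^ 2 := pow_le_pow_left₀ dist_nonneg h1 2
  linarith

end

end Claimed.Agent.R213.Mid
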