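import Claimed.Agent.R213.Mid.JacobiCore
import Claimed.Agent.R213.Mid.Grad
import Claimed.Agent.R213.Mid.NFInv

/-!
# Row 213 (S0438), MIDDLE layer: `nf_of_mem` (no focal point before the cut point)

Assembly of `Jacobi.xi_core` with the chart level API of `Mid/ChartExp`, `Mid/Grad`, `Mid/NFInv`.
-/

set_option autoImplicit false
set_option linter.unusedSectionVars false
open Claims Claims.C0370 Claims.C0370.WeakMTWGlobalSupport
open scoped Manifold ContDiff Topology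
open Set Filter Manifold Bundle

namespace Claimed.Agent.R213.Mid

noncomputable section

variable {n : ℕ} {M : Type*}
    [MetricSpace M] [ChartedSpace (WeakMTW.Model n) M]
    [IsManifold (WeakMTW.model n) ∞ M]
    [RiemannianBundle (fun x : M => TangentSpace (WeakMTW.model n) x)]
    [IsContMDiffRiemannianBundle (WeakMTW.model n) ∞ (WeakMTW.Model n)
      (fun x : M => TangentSpace (WeakMTW.model n) x)]
    [IsRiemannianManifold (WeakMTW.model n) M]

/-! ### calculus on one fibre -/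

theorem two_le_infty : (2 : WithTop ℕ∞) ≤ ∞ := ENat.LEInfty.out

/-- `exp` on the fibre over `xh`, in charts. -/
def Yf (z0 y0 : M) (xh u : EE n) : EE n := eC z0 y0 (xh, u)

/-- final velocity on the fibre over `xh`, in charts. -/
def Pf (z0 y0 : M) (xh u : EE n) : EE n := vC z0 y0 (xh, u)

/-- final momentum. -/
def pf (z0 y0 : M) (xh u : EE n) : EE n →L[ℝ] ℝ := Geo.gChart y0 (Yf z0 y0 xh u) (Pf z0 y0 xh u)

/-- kinetic energy on the fibre. -/
def Af (z0 : M) (xh u : EE n) : ℝ := gC z0 xh u u / 2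

theorem contDiffAt_Yf (hG : Geom n M) {z0 y0 : M} {xh u : EE n} (h : (xh, u) ∈ dom (n := n) z0 y0) :
    ContDiffAt ℝ ∞ (Yf z0 y0 xh) u :=
  (hG.smooth z0 y0 (xh, u) h).comp u (contDiffAt_const.prodMk contDiffAt_id)

theorem contDiffAt_Pf (hG : Geom n M) {z0 y0 : M} {xh u : EE n} (h : (xh, u) ∈ dom (n := n) z0 y0) :
    ContDiffAt ℝ ∞ (Pf z0 y0 xh) u :=
  (contDiffAt_vC hG h).comp u (contDiffAt_const.prodMk contDiffAt_id)

theorem fderiv_Yf (hG : Geom n M) {z0 y0 : M} {xh u : EE n} (h : (xh, u) ∈ dom (n := n) z0 y0)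
    (κ : EE n) : fderiv ℝ (Yf z0 y0 xh) u κ = fderiv ℝ (eC z0 y0) (xh, u) (0, κ) := by
  have h1 : HasFDerivAt (eC z0 y0) (fderiv ℝ (eC z0 y0) (xh, u)) (xh, u) :=
    ((hG.smooth z0 y0 (xh, u) h).differentiableAt (by simp)).hasFDerivAt
  have h2 : HasFDerivAt (fun u : EE n => (xh, u)) (ContinuousLinearMap.inr ℝ (EE n) (EE n)) u :=
    hasFDerivAt_prodMk_right xh u
  have h3 := h1.comp u h2
  have h4 : fderiv ℝ (Yf z0 y0 xh) u = _ := h3.fderiv
  rw [h4]
  simp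

theorem fderiv_Pf (hG : Geom n M) {z0 y0 : M} {xh u : EE n} (h : (xh, u) ∈ dom (n := n) z0 y0)
    (κ : EE n) : fderiv ℝ (Pf z0 y0 xh) u κ = fderiv ℝ (vC z0 y0) (xh, u) (0, κ) := by
  have h1 : HasFDerivAt (vC z0 y0) (fderiv ℝ (vC z0 y0) (xh, u)) (xh, u) :=
    ((contDiffAt_vC hG h).differentiableAt (by simp)).hasFDerivAt
  have h2 : HasFDerivAt (fun u : EE n => (xh, u)) (ContinuousLinearMap.inr ℝ (EE n) (EE n)) u :=
    hasFDerivAt_prodMk_right xh u
  have h3 := h1.comp u h2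
  have h4 : fderiv ℝ (Pf z0 y0 xh) u = _ := h3.fderiv
  rw [h4]
  simp

theorem Pf_eq (hG : Geom n M) {z0 y0 : M} {xh u : EE n} (h : (xh, u) ∈ dom (n := n) z0 y0) :
    Pf z0 y0 xh u = fderiv ℝ (Yf z0 y0 xh) u u := by
  rw [fderiv_Yf hG h]; rfl

theorem eventually_mem_dom (hG : Geom n M) {z0 y0 : M} {xh u : EE n}
    (h : (xh, u) ∈ dom (n := n) z0 y0) : ∀ᶠ u' in 𝓝 u, (xh, u') ∈ dom (n := n) z0 y0 := by
  have hc : ContinuousAt (fun u' : EE n => (xh, u')) u := by fun_prop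
  exact hc.eventually ((isOpen_dom hG z0 y0).mem_nhds h)

/-- derivative of the final velocity along a kernel vector of `DY`. -/
theorem fderiv_Pf_of_kernel (hG : Geom n M) {z0 y0 : M} {xh v k : EE n}
    (h : (xh, v) ∈ dom (n := n) z0 y0) (hk : fderiv ℝ (Yf z0 y0 xh) v k = 0) :
    fderiv ℝ (Pf z0 y0 xh) v k = fderiv ℝ (fderiv ℝ (Yf z0 y0 xh)) v v k := by
  have hY := contDiffAt_Yf hG h
  have he : Pf z0 y0 xh =ᶠ[𝓝 v] fun u => fderiv ℝ (Yf z0 y0 xh) u u := by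
    filter_upwards [eventually_mem_dom hG h] with u hu using Pf_eq hG hu
  have hDY : DifferentiableAt ℝ (fderiv ℝ (Yf z0 y0 xh)) v :=
    ((hY.of_le two_le_infty).fderiv_right (m := 1)
      (by norm_num)).differentiableAt (by norm_num)
  have h1 : HasFDerivAt (fun u => fderiv ℝ (Yf z0 y0 xh) u u) _ v :=
    hDY.hasFDerivAt.clm_apply (hasFDerivAt_id v)
  rw [he.fderiv_eq, h1.fderiv]
  have hs := (hY.of_le two_le_infty).isSymmSndFDerivAt (by simp) k v
  simp [hk, hs]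

theorem contDiff_Af (z0 : M) (xh : EE n) : ContDiff ℝ ∞ (Af z0 xh) := by
  have h : Af z0 xh = fun u => Geo.gChart z0 xh u u / 2 := rfl
  rw [h]
  exact ((Geo.gChart z0 xh).contDiff.clm_apply contDiff_id).div_const 2

/-- first variation on the fibre (Gauss lemma). -/
theorem hasFDerivAt_Af (hG : Geom n M) {z0 y0 : M} {xh u : EE n}
    (h : (xh, u) ∈ dom (n := n) z0 y0) :
    HasFDerivAt (Af z0 xh) ((pf z0 y0 xh u).comp (fderiv ℝ (Yf z0 y0 xh) u)) u := by
  have h1 : HasFDerivAt (fun u => Geo.gChart z0 xh u u) _ u :=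
    (Geo.gChart z0 xh).hasFDerivAt.clm_apply (hasFDerivAt_id u)
  have h2 := h1.mul_const (2⁻¹ : ℝ)
  have h3 : Af z0 xh = fun u => Geo.gChart z0 xh u u * 2⁻¹ := by
    funext u; simp [Af, gC_eq_gChart, div_eq_mul_inv]
  rw [h3]
  refine h2.congr_fderiv ?_
  ext κ
  have h4 := gauss hG h κ
  simp only [gC_eq_gChart] at h4
  have h5 : Geo.gChart z0 xh κ u = Geo.gChart z0 xh u κ := Geo.gChart_symm z0 xh κ u
  simp only [pf, ContinuousLinearMap.comp_apply, fderiv_Yf hG h]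
  change _ = Geo.gChart y0 (eC z0 y0 (xh, u)) (vC z0 y0 (xh, u)) _
  rw [← h4]
  simp [h5]
  ring

theorem contDiffAt_pf (hG : Geom n M) {z0 y0 : M} {xh u : EE n}
    (h : (xh, u) ∈ dom (n := n) z0 y0) : ContDiffAt ℝ ∞ (pf z0 y0 xh) u := by
  have h1 : ContDiffAt ℝ ∞ (Geo.gChart y0) (Yf z0 y0 xh u) :=
    (contDiffOn_gChart' y0).contDiffAt ((isOpen_extChartAt_target y0).mem_nhds (eC_mem_target h))
  exact (h1.comp u (contDiffAt_Yf hG h)).clm_apply (contDiffAt_Pf hG h)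

set_option maxSynthPendingDepth 3 in
theorem fderiv_pf_of_kernel (hG : Geom n M) {z0 y0 : M} {xh v k : EE n}
    (h : (xh, v) ∈ dom (n := n) z0 y0) (hk : fderiv ℝ (Yf z0 y0 xh) v k = 0) :
    fderiv ℝ (pf z0 y0 xh) v k = Geo.gChart y0 (Yf z0 y0 xh v) (fderiv ℝ (Pf z0 y0 xh) v k) := by
  have h1 : ContDiffAt ℝ ∞ (Geo.gChart y0) (Yf z0 y0 xh v) :=
    (contDiffOn_gChart' y0).contDiffAt ((isOpen_extChartAt_target y0).mem_nhds (eC_mem_target h))
  have h2 : HasFDerivAt (fun u => Geo.gChart y0 (Yf z0 y0 xh u)) _ v :=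
    (h1.differentiableAt (by simp)).hasFDerivAt.comp v
      ((contDiffAt_Yf hG h).differentiableAt (by simp)).hasFDerivAt
  have h3 : HasFDerivAt (pf z0 y0 xh) _ v :=
    h2.clm_apply ((contDiffAt_Pf hG h).differentiableAt (by simp)).hasFDerivAt
  rw [h3.fderiv]
  simp [hk]

/-- the positivity needed by `xi_core`. -/
theorem pos_of_kernel (hG : Geom n M) {z0 y0 : M} {xh v k : EE n}
    (h : (xh, v) ∈ dom (n := n) z0 y0) (hk : fderiv ℝ (Yf z0 y0 xh) v k = 0) (hk0 : k ≠ 0) :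
    0 < fderiv ℝ (pf z0 y0 xh) v k (fderiv ℝ (fderiv ℝ (Yf z0 y0 xh)) v v k) := by
  rw [fderiv_pf_of_kernel hG h hk, fderiv_Pf_of_kernel hG h hk]
  refine gC_pos (eC_mem_target h) ?_
  intro ha
  have h1 : fderiv ℝ (eC z0 y0) (xh, v) (0, k) = 0 := by rw [← fderiv_Yf hG h]; exact hk
  have h2 : fderiv ℝ (vC z0 y0) (xh, v) (0, k) = 0 := by
    rw [← fderiv_Pf hG h, fderiv_Pf_of_kernel hG h hk]; exact ha
  have h3 := flow_inj hG h (0, k) h1 h2
  exact hk0 (congrArg Prod.snd h3)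

/-! ### the branch cost to a fixed end point -/

section branch

variable {x : M} {u : TangentSpace (II n) x} {W : ∀ x' : M, M → TangentSpace (II n) x'}
  {z0 y0 : M} {U V : Set M} {N : Set (TangentBundle (II n) M)}

theorem PreBranch.contDiffAt_cC_left (h : PreBranch x u W z0 y0 U V N) {a b : EE n}
    (ha : a ∈ chU z0 U) (hb : b ∈ chU y0 V) :
    ContDiffAt ℝ ∞ (fun a' => cC W z0 y0 (a', b)) a := by
  have ho : IsOpen (chU (n := n) z0 U ×ˢ chU (n := n) y0 V) :=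
    (isOpen_chU h.hU h.hUs).prod (isOpen_chU h.hV h.hVs)
  have h1 : ContDiffAt ℝ ∞ (cC W z0 y0) (a, b) :=
    h.contDiffOn_cC.contDiffAt (ho.mem_nhds ⟨ha, hb⟩)
  exact h1.comp a (contDiffAt_id.prodMk contDiffAt_const)

theorem PreBranch.fderiv_cC_left (hG : Geom n M) (h : PreBranch x u W z0 y0 U V N) {a b : EE n}
    (ha : a ∈ chU z0 U) (hb : b ∈ chU y0 V) (δ : EE n) :
    fderiv ℝ (fun a' => cC W z0 y0 (a', b)) a δ = - gC z0 a (Uc W z0 y0 (a, b)) δ := by
  have ho : IsOpen (chU (n := n) z0 U ×ˢ chU (n := n) y0 V) :=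
    (isOpen_chU h.hU h.hUs).prod (isOpen_chU h.hV h.hVs)
  have h1 : HasFDerivAt (cC W z0 y0) (fderiv ℝ (cC W z0 y0) (a, b)) (a, b) :=
    ((h.contDiffOn_cC.contDiffAt (ho.mem_nhds ⟨ha, hb⟩)).differentiableAt (by simp)).hasFDerivAt
  have h2 : HasFDerivAt (fun a' : EE n => (a', b)) (ContinuousLinearMap.inl ℝ (EE n) (EE n)) a :=
    hasFDerivAt_prodMk_left a b
  have h3 : HasFDerivAt (fun a' => cC W z0 y0 (a', b))
      ((fderiv ℝ (cC W z0 y0) (a, b)).comp (ContinuousLinearMap.inl ℝ (EE n) (EE n))) a :=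
    HasFDerivAt.comp (g := cC W z0 y0) a h1 h2
  rw [h3.fderiv]
  have h4 := h.fderiv_cC hG (q := (a, b)) ⟨ha, hb⟩ (δ, 0)
  simp only [ContinuousLinearMap.comp_apply, ContinuousLinearMap.inl_apply]
  rw [h4]
  simp [gC]

end branch

/-! ### small tools -/

theorem tendsto_smul_mk {ι : Type*} {l : Filter ι} {x : ι → M}
    {v : ∀ i, TangentSpace (II n) (x i)} {z : M} {w : TangentSpace (II n) z} {c : ι → ℝ} {c0 : ℝ}
    (h : Tendsto (fun i => R213.mk (x i) (v i)) l (𝓝 (R213.mk z w))) (hc : Tendsto c l (𝓝 c0)) :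
    Tendsto (fun i => R213.mk (x i) (c i • v i)) l (𝓝 (R213.mk z (c0 • w))) := by
  have hz : z ∈ (extChartAt (II n) z).source := mem_extChartAt_source z
  rw [tendsto_mk_iff hz] at h ⊢
  refine ⟨h.1, ?_⟩
  simp only [map_smul]
  exact hc.smul h.2

theorem eventually_nf_smul (hG : Geom n M) (y : M) (w : TangentSpace (II n) y) :
    ∀ᶠ σ in 𝓝 (0 : ℝ), NF y (σ • w) := by
  have h1 : Tendsto (fun σ : ℝ => R213.mk y (σ • w)) (𝓝 0) (𝓝 (R213.mk y ((0 : ℝ) • w))) :=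
    tendsto_smul_mk tendsto_const_nhds tendsto_id
  rw [zero_smul] at h1
  have h2 : {p : TangentBundle (II n) M | NF p.1 p.2} ∈ 𝓝 (R213.mk y (0 : TangentSpace (II n) y)) :=
    isOpen_nf.mem_nhds (nf_zero hG y)
  exact h1 h2

theorem sq_half_le {s t a b D : ℝ} (ht : 0 < t) (hts : t < s) (hD : 0 ≤ D) (h : D ≤ a + b) :
    D ^ 2 / 2 ≤ s / t * (a ^ 2 / 2) + s / (s - t) * (b ^ 2 / 2) := by
  have hst : 0 < s - t := by linarith
  have h1 : D ^ 2 ≤ (a + b) ^ 2 := pow_le_pow_left₀ hD h 2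
  have h2 : s / t * (a ^ 2 / 2) + s / (s - t) * (b ^ 2 / 2) - (a + b) ^ 2 / 2
      = ((s - t) * a - t * b) ^ 2 / (2 * t * (s - t)) := by
    field_simp
    ring
  have h3 : 0 ≤ ((s - t) * a - t * b) ^ 2 / (2 * t * (s - t)) := by positivity
  linarith

/-! ### the main theorem -/

/-- **No focal point before the cut point.** -/
theorem nf_of_mem (hG : Geom n M) (x : M) (v : TangentSpace (II n) x)
    (hv : v ∈ WeakMTW.injectivityDomain x) : NF x v := by
  by_contra hnf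
  obtain ⟨a0, ha0, hda0⟩ := hv
  set y0 : M := WeakMTW.exp x v with hy0
  have hy0s : WeakMTW.exp x v ∈ (extChartAt (II n) y0).source := mem_extChartAt_source y0
  have hxs : x ∈ (extChartAt (II n) x).source := mem_extChartAt_source x
  obtain ⟨k, hk0, hkB⟩ := exists_kernel_of_not_nf hG hnf hy0s
  obtain ⟨w, hw1, hw2, hw3, -, hw5⟩ := exists_velocity hG x v
  -- `a0 v` is minimising
  have hIb : a0 • v ∈ Ibar x := by
    show dist x (WeakMTW.exp x (a0 • v)) = ‖a0 • v‖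
    rw [hda0, norm_smul, Real.norm_eq_abs, abs_of_pos (by linarith)]
  -- choice of `σ`
  have hσ1 : ∀ᶠ σ in 𝓝[>] (0 : ℝ), NF (WeakMTW.exp x ((1 : ℝ) • v)) (σ • w 1) :=
    (eventually_nf_smul hG _ (w 1)).filter_mono nhdsWithin_le_nhds
  have hσ2 : ∀ᶠ σ in 𝓝[>] (0 : ℝ), σ < a0 - 1 :=
    (gt_mem_nhds (by linarith : (0 : ℝ) < a0 - 1)).filter_mono nhdsWithin_le_nhds
  have hσ3 : ∀ᶠ σ in 𝓝[>] (0 : ℝ), 0 < σ := self_mem_nhdsWithin
  obtain ⟨σ, hσnf, hσa, hσ0⟩ := (hσ1.and (hσ2.and hσ3)).exists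
  set yp : M := WeakMTW.exp x ((1 + σ) • v) with hyp
  have hexp1 : WeakMTW.exp (WeakMTW.exp x ((1 : ℝ) • v)) (σ • w 1) = yp := hw1 1 σ
  have hγ1 : WeakMTW.exp x ((1 : ℝ) • v) = y0 := by rw [one_smul]
  obtain ⟨Wb, U, V, N, hB⟩ := preBranch_in_charts hG hσnf (z0 := y0) (y0 := yp)
    (by rw [hγ1]; exact mem_extChartAt_source y0)
    (by rw [hexp1]; exact mem_extChartAt_source yp)
  have hypV : yp ∈ V := by have := hB.hy; rwa [hexp1] at this
  set xh : EE n := extChartAt (II n) x x with hxh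
  set vh : EE n := cofr x x v with hvh
  set kh : EE n := cofr x x k with hkh
  set yph : EE n := extChartAt (II n) yp yp with hyph
  have hyphV : yph ∈ chU yp V := ⟨yp, hypV, rfl⟩
  -- the velocities `(1+σ-t) w t` are branch velocities for `t` near `1`
  have hcont : Tendsto (fun t : ℝ => R213.mk (WeakMTW.exp x (t • v)) ((1 + σ - t) • w t)) (𝓝 1)
      (𝓝 (R213.mk (WeakMTW.exp x ((1 : ℝ) • v)) ((1 + σ - 1) • w 1))) :=
    tendsto_smul_mk (hw3.tendsto 1) ((continuous_const.sub continuous_id).tendsto 1)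
  have h1σ : (1 + σ - 1) = σ := by ring
  rw [h1σ] at hcont
  have hbr : ∀ᶠ t in 𝓝 (1 : ℝ), WeakMTW.exp x (t • v) ∈ U ∧
      Wb (WeakMTW.exp x (t • v)) yp = (1 + σ - t) • w t := by
    filter_upwards [hcont hB.hN] with t ht
    obtain ⟨h1, -, h3⟩ := hB.W_exp _ ht
    have h4 : WeakMTW.exp (WeakMTW.exp x (t • v)) ((1 + σ - t) • w t) = yp := by
      rw [hw1 t (1 + σ - t), hyp]
      congr 2
      ring
    have h3' : Wb (WeakMTW.exp x (t • v)) (WeakMTW.exp (WeakMTW.exp x (t • v)) ((1 + σ - t) • w t))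
        = (1 + σ - t) • w t := h3
    rw [h4] at h3'
    exact ⟨h1, h3'⟩
  -- distance from `x` to `yp`
  have hIb2 : (1 + σ) • v ∈ Ibar x := by
    have := smul_mem_Ibar hG x (a0 • v) hIb ((1 + σ) / a0) (by positivity)
      (by rw [div_le_one (by linarith)]; linarith)
    rwa [smul_smul, div_mul_cancel₀ _ (by linarith : a0 ≠ 0)] at this
  have hdist : dist x yp = (1 + σ) * ‖v‖ := by
    have h : dist x (WeakMTW.exp x ((1 + σ) • v)) = ‖(1 + σ) • v‖ := hIb2
    rw [hyp, h, norm_smul, Real.norm_eq_abs, abs_of_pos (by linarith)]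
  have hdomt : ∀ t : ℝ, WeakMTW.exp x (t • v) ∈ (extChartAt (II n) y0).source →
      (xh, t • vh) ∈ dom (n := n) x y0 := by
    intro t ht
    have := mem_dom_chart hxs (t • v) ht
    rwa [map_smul] at this
  have hdom1 : (xh, vh) ∈ dom (n := n) x y0 := mem_dom_chart hxs v hy0s
  have hYt : ∀ t : ℝ, Yf x y0 xh (t • vh) = extChartAt (II n) y0 (WeakMTW.exp x (t • v)) := by
    intro t
    have := eC_chart y0 hxs (t • v)
    rwa [map_smul] at this
  have hAt : ∀ t : ℝ, Af x xh (t • vh) = t ^ 2 * ‖v‖ ^ 2 / 2 := by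
    intro t
    have := norm_sq_eq_gC hxs (t • v)
    rw [map_smul, norm_smul, mul_pow, Real.norm_eq_abs, sq_abs] at this
    rw [this]
    rfl
  set b : EE n → ℝ := fun a => cC Wb y0 yp (a, yph) with hb
  have h0 : ∀ᶠ t in 𝓝[<] (1 : ℝ), 0 < t :=
    (lt_mem_nhds one_pos).filter_mono nhdsWithin_le_nhds
  have hmin : ∀ᶠ t in 𝓝[<] (1 : ℝ), IsLocalMin
      (fun u => (1 + σ) / t * Af x xh u + (1 + σ) / (1 + σ - t) * b (Yf x y0 xh u)) (t • vh) := by
    filter_upwards [hbr.filter_mono nhdsWithin_le_nhds, h0, self_mem_nhdsWithin] with t ht ht0 ht1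
    have ht1' : t < 1 := ht1
    obtain ⟨htU, htW⟩ := ht
    have htd : (xh, t • vh) ∈ dom (n := n) x y0 := hdomt t (hB.hUs htU)
    have hval : (1 + σ) / t * Af x xh (t • vh) + (1 + σ) / (1 + σ - t) * b (Yf x y0 xh (t • vh))
        = dist x yp ^ 2 / 2 := by
      have hb1 : b (Yf x y0 xh (t • vh)) = (1 + σ - t) ^ 2 * ‖v‖ ^ 2 / 2 := by
        rw [hYt t]
        show cC Wb y0 yp (extChartAt (II n) y0 (WeakMTW.exp x (t • v)), extChartAt (II n) yp yp) = _
        rw [← hB.norm_sq htU hypV, htW, norm_smul, hw2 t, mul_pow, Real.norm_eq_abs, sq_abs]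
      rw [hAt, hb1, hdist]
      have h1 : (1 + σ - t) ≠ 0 := by linarith
      field_simp
      ring
    have hU' : ∀ᶠ u in 𝓝 (t • vh), Yf x y0 xh u ∈ chU y0 U := by
      have hc : ContinuousAt (Yf x y0 xh) (t • vh) := (contDiffAt_Yf hG htd).continuousAt
      refine hc.eventually_mem ?_
      rw [hYt t]
      exact (isOpen_chU hB.hU hB.hUs).mem_nhds ⟨_, htU, rfl⟩
    filter_upwards [hU', eventually_mem_dom hG htd] with u hu1 hu2
    show (1 + σ) / t * Af x xh (t • vh) + (1 + σ) / (1 + σ - t) * b (Yf x y0 xh (t • vh)) ≤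
      (1 + σ) / t * Af x xh u + (1 + σ) / (1 + σ - t) * b (Yf x y0 xh u)
    rw [hval]
    obtain ⟨y', hy'⟩ : ∃ y', y' = WeakMTW.exp (n := n) (pt x xh) (fr x xh u) := ⟨_, rfl⟩
    have hy'U : y' ∈ U := by
      have h1 := pt_mem_of_mem_chU hB.hUs hu1
      have h2 : pt y0 (Yf x y0 xh u) = y' := by rw [hy']; exact pt_eC hu2
      rwa [h2] at h1
    have e1 : dist x y' ≤ ‖fr x xh u‖ := by
      have h1 := dist_exp_le hG (pt x xh) (fr x xh u)
      rw [← hy'] at h1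
      have h2 : dist x y' = dist (pt x xh) y' := by rw [pt_chart hxs]
      rw [h2]; exact h1
    have e2 : dist y' yp ≤ ‖Wb y' yp‖ := by
      have h1 := dist_exp_le hG y' (Wb y' yp)
      rwa [hB.exp_W y' hy'U yp hypV] at h1
    have e3 : Af x xh u = ‖fr x xh u‖ ^ 2 / 2 := by rw [← gC_self]; rfl
    have e4 : b (Yf x y0 xh u) = ‖Wb y' yp‖ ^ 2 / 2 := by
      rw [hB.norm_sq hy'U hypV, hy']; rfl
    rw [e3, e4]
    exact sq_half_le ht0 (by linarith) dist_nonneg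
      ((dist_triangle _ y' _).trans (add_le_add e1 e2))
  have hbrk : ∀ᶠ t in 𝓝[<] (1 : ℝ), ((1 + σ) / t) • pf x y0 xh (t • vh)
      + ((1 + σ) / (1 + σ - t)) • fderiv ℝ b (Yf x y0 xh (t • vh)) = 0 := by
    filter_upwards [hbr.filter_mono nhdsWithin_le_nhds, h0, self_mem_nhdsWithin] with t ht ht0 ht1
    have ht1' : t < 1 := ht1
    obtain ⟨htU, htW⟩ := ht
    have htd : (xh, t • vh) ∈ dom (n := n) x y0 := hdomt t (hB.hUs htU)
    ext δ
    obtain ⟨om, hom⟩ : ∃ om, om = cofr y0 (WeakMTW.exp x (t • v)) (w t) := ⟨_, rfl⟩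
    have hP : Pf x y0 xh (t • vh) = t • om := by
      have h5 := hw5 x y0 t hxs (hB.hUs htU)
      show fderiv ℝ (eC x y0) (xh, t • vh) (0, t • vh) = _
      have h6 : ((0 : EE n), t • vh) = t • ((0 : EE n), vh) := by simp
      rw [h6, map_smul, hom, h5]
    have hUc : Uc Wb y0 yp (Yf x y0 xh (t • vh), yph) = (1 + σ - t) • om := by
      rw [hYt t, hB.Uc_chart htU hypV, htW, map_smul, hom]
    have hD := hB.fderiv_cC_left hG (a := Yf x y0 xh (t • vh)) (b := yph)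
      (by rw [hYt]; exact ⟨_, htU, rfl⟩) hyphV δ
    have hD' : fderiv ℝ b (Yf x y0 xh (t • vh)) δ
        = - ((1 + σ - t) * Geo.gChart y0 (Yf x y0 xh (t • vh)) om δ) := by
      rw [hb, hD, hUc, gC_eq_gChart]
      simp
    have hp' : pf x y0 xh (t • vh) δ = t * Geo.gChart y0 (Yf x y0 xh (t • vh)) om δ := by
      simp [pf, hP]
    simp only [add_apply, smul_apply, zero_apply, smul_eq_mul]
    rw [hD', hp']
    have h1 : (1 + σ - t) ≠ 0 := by linarith
    field_simp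
    ring
  have hkY : fderiv ℝ (Yf x y0 xh) vh kh = 0 := by
    rw [fderiv_Yf hG hdom1, ← Bf_eq hG v hxs hy0s k]; exact hkB
  have hkh0 : kh ≠ 0 := fun h => hk0 (cofr_injective hxs (by rw [map_zero]; exact h))
  have hbsm : ContDiffAt ℝ ∞ b (Yf x y0 xh vh) := by
    refine hB.contDiffAt_cC_left ?_ hyphV
    have h1 : Yf x y0 xh vh = extChartAt (II n) y0 (WeakMTW.exp x v) := eC_chart y0 hxs v
    rw [h1]
    refine ⟨_, ?_, rfl⟩
    have := hB.hx
    rwa [one_smul] at this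
  have hα : Tendsto (fun t : ℝ => (1 + σ) / t) (𝓝[<] 1) (𝓝 (1 + σ)) := by
    have : Tendsto (fun t : ℝ => (1 + σ) / t) (𝓝 1) (𝓝 ((1 + σ) / 1)) :=
      tendsto_const_nhds.div tendsto_id one_ne_zero
    rw [div_one] at this
    exact this.mono_left nhdsWithin_le_nhds
  have hγ : Tendsto (fun t : ℝ => (1 + σ) / (1 + σ - t)) (𝓝[<] 1) (𝓝 ((1 + σ) / σ)) := by
    have : Tendsto (fun t : ℝ => (1 + σ) / (1 + σ - t)) (𝓝 1) (𝓝 ((1 + σ) / (1 + σ - 1))) :=
      tendsto_const_nhds.div (tendsto_const_nhds.sub tendsto_id) (by rw [h1σ]; exact hσ0.ne')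
    rw [h1σ] at this
    exact this.mono_left nhdsWithin_le_nhds
  exact Jacobi.xi_core (α := fun t => (1 + σ) / t) (γ := fun t => (1 + σ) / (1 + σ - t))
    ((contDiffAt_Yf hG hdom1).of_le two_le_infty)
    ((contDiff_Af x xh).contDiffAt.of_le two_le_infty)
    ((contDiffAt_pf hG hdom1).of_le ENat.LEInfty.out) (hbsm.of_le two_le_infty)
    (by filter_upwards [eventually_mem_dom hG hdom1] with u hu using hasFDerivAt_Af hG hu)
    hα hγ (by linarith) hmin hbrk hkY (pos_of_kernel hG hdom1 hkY hkh0)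

end

end Claimed.Agent.R213.Mid
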