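import Mathlib

/-!
# Row 213 (S0438), MIDDLE layer: abstract core of `nf_of_mem`
("no focal point before the cut point"), pure calculus, no geometry.

`hess_nonneg_of_isLocalMin` : second order necessary condition at a local minimum;
`hess_of_bracket` : Hessian of a function with differential `β ∘ DY` at a zero of `β`;
`xi_core` : the contradiction (see its docstring).
-/

set_option autoImplicit false
open Filter Topology Set

namespace Claimed.Agent.R213.Mid.Jacobi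

variable {T E : Type*} [NormedAddCommGroup T] [NormedSpace ℝ T]
  [NormedAddCommGroup E] [NormedSpace ℝ E]

/-- second order necessary condition at a local minimum. -/
theorem hess_nonneg_of_isLocalMin {φ : T → ℝ} {w : T} (hφ : ContDiffAt ℝ 2 φ w)
    (hmin : IsLocalMin φ w) (k : T) : 0 ≤ fderiv ℝ (fderiv ℝ φ) w k k := by
  set c : ℝ → T := fun t => w + t • k with hc
  have hc0 : c 0 = w := by simp [hc]
  have hcd : ∀ t, HasDerivAt c k t := by
    intro t
    have h := ((hasDerivAt_id t).smul_const k).const_add w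
    simp only [one_smul] at h
    exact h
  have hcc : ContinuousAt c 0 := (hcd 0).continuousAt
  have hct : Tendsto c (𝓝 0) (𝓝 w) := by simpa [hc0] using hcc.tendsto
  set g : ℝ → ℝ := fun t => φ (c t) with hg
  -- differentiability near `w`
  have hdiff : ∀ᶠ w' in 𝓝 w, DifferentiableAt ℝ φ w' := by
    have := hφ.eventually (by simp)
    filter_upwards [this] with w' hw'
    exact hw'.differentiableAt (by norm_num)
  have hg' : ∀ᶠ t in 𝓝 (0:ℝ), HasDerivAt g (fderiv ℝ φ (c t) k) t := by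
    filter_upwards [hct.eventually hdiff] with t ht
    exact ht.hasFDerivAt.comp_hasDerivAt t (hcd t)
  have hderiv : deriv g =ᶠ[𝓝 0] fun t => fderiv ℝ φ (c t) k := by
    filter_upwards [hg'] with t ht using ht.deriv
  have hD : DifferentiableAt ℝ (fderiv ℝ φ) w :=
    (hφ.fderiv_right (m := 1) (by norm_num)).differentiableAt (by norm_num)
  have h2 : HasDerivAt (fun t => fderiv ℝ φ (c t) k) (fderiv ℝ (fderiv ℝ φ) w k k) 0 := by
    have h3 : HasDerivAt (fun t => fderiv ℝ φ (c t)) (fderiv ℝ (fderiv ℝ φ) w k) 0 := by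
      have := hD.hasFDerivAt
      rw [← hc0] at this
      have h4 := this.comp_hasDerivAt (0:ℝ) (hcd 0)
      rw [hc0] at h4
      exact h4
    exact h3.clm_apply (hasDerivAt_const (0:ℝ) k) |>.congr_deriv (by simp)
  have hdd : deriv (deriv g) 0 = fderiv ℝ (fderiv ℝ φ) w k k := by
    rw [hderiv.deriv_eq]; exact h2.deriv
  have hgmin : IsLocalMin g 0 := by
    have : ∀ᶠ t in 𝓝 (0:ℝ), φ w ≤ φ (c t) := hct.eventually hmin
    filter_upwards [this] with t ht
    simpa [hg, hc0] using ht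
  rw [← hdd]
  by_contra hneg
  push Not at hneg
  have hgc : ContinuousAt g 0 := hg'.self_of_nhds.continuousAt
  have hmax : IsLocalMax g 0 := isLocalMax_of_deriv_deriv_neg hneg hgmin.deriv_eq_zero hgc
  have hconst : g =ᶠ[𝓝 0] fun _ => g 0 := by
    filter_upwards [hgmin, hmax] with t h1 h2 using le_antisymm h2 h1
  have h5 : deriv g =ᶠ[𝓝 0] deriv (fun _ : ℝ => g 0) := hconst.deriv
  have h6 : deriv (deriv g) 0 = 0 := by
    rw [h5.deriv_eq]; simp
  linarith

/-- Hessian of a function whose differential is `β ∘ DY`, at a zero of the bracket `β`. -/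
theorem hess_of_bracket {Φ : T → ℝ} {β : T → E →L[ℝ] ℝ} {Y : T → E} {w : T}
    (hY : ContDiffAt ℝ 2 Y w) (hβ : DifferentiableAt ℝ β w) (hβ0 : β w = 0)
    (hΦ : ∀ᶠ w' in 𝓝 w, HasFDerivAt Φ ((β w').comp (fderiv ℝ Y w')) w') (k k' : T) :
    fderiv ℝ (fderiv ℝ Φ) w k k' = fderiv ℝ β w k (fderiv ℝ Y w k') := by
  have hfd : fderiv ℝ Φ =ᶠ[𝓝 w] fun w' => (β w').comp (fderiv ℝ Y w') := by
    filter_upwards [hΦ] with w' h using h.fderiv
  have hDY : DifferentiableAt ℝ (fderiv ℝ Y) w :=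
    (hY.fderiv_right (m := 1) (by norm_num)).differentiableAt (by norm_num)
  have hcomp := hβ.hasFDerivAt.clm_comp hDY.hasFDerivAt
  rw [hfd.fderiv_eq, hcomp.fderiv, hβ0]
  simp

theorem tendsto_clm_apply {ι G : Type*} [NormedAddCommGroup G] [NormedSpace ℝ G] {F : Filter ι}
    {L : ι → E →L[ℝ] G} {L0 : E →L[ℝ] G} {e : ι → E} {e0 : E} (hL : Tendsto L F (𝓝 L0))
    (he : Tendsto e F (𝓝 e0)) : Tendsto (fun t => L t (e t)) F (𝓝 (L0 e0)) :=
  (isBoundedBilinearMap_apply.continuous.tendsto (L0, e0)).comp (hL.prodMk_nhds he)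

/-- **Abstract core of `nf_of_mem`** (helper788's `Ξ`-argument, dual formulation).
`Y` = chart reading of `exp_x`, `A = |.|^2/2`, `p` = final momentum (`DA = p ∘ DY`),
`b` = cost to a point slightly beyond `Y v`; `α t A + γ t (b ∘ Y)` has a local minimum at `t v`,
where the bracket `α t p + γ t Db` vanishes.  A kernel vector `k` of `DY(v)` with
`Dp(v)k (D^2Y(v)(v,k)) > 0` is impossible. -/
theorem xi_core {Y : T → E} {A : T → ℝ} {p : T → E →L[ℝ] ℝ} {b : E → ℝ} {v k : T}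
    {α γ : ℝ → ℝ} {α1 γ1 : ℝ}
    (hY : ContDiffAt ℝ 2 Y v) (hA : ContDiffAt ℝ 2 A v) (hp : ContDiffAt ℝ 1 p v)
    (hb : ContDiffAt ℝ 2 b (Y v))
    (hfv : ∀ᶠ u in 𝓝 v, HasFDerivAt A ((p u).comp (fderiv ℝ Y u)) u)
    (hα : Tendsto α (𝓝[<] 1) (𝓝 α1)) (hγ : Tendsto γ (𝓝[<] 1) (𝓝 γ1)) (hα1 : 0 < α1)
    (hmin : ∀ᶠ t in 𝓝[<] (1:ℝ), IsLocalMin (fun u => α t * A u + γ t * b (Y u)) (t • v))
    (hbr : ∀ᶠ t in 𝓝[<] (1:ℝ), α t • p (t • v) + γ t • fderiv ℝ b (Y (t • v)) = 0)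
    (hk : fderiv ℝ Y v k = 0)
    (hpos : 0 < fderiv ℝ p v k (fderiv ℝ (fderiv ℝ Y) v v k)) : False := by
  -- the ray
  have hm' : ∀ t : ℝ, HasDerivAt (fun t : ℝ => t • v) v t := by
    intro t
    have h := (hasDerivAt_id t).smul_const v
    simp only [one_smul] at h
    exact h
  have hm1 : Tendsto (fun t : ℝ => t • v) (𝓝 1) (𝓝 v) := by
    have := (hm' 1).continuousAt.tendsto
    simpa using this
  have hm : Tendsto (fun t : ℝ => t • v) (𝓝[<] 1) (𝓝 v) := hm1.mono_left nhdsWithin_le_nhds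
  have hYc : Tendsto Y (𝓝 v) (𝓝 (Y v)) := hY.continuousAt.tendsto
  have hYm : Tendsto (fun t : ℝ => Y (t • v)) (𝓝[<] 1) (𝓝 (Y v)) := hYc.comp hm
  set c : ℝ → E := fun t => fderiv ℝ Y (t • v) k with hc
  set a : E := fderiv ℝ (fderiv ℝ Y) v v k with ha
  have hDY : DifferentiableAt ℝ (fderiv ℝ Y) v :=
    (hY.fderiv_right (m := 1) (by norm_num)).differentiableAt (by norm_num)
  have hc' : HasDerivAt c a 1 := by
    have h1 : HasDerivAt (fun t : ℝ => fderiv ℝ Y (t • v)) (fderiv ℝ (fderiv ℝ Y) v v) 1 := by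
      have h2 := hDY.hasFDerivAt
      have h3 : HasFDerivAt (fderiv ℝ Y) (fderiv ℝ (fderiv ℝ Y) v) ((1:ℝ) • v) := by
        simpa using h2
      exact h3.comp_hasDerivAt (1:ℝ) (hm' 1)
    exact (h1.clm_apply (hasDerivAt_const (1:ℝ) k)).congr_deriv (by simp [ha])
  have hc1 : c 1 = 0 := by simp [hc, hk]
  -- the difference quotient
  set q : ℝ → E := fun t => (t - 1)⁻¹ • c t with hq
  have hqt : Tendsto q (𝓝[<] 1) (𝓝 a) := by
    have h1 := hc'.tendsto_slope
    have h2 : Tendsto (slope c 1) (𝓝[<] 1) (𝓝 a) :=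
      h1.mono_left (nhdsWithin_mono _ (fun t (ht : t < 1) => ne_of_lt ht))
    refine h2.congr ?_
    intro t
    simp [slope, hq, hc1]
  have hct : Tendsto c (𝓝[<] 1) (𝓝 0) := by
    have := hc'.continuousAt.tendsto
    rw [hc1] at this
    exact this.mono_left nhdsWithin_le_nhds
  -- continuity of the coefficients
  have cp : ContinuousAt (fderiv ℝ p) v :=
    (hp.fderiv_right (m := 0) (by norm_num)).continuousAt
  have cb : ContinuousAt (fderiv ℝ (fderiv ℝ b)) (Y v) :=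
    ((hb.fderiv_right (m := 1) (by norm_num)).fderiv_right (m := 0) (by norm_num)).continuousAt
  have t1 : Tendsto (fun t : ℝ => fderiv ℝ p (t • v) k) (𝓝[<] 1) (𝓝 (fderiv ℝ p v k)) :=
    ((continuous_eval_const k).tendsto (fderiv ℝ p v)).comp (cp.tendsto.comp hm)
  have t2 : Tendsto (fun t : ℝ => fderiv ℝ (fderiv ℝ b) (Y (t • v))) (𝓝[<] 1)
      (𝓝 (fderiv ℝ (fderiv ℝ b) (Y v))) := cb.tendsto.comp hYm
  have t3 : Tendsto (fun t : ℝ => fderiv ℝ p (t • v) k (q t)) (𝓝[<] 1)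
      (𝓝 (fderiv ℝ p v k a)) := tendsto_clm_apply t1 hqt
  have t4 : Tendsto (fun t : ℝ => fderiv ℝ (fderiv ℝ b) (Y (t • v)) (c t) (q t)) (𝓝[<] 1)
      (𝓝 (fderiv ℝ (fderiv ℝ b) (Y v) 0 a)) := tendsto_clm_apply (tendsto_clm_apply t2 hct) hqt
  have t5 : Tendsto (fun t : ℝ => α t * fderiv ℝ p (t • v) k (q t)
      + γ t * fderiv ℝ (fderiv ℝ b) (Y (t • v)) (c t) (q t)) (𝓝[<] 1)
      (𝓝 (α1 * fderiv ℝ p v k a + γ1 * fderiv ℝ (fderiv ℝ b) (Y v) 0 a)) :=
    (hα.mul t3).add (hγ.mul t4)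
  have hlim : 0 < α1 * fderiv ℝ p v k a + γ1 * fderiv ℝ (fderiv ℝ b) (Y v) 0 a := by
    simp only [map_zero, zero_apply, mul_zero, add_zero]
    exact mul_pos hα1 hpos
  have e0 : ∀ᶠ t in 𝓝[<] (1:ℝ), 0 < α t * fderiv ℝ p (t • v) k (q t)
      + γ t * fderiv ℝ (fderiv ℝ b) (Y (t • v)) (c t) (q t) := t5.eventually (lt_mem_nhds hlim)
  -- the second order condition
  have e1 : ∀ᶠ t in 𝓝[<] (1:ℝ), ContDiffAt ℝ 2 Y (t • v) := hm.eventually (hY.eventually (by simp))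
  have e2 : ∀ᶠ t in 𝓝[<] (1:ℝ), ContDiffAt ℝ 2 A (t • v) := hm.eventually (hA.eventually (by simp))
  have e3 : ∀ᶠ t in 𝓝[<] (1:ℝ), ContDiffAt ℝ 1 p (t • v) := hm.eventually (hp.eventually (by simp))
  have e4 : ∀ᶠ t in 𝓝[<] (1:ℝ), ContDiffAt ℝ 2 b (Y (t • v)) :=
    hYm.eventually (hb.eventually (by simp))
  have e5 : ∀ᶠ t in 𝓝[<] (1:ℝ), ∀ᶠ u in 𝓝 (t • v), HasFDerivAt A ((p u).comp (fderiv ℝ Y u)) u :=
    hm.eventually (eventually_eventually_nhds.2 hfv)
  have e6 : ∀ᶠ t in 𝓝[<] (1:ℝ), t < 1 := self_mem_nhdsWithin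
  obtain ⟨t, h0, h1, h2, h3, h4, h5, h6, h7, h8⟩ :=
    (e0.and (e1.and (e2.and (e3.and (e4.and (e5.and (e6.and (hmin.and hbr)))))))).exists
  set Φ : T → ℝ := fun u => α t * A u + γ t * b (Y u) with hΦ
  set β : T → E →L[ℝ] ℝ := fun u => α t • p u + γ t • fderiv ℝ b (Y u) with hβ
  have hΦc : ContDiffAt ℝ 2 Φ (t • v) :=
    (contDiffAt_const.mul h2).add (contDiffAt_const.mul (h4.comp _ h1))
  have hYd : ∀ᶠ u in 𝓝 (t • v), DifferentiableAt ℝ Y u := by
    filter_upwards [h1.eventually (by simp)] with u hu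
    exact hu.differentiableAt (by norm_num)
  have hbd : ∀ᶠ y in 𝓝 (Y (t • v)), DifferentiableAt ℝ b y := by
    filter_upwards [h4.eventually (by simp)] with y hy
    exact hy.differentiableAt (by norm_num)
  have hΦd : ∀ᶠ u in 𝓝 (t • v), HasFDerivAt Φ ((β u).comp (fderiv ℝ Y u)) u := by
    filter_upwards [hYd, h1.continuousAt.tendsto.eventually hbd, h5] with u g1 g2 g3
    have g4 : HasFDerivAt (fun u => b (Y u)) ((fderiv ℝ b (Y u)).comp (fderiv ℝ Y u)) u :=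
      g2.hasFDerivAt.comp u g1.hasFDerivAt
    have g5 := (g3.const_mul (α t)).add (g4.const_mul (γ t))
    refine g5.congr_fderiv ?_
    ext e
    simp [hβ]
  have hDb : DifferentiableAt ℝ (fderiv ℝ b) (Y (t • v)) :=
    (h4.fderiv_right (m := 1) (by norm_num)).differentiableAt (by norm_num)
  have hβd : HasFDerivAt β (α t • fderiv ℝ p (t • v)
      + γ t • (fderiv ℝ (fderiv ℝ b) (Y (t • v))).comp (fderiv ℝ Y (t • v))) (t • v) :=
    ((h3.differentiableAt (by norm_num)).hasFDerivAt.const_smul (α t)).add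
      ((hDb.hasFDerivAt.comp _ hYd.self_of_nhds.hasFDerivAt).const_smul (γ t))
  have hH := hess_of_bracket h1 hβd.differentiableAt h8 hΦd k k
  have hnn := hess_nonneg_of_isLocalMin hΦc h7 k
  rw [hH, hβd.fderiv] at hnn
  have hnn' : 0 ≤ α t * fderiv ℝ p (t • v) k (c t)
      + γ t * fderiv ℝ (fderiv ℝ b) (Y (t • v)) (c t) (c t) := by
    simpa [hc] using hnn
  have hcq : c t = (t - 1) • q t := by
    have : t - 1 ≠ 0 := by linarith
    simp [hq, smul_smul, this]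
  have hfin : α t * fderiv ℝ p (t • v) k (c t)
      + γ t * fderiv ℝ (fderiv ℝ b) (Y (t • v)) (c t) (c t)
      = (t - 1) * (α t * fderiv ℝ p (t • v) k (q t)
      + γ t * fderiv ℝ (fderiv ℝ b) (Y (t • v)) (c t) (q t)) := by
    have r1 : fderiv ℝ p (t • v) k (c t) = (t - 1) * fderiv ℝ p (t • v) k (q t) := by
      rw [hcq, map_smul, smul_eq_mul]
    have r2 : fderiv ℝ (fderiv ℝ b) (Y (t • v)) (c t) (c t)
        = (t - 1) * fderiv ℝ (fderiv ℝ b) (Y (t • v)) (c t) (q t) := by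
      conv_lhs => rw [hcq, map_smul, smul_eq_mul]
      rw [← hcq]
    rw [r1, r2]; ring
  rw [hfin] at hnn'
  have : (t - 1) * (α t * fderiv ℝ p (t • v) k (q t)
      + γ t * fderiv ℝ (fderiv ℝ b) (Y (t • v)) (c t) (q t)) < 0 :=
    mul_neg_of_neg_of_pos (by linarith) h0
  linarith

end Claimed.Agent.R213.Mid.Jacobi
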