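import Claimed.Agent.R213.Mid.Radial

/-!
# Row 213, MIDDLE layer, file M15: assembly of `SoftCore NF Hq`
-/

set_option autoImplicit false
set_option linter.unusedSectionVars false
open Claims Claims.C0370 Claims.C0370.WeakMTWGlobalSupport
open scoped Manifold ContDiff Topology
open Set Filter Manifold Bundle

namespace Claimed.Agent.R213.Mid

noncomputable section

variable {n : ℕ} {M : Type*}
    [MetricSpace M] [ChartedSpace (WeakMTW.Model n) M]
    [IsManifold (WeakMTW.model n) ∞ M]
    [RiemannianBundle (fun x : M => TangentSpace (WeakMTW.model n) x)]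
    [IsContMDiffRiemannianBundle (WeakMTW.model n) ∞ (WeakMTW.Model n)
      (fun x : M => TangentSpace (WeakMTW.model n) x)]
    [IsRiemannianManifold (WeakMTW.model n) M]

theorem softCore (hG : Geom n M) (hmtw : WeakMTW.HasWeakMTW (n := n) (M := M))
    (hnf : ∀ (x : M) (v : TangentSpace (II n) x), v ∈ WeakMTW.injectivityDomain x → NF x v)
    (hfocal : ∀ (x : M) (a b : TangentSpace (WeakMTW.model n) x), NF x a → NF x b →
      (∀ l : ℝ, 0 ≤ l → l ≤ 1 → (1 - l) • a + l • b ∈ Ibar x) →
      ∀ l : ℝ, 0 ≤ l → l ≤ 1 → NF x ((1 - l) • a + l • b)) :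
    SoftCore (n := n) (M := M) NF Hq where
  exp_zero := exp_zero hG
  hopf_rinow := hG.hopf_rinow
  dist_exp_le := dist_exp_le hG
  ray := ray hG
  t2 := tm_t2
  cpt := tm_cpt
  cont_exp := hG.cont_exp
  cont_norm := tm_cont_norm
  lin := tm_lin
  cont_inner := tm_cont_inner
  vel := vel hG
  nocross := nocross hG
  branch := branch hG
  cont_H := cont_Hq hG
  hom_H := hom_Hq hG
  nf_of_mem := hnf
  concave_H := concave_Hq hG hnf hmtw
  radial_H := radial_Hq hG hnf hmtw
  focal := hfocal

end

end Claimed.Agent.R213.Mid
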