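import Claimed.Agent.R213.Mid.NFInv

/-!
# Row 213, MIDDLE layer, block FOCAL, file F1: the smooth families `B v = Bf x y0 v` and `Nn z0 y0 x v`

Notation: `T = T_x M`, `c = cofr z0 x : T →L E`, `x̂ = chart_{z0} x`, `X β = eC z0 z0 (x̂, β)` (normal coordinates at `x`).
* `D1e`, `D2e` : the two partial derivatives of `eC z0 y0`;
* `Th z0 x̂ β ν κ = g_{X β} (ν, D_β X (β) κ)`   (bilinear in `(ν,κ)`, smooth in `β` near `0`);
* `Lop z0 x : T →L T →L T` : `⟪Lop v d, ξ⟫ = D_β Th (0) [c d] (c v) (c ξ)`   (LINEAR in `v`);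
* `Nn z0 y0 x v = D1e (x̂, c v) ∘ c - Bf x y0 v ∘ Lop v`.
At a nonfocal `v` one has `Nn v = Bf v ∘ A`, `A` = the symmetric operator of `Hq x v` (file `NBRel.lean`), but
`Nn` is smooth through focal velocities, and `[Nn v, Bf v]` is onto because `D (eC z0 y0)` is onto.

Sketches.
`contDiffAt_D1e/D2e`: `(hG.smooth ..).fderiv_right` (`m = ∞`), then `ContinuousLinearMap.compL .. |>.flip (inl/inr)` is a CLM
(`ContDiffAt.clm_comp` with a constant).
`contDiffAt_Th`: `β ↦ (x̂, β)` is smooth; `(x̂,0) ∈ dom z0 z0` (`zero_mem_dom`), `eC z0 z0 (x̂,0) = x̂ ∈ target` (`eC_zero`),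
`contDiffOn_gChart'` on the open target; `ContDiffAt.clm_comp`, `IsBoundedLinearMap`/CLM `flip`.
(WARNING of helper88: `set_option maxSynthPendingDepth 3 in` may be needed for normed instances on `E →L E →L ℝ`.)
`Th_zero`: `Th_apply`, `eC_zero`, `fderiv_eC_zero`.
`exists_sharp`: as in `ResRel.exists_op` of `R213/ResolventCore.lean` (`InnerProductSpace.toDual ℝ T).symm`, a `LinearMap`,
`LinearMap.toContinuousLinearMap`).
`exists_Lop`: with `D = fderiv ℝ (Th z0 x̂) 0 : E →L E →L E →L ℝ` and `R` from `exists_sharp`: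
`L v d = R ((D (c d) (c v)) ∘L c)`; build it from `D.flip`, `compL`, `c` (or in finite dimension via `LinearMap.mk₂` +
`LinearMap.toContinuousLinearMap`).
`contDiffAt_Bf`: `(differentiableAt_chart_exp ..).fderiv_right`.
`contDiffAt_Nn`: `v ↦ (x̂, c v)` is affine; `mem_dom_chart`; `contDiffAt_D1e`; `Lop` is a CLM; `ContDiffAt.clm_comp`, `.sub`.
`Nn_onto`: `fderiv_eC_surjective` at `p = (x̂, c v)` gives `δ` with `D eC p δ = f`; `e = c⁻¹ δ.1` (`cofr_surjective`),
`e' = c⁻¹ δ.2 + Lop v e`; `Bf_eq`; `δ = (δ.1,0) + (0,δ.2)`.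
-/

set_option autoImplicit false
set_option linter.unusedSectionVars false
open Claims Claims.C0370 Claims.C0370.WeakMTWGlobalSupport
open scoped Manifold ContDiff Topology
open Set Filter Manifold Bundle

namespace Claimed.Agent.R213.Mid

noncomputable section

variable {n : ℕ} {M : Type*}
    [MetricSpace M] [ChartedSpace (WeakMTW.Model n) M]
    [IsManifold (WeakMTW.model n) ∞ M]
    [RiemannianBundle (fun x : M => TangentSpace (WeakMTW.model n) x)]
    [IsContMDiffRiemannianBundle (WeakMTW.model n) ∞ (WeakMTW.Model n)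
      (fun x : M => TangentSpace (WeakMTW.model n) x)]
    [IsRiemannianManifold (WeakMTW.model n) M]

/-- derivative of `eC z0 y0` with respect to the base point. -/
def D1e (z0 y0 : M) (p : EE n × EE n) : EE n →L[ℝ] EE n :=
  (fderiv ℝ (eC z0 y0) p).comp (ContinuousLinearMap.inl ℝ (EE n) (EE n))

/-- derivative of `eC z0 y0` with respect to the velocity. -/
def D2e (z0 y0 : M) (p : EE n × EE n) : EE n →L[ℝ] EE n :=
  (fderiv ℝ (eC z0 y0) p).comp (ContinuousLinearMap.inr ℝ (EE n) (EE n))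

theorem D1e_apply (z0 y0 : M) (p : EE n × EE n) (d : EE n) :
    D1e z0 y0 p d = fderiv ℝ (eC z0 y0) p (d, 0) := rfl

theorem D2e_apply (z0 y0 : M) (p : EE n × EE n) (d : EE n) :
    D2e z0 y0 p d = fderiv ℝ (eC z0 y0) p (0, d) := rfl

theorem D1e_add_D2e (z0 y0 : M) (p δ : EE n × EE n) :
    D1e z0 y0 p δ.1 + D2e z0 y0 p δ.2 = fderiv ℝ (eC z0 y0) p δ := by
  rw [D1e_apply, D2e_apply, ← map_add]
  simp

theorem contDiffAt_D1e (hG : Geom n M) {z0 y0 : M} {p : EE n × EE n} (hp : p ∈ dom z0 y0) :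
    ContDiffAt ℝ ∞ (D1e (n := n) z0 y0) p :=
  ((hG.smooth z0 y0 p hp).fderiv_right (m := ∞) (by simp)).clm_comp contDiffAt_const

theorem contDiffAt_D2e (hG : Geom n M) {z0 y0 : M} {p : EE n × EE n} (hp : p ∈ dom z0 y0) :
    ContDiffAt ℝ ∞ (D2e (n := n) z0 y0) p :=
  ((hG.smooth z0 y0 p hp).fderiv_right (m := ∞) (by simp)).clm_comp contDiffAt_const

/-- `Th z0 x̂ β ν κ = g_{X β} (ν, D X (β) κ)`, `X β = eC z0 z0 (x̂, β)`. -/
def Th (z0 : M) (xh β : EE n) : EE n →L[ℝ] EE n →L[ℝ] ℝ :=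
  ((ContinuousLinearMap.compL ℝ (EE n) (EE n) ℝ).flip (D2e z0 z0 (xh, β))).comp
    (Geo.gChart z0 (eC z0 z0 (xh, β)))

theorem Th_apply (z0 : M) (xh β ν κ : EE n) :
    Th z0 xh β ν κ =
      gC z0 (eC z0 z0 (xh, β)) ν (fderiv ℝ (eC z0 z0) (xh, β) (0, κ)) := rfl

set_option maxSynthPendingDepth 3 in
theorem contDiffAt_Th (hG : Geom n M) {z0 : M} {xh : EE n}
    (hx : xh ∈ (extChartAt (II n) z0).target) : ContDiffAt ℝ ∞ (Th z0 xh) 0 := by
  have hmem : (xh, (0 : EE n)) ∈ dom (n := n) z0 z0 := zero_mem_dom hG hx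
  have hc : ContDiffAt ℝ ∞ (fun β : EE n => (xh, β)) 0 := contDiffAt_const.prodMk contDiffAt_id
  have h1 : ContDiffAt ℝ ∞ (fun β : EE n => D2e z0 z0 (xh, β)) 0 :=
    ContDiffAt.comp (g := D2e (n := n) z0 z0) (f := fun β : EE n => (xh, β)) 0
      (contDiffAt_D2e hG hmem) hc
  have h2 : ContDiffAt ℝ ∞ (fun β : EE n => eC z0 z0 (xh, β)) 0 :=
    ContDiffAt.comp (g := eC (n := n) z0 z0) (f := fun β : EE n => (xh, β)) 0
      (hG.smooth z0 z0 _ hmem) hc
  have h3 : ContDiffAt ℝ ∞ (Geo.gChart (n := n) z0) (eC z0 z0 (xh, 0)) := by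
    rw [eC_zero hG hx]
    exact (contDiffOn_gChart' z0).contDiffAt ((isOpen_extChartAt_target z0).mem_nhds hx)
  have h4 : ContDiffAt ℝ ∞ (fun β : EE n => Geo.gChart z0 (eC z0 z0 (xh, β))) 0 :=
    ContDiffAt.comp (g := Geo.gChart (n := n) z0) (f := fun β : EE n => eC z0 z0 (xh, β)) 0 h3 h2
  have h5 : ContDiffAt ℝ ∞ (fun β : EE n =>
      (ContinuousLinearMap.compL ℝ (EE n) (EE n) ℝ).flip (D2e z0 z0 (xh, β))) 0 :=
    ((ContinuousLinearMap.compL ℝ (EE n) (EE n) ℝ).flip).contDiff.contDiffAt.comp 0 h1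
  exact h5.clm_comp h4

theorem Th_zero (hG : Geom n M) {z0 : M} {xh : EE n}
    (hx : xh ∈ (extChartAt (II n) z0).target) (ν κ : EE n) :
    Th z0 xh 0 ν κ = gC z0 xh ν κ := by
  rw [Th_apply, eC_zero hG hx, fderiv_eC_zero hG hx]
  simp

/-- Riesz representation as a continuous linear map (real, finite dimensional). -/
theorem exists_sharp (T : Type*) [NormedAddCommGroup T] [InnerProductSpace ℝ T]
    [FiniteDimensional ℝ T] :
    ∃ R : (T →L[ℝ] ℝ) →L[ℝ] T, ∀ (f : T →L[ℝ] ℝ) (ξ : T), inner ℝ (R f) ξ = f ξ := by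
  have : CompleteSpace T := FiniteDimensional.complete ℝ T
  let R₀ : (T →L[ℝ] ℝ) →ₗ[ℝ] T :=
    { toFun := fun f => (InnerProductSpace.toDual ℝ T).symm f
      map_add' := fun f g => by rw [map_add]
      map_smul' := fun c f => by rw [LinearIsometryEquiv.map_smulₛₗ]; simp }
  exact ⟨LinearMap.toContinuousLinearMap R₀, fun f ξ => InnerProductSpace.toDual_symm_apply⟩

set_option maxSynthPendingDepth 3 in
theorem exists_Lop (z0 x : M) :
    ∃ L : TangentSpace (II n) x →L[ℝ] TangentSpace (II n) x →L[ℝ] TangentSpace (II n) x,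
      ∀ v d ξ : TangentSpace (II n) x, inner ℝ (L v d) ξ =
        fderiv ℝ (Th z0 (extChartAt (II n) z0 x)) 0 (cofr z0 x d) (cofr z0 x v) (cofr z0 x ξ) := by
  obtain ⟨R, hR⟩ := exists_sharp (TangentSpace (II n) x)
  set D := fderiv ℝ (Th z0 (extChartAt (II n) z0 x)) 0 with hD
  set c := cofr (n := n) z0 x with hc
  let L₀ : TangentSpace (II n) x →ₗ[ℝ] TangentSpace (II n) x →ₗ[ℝ] TangentSpace (II n) x :=
    LinearMap.mk₂ ℝ (fun v d => R ((D (c d) (c v)).comp c))
      (fun v v' d => by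
        rw [← map_add]; congr 1; ext ξ; simp)
      (fun a v d => by
        rw [← map_smul]; congr 1; ext ξ; simp)
      (fun v d d' => by
        rw [← map_add]; congr 1; ext ξ; simp)
      (fun a v d => by
        rw [← map_smul]; congr 1; ext ξ; simp)
  let L : TangentSpace (II n) x →L[ℝ] TangentSpace (II n) x →L[ℝ] TangentSpace (II n) x :=
    LinearMap.toContinuousLinearMap
      ((LinearMap.toContinuousLinearMap :
        (TangentSpace (II n) x →ₗ[ℝ] TangentSpace (II n) x) ≃ₗ[ℝ] _).toLinearMap ∘ₗ L₀)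
  refine ⟨L, fun v d ξ => ?_⟩
  have : L v d = R ((D (c d) (c v)).comp c) := rfl
  rw [this, hR]
  rfl

/-- `⟪Lop v d, ξ⟫ = D_β Th (0) [c d] (c v) (c ξ)`. -/
def Lop (z0 x : M) :
    TangentSpace (II n) x →L[ℝ] TangentSpace (II n) x →L[ℝ] TangentSpace (II n) x :=
  Classical.choose (exists_Lop z0 x)

theorem Lop_spec (z0 x : M) (v d ξ : TangentSpace (II n) x) :
    inner ℝ (Lop z0 x v d) ξ =
      fderiv ℝ (Th z0 (extChartAt (II n) z0 x)) 0 (cofr z0 x d) (cofr z0 x v) (cofr z0 x ξ) :=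
  Classical.choose_spec (exists_Lop z0 x) v d ξ

/-- the smooth family with `Nn v = Bf v ∘ (Hessian operator)` at nonfocal `v`. -/
def Nn (z0 y0 x : M) (v : TangentSpace (II n) x) : TangentSpace (II n) x →L[ℝ] EE n :=
  (D1e z0 y0 (extChartAt (II n) z0 x, cofr z0 x v)).comp (cofr z0 x) -
    (Bf x y0 v).comp (Lop z0 x v)

theorem Nn_apply (z0 y0 x : M) (v d : TangentSpace (II n) x) :
    Nn z0 y0 x v d = D1e z0 y0 (extChartAt (II n) z0 x, cofr z0 x v) (cofr z0 x d) -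
      Bf x y0 v (Lop z0 x v d) := rfl

theorem contDiffAt_Bf (hG : Geom n M) (x : M) (v : TangentSpace (II n) x) (y0 : M)
    (hy : WeakMTW.exp x v ∈ (extChartAt (II n) y0).source) :
    ContDiffAt ℝ ∞ (fun w : TangentSpace (II n) x => Bf x y0 w) v :=
  (differentiableAt_chart_exp hG x v y0 hy).fderiv_right (m := ∞) (by simp)

set_option maxSynthPendingDepth 3 in
theorem contDiffAt_Nn (hG : Geom n M) {z0 y0 x : M} (v : TangentSpace (II n) x)
    (hx : x ∈ (extChartAt (II n) z0).source)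
    (hy : WeakMTW.exp x v ∈ (extChartAt (II n) y0).source) :
    ContDiffAt ℝ ∞ (fun w : TangentSpace (II n) x => Nn z0 y0 x w) v := by
  have hp := mem_dom_chart (y0 := y0) hx v hy
  have h0 : ContDiffAt ℝ ∞ (fun w : TangentSpace (II n) x =>
      (extChartAt (II n) z0 x, cofr z0 x w)) v :=
    contDiffAt_const.prodMk (cofr (n := n) z0 x).contDiff.contDiffAt
  have h1 : ContDiffAt ℝ ∞ (fun w : TangentSpace (II n) x =>
      D1e z0 y0 (extChartAt (II n) z0 x, cofr z0 x w)) v :=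
    ContDiffAt.comp v (contDiffAt_D1e hG hp) h0
  have h2 : ContDiffAt ℝ ∞ (fun w : TangentSpace (II n) x =>
      (D1e z0 y0 (extChartAt (II n) z0 x, cofr z0 x w)).comp (cofr z0 x)) v :=
    h1.clm_comp contDiffAt_const
  have hL : ContDiffAt ℝ ∞ (fun w : TangentSpace (II n) x => Lop z0 x w) v := by
    have := ContinuousLinearMap.contDiff (𝕜 := ℝ) (E := TangentSpace (II n) x)
      (F := TangentSpace (II n) x →L[ℝ] TangentSpace (II n) x) (n := ∞) (Lop (n := n) z0 x)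
    exact this.contDiffAt
  have h3 : ContDiffAt ℝ ∞ (fun w : TangentSpace (II n) x =>
      (Bf x y0 w).comp (Lop z0 x w)) v :=
    (contDiffAt_Bf hG x v y0 hy).clm_comp hL
  exact h2.sub h3

theorem Nn_onto (hG : Geom n M) {z0 y0 x : M} (v : TangentSpace (II n) x)
    (hx : x ∈ (extChartAt (II n) z0).source)
    (hy : WeakMTW.exp x v ∈ (extChartAt (II n) y0).source) (f : EE n) :
    ∃ e e' : TangentSpace (II n) x, Nn z0 y0 x v e + Bf x y0 v e' = f := by
  have hp := mem_dom_chart (y0 := y0) hx v hy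
  obtain ⟨δ, hδ⟩ := fderiv_eC_surjective hG hp f
  obtain ⟨e, he⟩ := cofr_surjective hx δ.1
  obtain ⟨e2, he2⟩ := cofr_surjective hx δ.2
  refine ⟨e, e2 + Lop z0 x v e, ?_⟩
  rw [Nn_apply, map_add, Bf_eq hG v hx hy e2, he, he2, ← D2e_apply, ← hδ, ← D1e_add_D2e]
  abel

end

end Claimed.Agent.R213.Mid
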