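import Claimed.Agent.R213.Mid.Grad
import Claimed.Agent.R213.Calc.Taylor

/-!
# Row 213, MIDDLE layer, file M6: the branch cost in normal coordinates

`FN W z0 y0 ((x̂,ŷ),β) = cC W z0 y0 (eC z0 z0 (x̂,β), ŷ)` is `|W (exp_{x'} e) y'|^2/2` read in charts
(`β = cofr z0 x' e`).
Sketches. `contDiffAt_FN`: composition of `contDiffOn_cC` (open domain) and `Geom.smooth z0 z0` at `(x̂,0)`
(`zero_mem_dom`, `eC_zero`).  `fderiv_FN`: chain rule + `fderiv_cC`.  `fderiv_FN_zero`: + `fderiv_eC_zero`.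
`Hq_eq_d2`: `transfer` + `Hq_eq` + `exp_W` + `FN_eq` for small `t'` + `Filter.EventuallyEq.deriv`.
-/

set_option autoImplicit false
set_option linter.unusedSectionVars false
open Claims Claims.C0370 Claims.C0370.WeakMTWGlobalSupport
open scoped Manifold ContDiff Topology
open Set Filter Manifold Bundle

namespace Claimed.Agent.R213.Mid

noncomputable section

variable {n : ℕ} {M : Type*}
    [MetricSpace M] [ChartedSpace (WeakMTW.Model n) M]
    [IsManifold (WeakMTW.model n) ∞ M]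
    [RiemannianBundle (fun x : M => TangentSpace (WeakMTW.model n) x)]
    [IsContMDiffRiemannianBundle (WeakMTW.model n) ∞ (WeakMTW.Model n)
      (fun x : M => TangentSpace (WeakMTW.model n) x)]
    [IsRiemannianManifold (WeakMTW.model n) M]

variable {x : M} {u : TangentSpace (II n) x} {W : ∀ x' : M, M → TangentSpace (II n) x'}
  {z0 y0 : M} {U V : Set M} {N : Set (TangentBundle (II n) M)}

theorem PreBranch.contDiffAt_FN (hG : Geom n M) (h : PreBranch x u W z0 y0 U V N)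
    {q : EE n × EE n} (hq : q ∈ chU z0 U ×ˢ chU y0 V) :
    ContDiffAt ℝ ∞ (FN W z0 y0) (q, 0) := by
  have hq1 : q.1 ∈ (extChartAt (II n) z0).target := chU_subset_target h.hUs hq.1
  have hopen : IsOpen (chU (n := n) z0 U ×ˢ chU (n := n) y0 V) :=
    (isOpen_chU h.hU h.hUs).prod (isOpen_chU h.hV h.hVs)
  have hz : eC z0 z0 (q.1, (0 : EE n)) = q.1 := eC_zero hG hq1
  have hc : ContDiffAt ℝ ∞ (cC W z0 y0) (eC z0 z0 (q.1, (0 : EE n)), q.2) := by
    rw [hz]
    exact h.contDiffOn_cC.contDiffAt (hopen.mem_nhds hq)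
  have he : ContDiffAt ℝ ∞ (eC z0 z0) (q.1, (0 : EE n)) :=
    hG.smooth z0 z0 _ (zero_mem_dom hG hq1)
  have hin : ContDiffAt ℝ ∞
      (fun q' : (EE n × EE n) × EE n => (q'.1.1, q'.2)) (q, (0 : EE n)) :=
    (contDiffAt_fst.fst).prodMk contDiffAt_snd
  have he' : ContDiffAt ℝ ∞
      (fun q' : (EE n × EE n) × EE n => eC z0 z0 (q'.1.1, q'.2)) (q, (0 : EE n)) :=
    ContDiffAt.comp (g := eC z0 z0)
      (f := fun q' : (EE n × EE n) × EE n => (q'.1.1, q'.2)) (q, (0 : EE n)) he hin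
  have hφ : ContDiffAt ℝ ∞
      (fun q' : (EE n × EE n) × EE n => (eC z0 z0 (q'.1.1, q'.2), q'.1.2)) (q, (0 : EE n)) :=
    he'.prodMk (contDiffAt_fst.snd)
  exact ContDiffAt.comp (g := cC W z0 y0)
    (f := fun q' : (EE n × EE n) × EE n => (eC z0 z0 (q'.1.1, q'.2), q'.1.2)) (q, (0 : EE n)) hc hφ

theorem PreBranch.FN_eq (hG : Geom n M) (h : PreBranch x u W z0 y0 U V N) {x' y' : M}
    (hx' : x' ∈ U) (hy' : y' ∈ V) (e : TangentSpace (II n) x') (he : WeakMTW.exp x' e ∈ U) :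
    ‖W (WeakMTW.exp x' e) y'‖ ^ 2 / 2 =
      FN W z0 y0 ((extChartAt (II n) z0 x', extChartAt (II n) y0 y'), cofr z0 x' e) := by
  rw [h.norm_sq he hy']
  show _ = cC W z0 y0 (eC z0 z0 (extChartAt (II n) z0 x', cofr z0 x' e), extChartAt (II n) y0 y')
  rw [eC_chart z0 (h.hUs hx') e]

theorem PreBranch.fderiv_FN (hG : Geom n M) (h : PreBranch x u W z0 y0 U V N)
    {q : EE n × EE n} (hq : q ∈ chU z0 U ×ˢ chU y0 V) (β k : EE n)
    (hβ : (q.1, β) ∈ dom (n := n) z0 z0) (hβU : eC z0 z0 (q.1, β) ∈ chU z0 U) :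
    fderiv ℝ (FN W z0 y0) (q, β) (0, k) =
      - gC z0 (eC z0 z0 (q.1, β)) (Uc W z0 y0 (eC z0 z0 (q.1, β), q.2))
          (fderiv ℝ (eC z0 z0) (q.1, β) (0, k)) := by
  have hopen : IsOpen (chU (n := n) z0 U ×ˢ chU (n := n) y0 V) :=
    (isOpen_chU h.hU h.hUs).prod (isOpen_chU h.hV h.hVs)
  have hq' : (eC z0 z0 (q.1, β), q.2) ∈ chU (n := n) z0 U ×ˢ chU (n := n) y0 V := ⟨hβU, hq.2⟩
  have hc : DifferentiableAt ℝ (cC W z0 y0) (eC z0 z0 (q.1, β), q.2) :=
    (h.contDiffOn_cC.contDiffAt (hopen.mem_nhds hq')).differentiableAt (by simp)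
  have he : HasFDerivAt (eC z0 z0) (fderiv ℝ (eC z0 z0) (q.1, β)) (q.1, β) :=
    ((hG.smooth z0 z0 _ hβ).differentiableAt (by simp)).hasFDerivAt
  have hin : HasFDerivAt (fun q' : (EE n × EE n) × EE n => (q'.1.1, q'.2))
      (((ContinuousLinearMap.fst ℝ (EE n) (EE n)).comp
        (ContinuousLinearMap.fst ℝ (EE n × EE n) (EE n))).prod
        (ContinuousLinearMap.snd ℝ (EE n × EE n) (EE n))) (q, β) :=
    (((ContinuousLinearMap.fst ℝ (EE n) (EE n)).comp
        (ContinuousLinearMap.fst ℝ (EE n × EE n) (EE n))).prod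
        (ContinuousLinearMap.snd ℝ (EE n × EE n) (EE n))).hasFDerivAt
  have he' := HasFDerivAt.comp (q, β) (f := fun q' : (EE n × EE n) × EE n => (q'.1.1, q'.2))
    (g := eC z0 z0) he hin
  have hs : HasFDerivAt (fun q' : (EE n × EE n) × EE n => q'.1.2)
      ((ContinuousLinearMap.snd ℝ (EE n) (EE n)).comp
        (ContinuousLinearMap.fst ℝ (EE n × EE n) (EE n))) (q, β) :=
    ((ContinuousLinearMap.snd ℝ (EE n) (EE n)).comp
        (ContinuousLinearMap.fst ℝ (EE n × EE n) (EE n))).hasFDerivAt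
  have hφ := he'.prodMk hs
  have hF := HasFDerivAt.comp (q, β)
    (f := fun q' : (EE n × EE n) × EE n => (eC z0 z0 (q'.1.1, q'.2), q'.1.2))
    (g := cC W z0 y0) hc.hasFDerivAt hφ
  have hF' : HasFDerivAt (FN W z0 y0) _ (q, β) := hF
  rw [hF'.fderiv]
  simp only [ContinuousLinearMap.comp_apply, ContinuousLinearMap.prod_apply,
    ContinuousLinearMap.coe_fst', ContinuousLinearMap.coe_snd']
  rw [h.fderiv_cC hG hq']
  have h0 : ∀ a b : EE n, gC y0 a b (0 : EE n) = 0 := by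
    intro a b
    simp [gC]
  simp [h0]

theorem PreBranch.fderiv_FN_zero (hG : Geom n M) (h : PreBranch x u W z0 y0 U V N)
    {q : EE n × EE n} (hq : q ∈ chU z0 U ×ˢ chU y0 V) (β : EE n) :
    fderiv ℝ (FN W z0 y0) (q, 0) (0, β) = - gC z0 q.1 (Uc W z0 y0 q) β := by
  have hq1 : q.1 ∈ (extChartAt (II n) z0).target := chU_subset_target h.hUs hq.1
  have hz : eC z0 z0 (q.1, (0 : EE n)) = q.1 := eC_zero hG hq1
  rw [h.fderiv_FN hG hq 0 β (zero_mem_dom hG hq1) (by rw [hz]; exact hq.1), hz,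
    fderiv_eC_zero hG hq1]
  simp

theorem PreBranch.Hq_eq_d2 (hG : Geom n M) (h : PreBranch x u W z0 y0 U V N) {x' y' : M}
    (hx' : x' ∈ U) (hy' : y' ∈ V) (e : TangentSpace (II n) x') :
    Hq x' (W x' y') e =
      Calc.d2 (FN W z0 y0) (extChartAt (II n) z0 x', extChartAt (II n) y0 y') (cofr z0 x' e) := by
  rw [(h.transfer hx' hy').Hq_eq hG e, h.exp_W x' hx' y' hy']
  unfold hess2 Calc.d2
  obtain ⟨hsm, h0, -⟩ := hG.geod x' e
  have hcont : ContinuousAt (fun t : ℝ => WeakMTW.exp x' (t • e)) 0 := hsm.continuous.continuousAt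
  have hU0 : ∀ᶠ t : ℝ in 𝓝 0, WeakMTW.exp x' (t • e) ∈ U := by
    apply hcont.eventually_mem
    have : WeakMTW.exp x' ((0 : ℝ) • e) = x' := h0
    rw [this]
    exact h.hU.mem_nhds hx'
  have hev : (fun t' : ℝ => ‖W (WeakMTW.exp x' (t' • e)) y'‖ ^ 2 / 2) =ᶠ[𝓝 0]
      (fun t' : ℝ => FN W z0 y0
        ((extChartAt (II n) z0 x', extChartAt (II n) y0 y'), t' • cofr z0 x' e)) := by
    filter_upwards [hU0] with t ht
    rw [h.FN_eq hG hx' hy' (t • e) ht, map_smul]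
  exact hev.deriv.deriv_eq

end

end Claimed.Agent.R213.Mid
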