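import Claimed.Agent.R213.Mid.NBDefs
import Claimed.Agent.R213.Mid.Normal
import Claimed.Agent.R213.ResolventCore

/-!
# Row 213, MIDDLE layer, block FOCAL, file F2: `Nn v = Bf v ∘ (Hessian operator of Hq x v)` at nonfocal `v`

Notation of `NBDefs.lean`; `h : PreBranch x u W z0 y0 U V N`, `x̂ = chart_{z0} x`, `ŷ = chart_{y0} (exp x u)`, `û = c u = Uc (x̂,ŷ)`
(`Uc_chart`, `W_self`), `q = (x̂,ŷ) ∈ chU z0 U ×ˢ chU y0 V` (an open set: `isOpen_chU`), `Uc` is smooth there (`h.smooth`).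

`D1e_add` : differentiate `eC z0 y0 (x', Uc (x', ŷ)) = ŷ` (`eC_Uc`, valid for `x'` near `x̂`) at `x' = x̂` in the direction `d`:
chain rule with `hG.smooth` at `(x̂, û) ∈ dom` (`h.mem_dom`): `D eC (x̂,û) (d, D Uc q (d,0)) = 0`; split by `D1e_add_D2e`.

`second_form` : `F = FN W z0 y0`, `Q₀` from `Calc.exists_second_form F q (h.contDiffAt_FN hG hq)`, take `Q = Q₀ q`
(`Filter.Eventually.self_of_nhds`).  Symmetry: first conclusion.  `Hq x u e = Calc.d2 F q (c e) = Q (c e) (c e)`: `Hq_eq_d2` at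
`x' = x`, `y' = exp x u` and `W_self`.  Formula: third conclusion `HasDerivAt (fun s => fderiv F (q, s • a) (0,b)) (Q a b) 0`.
For small `s`: `(x̂, s • a) ∈ dom z0 z0` (`isOpen_dom`, `zero_mem_dom`) and `X (s a) = eC z0 z0 (x̂, s • a) ∈ chU z0 U`
(continuity of `eC z0 z0` at `(x̂,0)`, `eC_zero`), so by `fderiv_FN`
`fderiv F (q, s • a) (0,b) = - Th z0 x̂ (s • a) (Uc (X (s a), ŷ)) b`.
The right side has derivative at `s = 0` (product rule for the CLM application `HasDerivAt.clm_apply` / `HasFDerivAt.clm_apply`):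
`- (fderiv Th 0 a) û b - Th 0 (D Uc q (D X(0) a, 0)) b`, where `D X (0) a = fderiv (eC z0 z0) (x̂,0) (0,a) = a`
(`fderiv_eC_zero`) and `Th 0 = gC x̂` (`Th_zero`).  Conclude by `HasDerivAt.unique` (+ `EventuallyEq.hasDerivAt_iff`).

`resRel` : branch in the charts `(z0,y0)` (`preBranch_in_charts`).  `Bf x y0 v` is injective (`invertible_of_nf`).
`b e e' := Q (c e) (c e')` (`Q.bilinearComp c c`).  For `e`: choose `w₁` with `c w₁ = D Uc q (c e, 0)` (`cofr_surjective`) and put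
`w := - Lop z0 x v e - w₁`.  Then `⟪w,e'⟫ = - D Th 0 (c e) (c v) (c e') - gC x̂ (D Uc q (c e,0)) (c e') = Q (c e) (c e')`
(`Lop_spec`, `inner_eq_gC`), and `Bf v w = - Bf v (Lop v e) - D2e (x̂,c v) (D Uc q (c e,0)) = - Bf v (Lop v e) + D1e (x̂, c v) (c e)`
(`Bf_eq`, `D1e_add`) `= Nn v e`.
-/

set_option autoImplicit false
set_option linter.unusedSectionVars false
open Claims Claims.C0370 Claims.C0370.WeakMTWGlobalSupport
open scoped Manifold ContDiff Topology
open Set Filter Manifold Bundle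

namespace Claimed.Agent.R213.Mid

noncomputable section

variable {n : ℕ} {M : Type*}
    [MetricSpace M] [ChartedSpace (WeakMTW.Model n) M]
    [IsManifold (WeakMTW.model n) ∞ M]
    [RiemannianBundle (fun x : M => TangentSpace (WeakMTW.model n) x)]
    [IsContMDiffRiemannianBundle (WeakMTW.model n) ∞ (WeakMTW.Model n)
      (fun x : M => TangentSpace (WeakMTW.model n) x)]
    [IsRiemannianManifold (WeakMTW.model n) M]

variable {x : M} {u : TangentSpace (II n) x} {W : ∀ x' : M, M → TangentSpace (II n) x'}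
  {z0 y0 : M} {U V : Set M} {N : Set (TangentBundle (II n) M)}

theorem PreBranch.q_mem (h : PreBranch x u W z0 y0 U V N) :
    (extChartAt (II n) z0 x, extChartAt (II n) y0 (WeakMTW.exp x u)) ∈
      chU (n := n) z0 U ×ˢ chU (n := n) y0 V :=
  ⟨⟨x, h.hx, rfl⟩, ⟨_, h.hy, rfl⟩⟩

theorem PreBranch.Uc_q (h : PreBranch x u W z0 y0 U V N) :
    Uc W z0 y0 (extChartAt (II n) z0 x, extChartAt (II n) y0 (WeakMTW.exp x u)) = cofr z0 x u := by
  rw [h.Uc_chart h.hx h.hy, h.W_self]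

/-- derivative of `eC (x', Uc (x', ŷ)) = ŷ` with respect to `x'`. -/
theorem PreBranch.D1e_add (hG : Geom n M) (h : PreBranch x u W z0 y0 U V N) (d : EE n) :
    D1e z0 y0 (extChartAt (II n) z0 x, cofr z0 x u) d +
      D2e z0 y0 (extChartAt (II n) z0 x, cofr z0 x u)
        (fderiv ℝ (Uc W z0 y0)
          (extChartAt (II n) z0 x, extChartAt (II n) y0 (WeakMTW.exp x u)) (d, 0)) = 0 := by
  set xh : EE n := extChartAt (II n) z0 x with hxh
  set yh : EE n := extChartAt (II n) y0 (WeakMTW.exp x u) with hyh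
  have hq : (xh, yh) ∈ chU (n := n) z0 U ×ˢ chU (n := n) y0 V := h.q_mem
  have hSo : IsOpen (chU (n := n) z0 U ×ˢ chU (n := n) y0 V) :=
    (isOpen_chU h.hU h.hUs).prod (isOpen_chU h.hV h.hVs)
  have hsm : ContDiffOn ℝ ∞ (Uc W z0 y0) (chU (n := n) z0 U ×ˢ chU (n := n) y0 V) := h.smooth
  have hUcd : DifferentiableAt ℝ (Uc W z0 y0) (xh, yh) :=
    (hsm.contDiffAt (hSo.mem_nhds hq)).differentiableAt (by simp)
  have hι : HasFDerivAt (fun x' : EE n => (x', yh))
      (ContinuousLinearMap.inl ℝ (EE n) (EE n)) xh := hasFDerivAt_prodMk_left xh yh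
  have hU1 : HasFDerivAt (fun x' : EE n => Uc W z0 y0 (x', yh))
      ((fderiv ℝ (Uc W z0 y0) (xh, yh)).comp (ContinuousLinearMap.inl ℝ (EE n) (EE n))) xh :=
    HasFDerivAt.comp (g := Uc W z0 y0) (f := fun x' : EE n => (x', yh)) xh hUcd.hasFDerivAt hι
  have hg := (hasFDerivAt_id xh).prodMk hU1
  have heC : DifferentiableAt ℝ (eC z0 y0) (xh, Uc W z0 y0 (xh, yh)) :=
    (hG.smooth z0 y0 _ (h.mem_dom hq)).differentiableAt (by simp)
  have hφ := heC.hasFDerivAt.comp xh hg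
  have hconst : (eC z0 y0 ∘ fun x' : EE n => (id x', Uc W z0 y0 (x', yh))) =ᶠ[𝓝 xh]
      fun _ => yh := by
    filter_upwards [(isOpen_chU h.hU h.hUs).mem_nhds hq.1] with x' hx'
    exact h.eC_Uc (q := (x', yh)) ⟨hx', hq.2⟩
  have h0 := (hasFDerivAt_const (𝕜 := ℝ) yh xh).congr_of_eventuallyEq hconst
  have h1 := DFunLike.congr_fun (hφ.unique h0) d
  have hUq : Uc W z0 y0 (xh, yh) = cofr z0 x u := h.Uc_q
  rw [← hUq, D1e_add_D2e z0 y0 _ (d, fderiv ℝ (Uc W z0 y0) (xh, yh) (d, 0))]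
  simpa using h1

set_option maxSynthPendingDepth 3 in
/-- pure calculus: the product rule used in `PreBranch.second_form`. -/
theorem hasDerivAt_Th_aux {E : Type*} [NormedAddCommGroup E] [NormedSpace ℝ E]
    (T : E → E →L[ℝ] E →L[ℝ] ℝ) (Uf : E × E → E) (X : E × E → E) (xh yh a b : E)
    (hT : DifferentiableAt ℝ T 0) (hX : DifferentiableAt ℝ X (xh, 0)) (hX0 : X (xh, 0) = xh)
    (hXd : fderiv ℝ X (xh, 0) (0, a) = a) (hU : DifferentiableAt ℝ Uf (xh, yh)) :
    HasDerivAt (fun s : ℝ => - T (s • a) (Uf (X (xh, s • a), yh)) b)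
      (- fderiv ℝ T 0 a (Uf (xh, yh)) b - T 0 (fderiv ℝ Uf (xh, yh) (a, 0)) b) 0 := by
  have hline : HasDerivAt (fun s : ℝ => s • a) a 0 := by
    simpa using (hasDerivAt_id (0 : ℝ)).smul_const a
  have hcurve : HasDerivAt (fun s : ℝ => (xh, s • a)) ((0 : E), a) 0 :=
    (hasDerivAt_const (0 : ℝ) xh).prodMk hline
  have he : HasFDerivAt X (fderiv ℝ X (xh, (0 : E))) ((fun s : ℝ => (xh, s • a)) 0) := by
    simpa using hX.hasFDerivAt
  have hXs : HasDerivAt (fun s : ℝ => X (xh, s • a)) a 0 := by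
    have := he.comp_hasDerivAt (0 : ℝ) hcurve
    rw [hXd] at this
    exact this
  have hXy : HasDerivAt (fun s : ℝ => (X (xh, s • a), yh)) (a, (0 : E)) 0 :=
    hXs.prodMk (hasDerivAt_const (0 : ℝ) yh)
  have hUd : HasFDerivAt Uf (fderiv ℝ Uf (xh, yh)) ((fun s : ℝ => (X (xh, s • a), yh)) 0) := by
    simpa [hX0] using hU.hasFDerivAt
  have hUs : HasDerivAt (fun s : ℝ => Uf (X (xh, s • a), yh)) (fderiv ℝ Uf (xh, yh) (a, 0)) 0 :=
    hUd.comp_hasDerivAt (0 : ℝ) hXy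
  have hThd : HasFDerivAt T (fderiv ℝ T 0) ((fun s : ℝ => s • a) 0) := by
    simpa using hT.hasFDerivAt
  have hThs : HasDerivAt (fun s : ℝ => T (s • a)) (fderiv ℝ T 0 a) 0 :=
    hThd.comp_hasDerivAt (0 : ℝ) hline
  have hprod := ((hThs.clm_apply hUs).clm_apply (hasDerivAt_const (0 : ℝ) b)).neg
  have hval : - fderiv ℝ T 0 a (Uf (xh, yh)) b - T 0 (fderiv ℝ Uf (xh, yh) (a, 0)) b =
      -((((fderiv ℝ T 0) a) (Uf (X (xh, (0 : ℝ) • a), yh)) +
        (T ((0 : ℝ) • a)) ((fderiv ℝ Uf (xh, yh)) (a, 0))) b +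
        ((T ((0 : ℝ) • a)) (Uf (X (xh, (0 : ℝ) • a), yh))) 0) := by
    rw [zero_smul, hX0, map_zero, add_zero, add_apply]
    ring
  rw [hval]
  exact hprod

/-- the bilinear form of `Hq x u` in terms of `D_x Uc` and `D_β Th`. -/
theorem PreBranch.second_form (hG : Geom n M) (h : PreBranch x u W z0 y0 U V N) :
    ∃ Q : EE n →L[ℝ] EE n →L[ℝ] ℝ, (∀ a b : EE n, Q a b = Q b a) ∧
      (∀ e : TangentSpace (II n) x, Hq x u e = Q (cofr z0 x e) (cofr z0 x e)) ∧
      ∀ a b : EE n, Q a b =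
        - fderiv ℝ (Th z0 (extChartAt (II n) z0 x)) 0 a (cofr z0 x u) b
        - gC z0 (extChartAt (II n) z0 x)
            (fderiv ℝ (Uc W z0 y0)
              (extChartAt (II n) z0 x, extChartAt (II n) y0 (WeakMTW.exp x u)) (a, 0)) b := by
  have hUq := h.Uc_q
  have hq := h.q_mem
  have hHq : ∀ e : TangentSpace (II n) x, Hq x u e =
      Calc.d2 (FN W z0 y0) (extChartAt (II n) z0 x, extChartAt (II n) y0 (WeakMTW.exp x u))
        (cofr z0 x e) := by
    intro e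
    have := h.Hq_eq_d2 hG h.hx h.hy e
    rwa [h.W_self] at this
  generalize extChartAt (II n) z0 x = xh at hUq hq hHq ⊢
  generalize extChartAt (II n) y0 (WeakMTW.exp x u) = yh at hUq hq hHq ⊢
  have hxt : xh ∈ (extChartAt (II n) z0).target := chU_subset_target h.hUs hq.1
  have hopen : IsOpen (chU (n := n) z0 U ×ˢ chU (n := n) y0 V) :=
    (isOpen_chU h.hU h.hUs).prod (isOpen_chU h.hV h.hVs)
  obtain ⟨Q₀, -, hQ⟩ := Calc.exists_second_form (FN W z0 y0) (xh, yh) (h.contDiffAt_FN hG hq)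
  obtain ⟨hsym, hd2, hder⟩ := hQ.self_of_nhds
  refine ⟨Q₀ (xh, yh), hsym, fun e => by rw [hHq, hd2], ?_⟩
  intro a b
  have h1 := hder a b
  have hz : eC z0 z0 (xh, (0 : EE n)) = xh := eC_zero hG hxt
  have hes : ContDiffAt ℝ ∞ (eC z0 z0) (xh, (0 : EE n)) := hG.smooth z0 z0 _ (zero_mem_dom hG hxt)
  have h2 := hasDerivAt_Th_aux (Th z0 xh) (Uc W z0 y0) (eC z0 z0) xh yh a b
    ((contDiffAt_Th hG hxt).differentiableAt (by simp))
    (hes.differentiableAt (by simp)) hz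
    (by rw [fderiv_eC_zero hG hxt]; simp)
    ((h.smooth.contDiffAt (hopen.mem_nhds hq)).differentiableAt (by simp))
  rw [hUq, Th_zero hG hxt] at h2
  refine h1.unique (h2.congr_of_eventuallyEq ?_)
  -- for small `s` the formula `fderiv_FN` applies
  have hcc : ContinuousAt (fun s : ℝ => ((xh, s • a) : EE n × EE n)) 0 := by fun_prop
  have hd0 : ∀ᶠ s : ℝ in 𝓝 0, (xh, s • a) ∈ dom (n := n) z0 z0 := by
    refine hcc.eventually_mem ?_
    simpa using (isOpen_dom hG z0 z0).mem_nhds (zero_mem_dom hG hxt)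
  have hU0 : ∀ᶠ s : ℝ in 𝓝 0, eC z0 z0 (xh, s • a) ∈ chU z0 U := by
    have hc2 : ContinuousAt (fun s : ℝ => eC z0 z0 (xh, s • a)) 0 := by
      refine ContinuousAt.comp (g := eC z0 z0) ?_ hcc
      simpa using hes.continuousAt
    refine hc2.eventually_mem ?_
    simpa [hz] using (isOpen_chU h.hU h.hUs).mem_nhds hq.1
  filter_upwards [hd0, hU0] with s hs1 hs2
  rw [h.fderiv_FN hG hq (s • a) b hs1 hs2, Th_apply]

/-- **`N = B ∘ H♯`** at nonfocal velocities. -/
theorem resRel (hG : Geom n M) {x : M} {v : TangentSpace (II n) x} (hv : NF x v) {z0 y0 : M}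
    (hx : x ∈ (extChartAt (II n) z0).source)
    (hy : WeakMTW.exp x v ∈ (extChartAt (II n) y0).source) :
    ResRel (Bf x y0 v) (Nn z0 y0 x v) (Hq x v) := by
  obtain ⟨W, U, V, N, h⟩ := preBranch_in_charts hG hv hx hy
  obtain ⟨Q, hsym, hH, hform⟩ := h.second_form hG
  refine ⟨(invertible_of_nf hG hv hy).injective, Q.bilinearComp (cofr z0 x) (cofr z0 x),
    fun e e' => ?_, fun e => ?_, fun e => ?_⟩
  · simp only [ContinuousLinearMap.bilinearComp_apply]
    exact hsym _ _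
  · simp only [ContinuousLinearMap.bilinearComp_apply]
    exact hH e
  · obtain ⟨w₁, hw₁⟩ := cofr_surjective hx (fderiv ℝ (Uc W z0 y0)
      (extChartAt (II n) z0 x, extChartAt (II n) y0 (WeakMTW.exp x v)) (cofr z0 x e, 0))
    refine ⟨- Lop z0 x v e - w₁, ?_, fun e' => ?_⟩
    · have h1 := h.D1e_add hG (cofr z0 x e)
      rw [← hw₁, D2e_apply, ← Bf_eq hG v hx hy w₁] at h1
      rw [Nn_apply, map_sub, map_neg]
      have h2 : D1e z0 y0 (extChartAt (II n) z0 x, cofr z0 x v) (cofr z0 x e) = - Bf x y0 v w₁ :=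
        eq_neg_of_add_eq_zero_left h1
      rw [h2]
      abel
    · simp only [ContinuousLinearMap.bilinearComp_apply]
      rw [inner_sub_left, inner_neg_left, Lop_spec, inner_eq_gC hx w₁ e', hw₁, hform]

end

end Claimed.Agent.R213.Mid
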