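import Claimed.Agent.R213.Mid.Defs
import Claimed.Agent.R213.Geo.ChartMetric
import Claimed.Agent.R213.TMTop

/-!
# Row 213, MIDDLE layer, file M1: chart plumbing (no geodesics)

Everything here is Mathlib API work.  `tmk z0 = Geo.tinv z0`, `(chart, cofr) = Geo.tcoord`,
`gC = Geo.gChart` hold by `rfl`, so the statements of `Geo/TCoord.lean`, `Geo/ChartMetric.lean`,
`Bridge/Gram.lean`, `TMTop.lean` can be used.
-/

set_option autoImplicit false
set_option linter.unusedSectionVars false
open Claims Claims.C0370 Claims.C0370.WeakMTWGlobalSupport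
open scoped Manifold ContDiff Topology
open Set Filter Manifold Bundle

namespace Claimed.Agent.R213.Mid

noncomputable section

variable {n : ℕ} {M : Type*}
    [MetricSpace M] [ChartedSpace (WeakMTW.Model n) M]
    [IsManifold (WeakMTW.model n) ∞ M]
    [RiemannianBundle (fun x : M => TangentSpace (WeakMTW.model n) x)]
    [IsContMDiffRiemannianBundle (WeakMTW.model n) ∞ (WeakMTW.Model n)
      (fun x : M => TangentSpace (WeakMTW.model n) x)]

theorem tmk_eq_tinv (z0 : M) (p : EE n × EE n) : tmk z0 p = Geo.tinv z0 p := rfl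

theorem tcoord_mk (z0 z : M) (v : TangentSpace (II n) z) :
    Geo.tcoord z0 (mk z v) = (extChartAt (II n) z0 z, cofr z0 z v) := rfl

theorem gC_eq_gChart (z0 : M) (x u w : EE n) : gC z0 x u w = Geo.gChart z0 x u w := rfl

instance instFinDimTangent (x : M) : FiniteDimensional ℝ (TangentSpace (II n) x) :=
  inferInstanceAs (FiniteDimensional ℝ (EE n))

instance instCompleteTangent (x : M) : CompleteSpace (TangentSpace (II n) x) :=
  FiniteDimensional.complete ℝ _

theorem finrank_tangent (x : M) : Module.finrank ℝ (TangentSpace (II n) x) = n := by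
  show Module.finrank ℝ (EuclideanSpace ℝ (Fin n)) = n
  simp

theorem pt_mem_source {z0 : M} {x : EE n} (hx : x ∈ (extChartAt (II n) z0).target) :
    pt z0 x ∈ (extChartAt (II n) z0).source := by
  exact (extChartAt (II n) z0).map_target hx

theorem chart_pt {z0 : M} {x : EE n} (hx : x ∈ (extChartAt (II n) z0).target) :
    extChartAt (II n) z0 (pt z0 x) = x := by
  exact (extChartAt (II n) z0).right_inv hx

theorem pt_chart {z0 z : M} (hz : z ∈ (extChartAt (II n) z0).source) :
    pt z0 (extChartAt (II n) z0 z) = z := by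
  exact (extChartAt (II n) z0).left_inv hz

theorem cofr_fr {z0 : M} {x : EE n} (hx : x ∈ (extChartAt (II n) z0).target) (u : EE n) :
    cofr z0 (pt z0 x) (fr z0 x u) = u := by
  exact congrArg Prod.snd (Geo.tcoord_tinv (M := M) (c := z0) (q := (x, u)) hx)

theorem tmk_chart {z0 z : M} (hz : z ∈ (extChartAt (II n) z0).source)
    (v : TangentSpace (II n) z) : tmk z0 (extChartAt (II n) z0 z, cofr z0 z v) = mk z v := by
  exact Geo.tinv_tcoord (c := z0) (p := mk z v) (by rwa [extChartAt_source] at hz)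

/-- injectivity of the chart coordinates on a fibre. -/
theorem cofr_injective {z0 z : M} (hz : z ∈ (extChartAt (II n) z0).source) :
    Function.Injective (cofr (n := n) z0 z) := by
  intro v w h
  have h1 := tmk_chart hz v
  have h2 := tmk_chart hz w
  rw [h] at h1
  have h3 := h1.symm.trans h2
  exact (Bundle.TotalSpace.mk_inj (F := EE n)).1 h3

theorem cofr_surjective {z0 z : M} (hz : z ∈ (extChartAt (II n) z0).source) :
    Function.Surjective (cofr (n := n) z0 z) := by
  intro u
  have hx : extChartAt (II n) z0 z ∈ (extChartAt (II n) z0).target :=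
    (extChartAt (II n) z0).map_source hz
  have key : ∀ z' : M, z' = z → ∀ w : TangentSpace (II n) z', cofr z0 z' w = u →
      ∃ v : TangentSpace (II n) z, cofr z0 z v = u := by
    rintro _ rfl w h
    exact ⟨w, h⟩
  exact key _ (pt_chart hz) _ (cofr_fr hx u)

/-- `exp` (or any dependent function) at a point given by chart coordinates. -/
theorem exp_tmk_chart {z0 z : M} (hz : z ∈ (extChartAt (II n) z0).source)
    (v : TangentSpace (II n) z) :
    WeakMTW.exp (n := n) (pt z0 (extChartAt (II n) z0 z))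
      (fr z0 (extChartAt (II n) z0 z) (cofr z0 z v)) = WeakMTW.exp z v := by
  exact congrArg (fun p : TangentBundle (II n) M => WeakMTW.exp (n := n) p.1 p.2) (tmk_chart hz v)

theorem isOpen_chU {z0 : M} {U : Set M} (hU : IsOpen U)
    (hUs : U ⊆ (extChartAt (II n) z0).source) : IsOpen (chU (n := n) z0 U) := by
  have h : chU (n := n) z0 U = (extChartAt (II n) z0).target ∩ (extChartAt (II n) z0).symm ⁻¹' U :=
    (extChartAt (II n) z0).image_eq_target_inter_inv_preimage hUs
  rw [h]
  exact (continuousOn_extChartAt_symm z0).isOpen_inter_preimage (isOpen_extChartAt_target z0) hU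

theorem chU_subset_target {z0 : M} {U : Set M}
    (hUs : U ⊆ (extChartAt (II n) z0).source) : chU (n := n) z0 U ⊆ (extChartAt (II n) z0).target := by
  rintro _ ⟨z, hz, rfl⟩
  exact (extChartAt (II n) z0).map_source (hUs hz)

theorem pt_mem_of_mem_chU {z0 : M} {U : Set M} (hUs : U ⊆ (extChartAt (II n) z0).source)
    {x : EE n} (hx : x ∈ chU z0 U) : pt z0 x ∈ U := by
  obtain ⟨z, hz, rfl⟩ := hx
  rw [pt_chart (hUs hz)]
  exact hz

theorem continuousOn_pt (z0 : M) : ContinuousOn (pt z0) (extChartAt (II n) z0).target := by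
  exact continuousOn_extChartAt_symm z0

/-- convergence in `TM` is convergence in coordinates. -/
theorem tendsto_mk_iff {ι : Type*} {l : Filter ι} {x : ι → M}
    {v : ∀ i, TangentSpace (II n) (x i)} {z0 z : M} {w : TangentSpace (II n) z}
    (hz : z ∈ (extChartAt (II n) z0).source) :
    Tendsto (fun i => mk (x i) (v i)) l (𝓝 (mk z w)) ↔
      Tendsto x l (𝓝 z) ∧ Tendsto (fun i => cofr z0 (x i) (v i)) l (𝓝 (cofr z0 z w)) := by
  have hz' : z ∈ (chartAt (EE n) z0).source := by rwa [extChartAt_source] at hz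
  rw [Geo.tendsto_tm_iff (P := fun i => mk (x i) (v i)) (p := mk z w) z0 hz']
  constructor
  · rintro ⟨h1, h2⟩
    exact ⟨h1, (continuous_snd.tendsto _).comp h2⟩
  · rintro ⟨h1, h2⟩
    refine ⟨h1, ?_⟩
    have h3 : Tendsto (fun i => extChartAt (II n) z0 (x i)) l (𝓝 (extChartAt (II n) z0 z)) :=
      ((continuousAt_extChartAt' hz).tendsto).comp h1
    exact h3.prodMk_nhds h2

theorem continuousOn_tmk (z0 : M) :
    ContinuousOn (tmk z0) ((extChartAt (II n) z0).target ×ˢ (univ : Set (EE n))) := by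
  have h := (Geo.contMDiffOn_tinv (M := M) (n := n) z0).continuousOn
  refine h.mono ?_
  intro q hq
  exact hq.1

/-- neighbourhoods in `TM` through coordinates. -/
theorem mem_nhds_mk_iff {z0 z : M} (hz : z ∈ (extChartAt (II n) z0).source)
    (w : TangentSpace (II n) z) (N : Set (TangentBundle (II n) M)) :
    N ∈ 𝓝 (mk z w) ↔ (tmk z0) ⁻¹' N ∈ 𝓝 (extChartAt (II n) z0 z, cofr z0 z w) := by
  have hz' : z ∈ (chartAt (EE n) z0).source := by rwa [extChartAt_source] at hz
  have hq : extChartAt (II n) z0 z ∈ (extChartAt (II n) z0).target :=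
    (extChartAt (II n) z0).map_source hz
  constructor
  · intro hN
    have hc : ContinuousAt (tmk z0) (extChartAt (II n) z0 z, cofr z0 z w) :=
      (Geo.contMDiffOn_tinv (M := M) (n := n) z0).continuousOn.continuousAt
        ((Geo.isOpen_ttarget z0).mem_nhds hq)
    have hc' := hc.tendsto
    rw [tmk_chart hz w] at hc'
    exact hc' hN
  · intro hN
    have hc : ContinuousAt (Geo.tcoord z0) (mk z w) :=
      (Geo.contMDiffOn_tcoord (n := n) z0).continuousOn.continuousAt
        ((Geo.isOpen_tsource z0).mem_nhds hz')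
    have h1 : Geo.tcoord z0 ⁻¹' ((tmk z0) ⁻¹' N) ∈ 𝓝 (mk z w) := hc.tendsto hN
    have h2 : {p : TangentBundle (II n) M | p.1 ∈ (chartAt (EE n) z0).source} ∈ 𝓝 (mk z w) :=
      (Geo.isOpen_tsource z0).mem_nhds hz'
    filter_upwards [h1, h2] with p hp1 hp2
    have h3 : tmk z0 (Geo.tcoord z0 p) ∈ N := hp1
    rwa [tmk_eq_tinv, Geo.tinv_tcoord hp2] at h3

/-- the image under `tmk z0` of an open subset of `target × E` is open in `TM`. -/
theorem isOpen_tmk_image {z0 : M} {S : Set (EE n × EE n)} (hS : IsOpen S)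
    (hSt : ∀ p ∈ S, p.1 ∈ (extChartAt (II n) z0).target) : IsOpen (tmk z0 '' S) := by
  have h : tmk z0 '' S =
      {p : TangentBundle (II n) M | p.1 ∈ (chartAt (EE n) z0).source} ∩ Geo.tcoord z0 ⁻¹' S := by
    ext p
    constructor
    · rintro ⟨q, hq, rfl⟩
      have hq1 := hSt q hq
      refine ⟨?_, ?_⟩
      · have := (extChartAt (II n) z0).map_target hq1
        rwa [extChartAt_source] at this
      · show Geo.tcoord z0 (tmk z0 q) ∈ S
        rw [tmk_eq_tinv, Geo.tcoord_tinv hq1]
        exact hq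
    · rintro ⟨hp1, hp2⟩
      exact ⟨Geo.tcoord z0 p, hp2, Geo.tinv_tcoord hp1⟩
  rw [h]
  exact (Geo.contMDiffOn_tcoord (n := n) z0).continuousOn.isOpen_inter_preimage
    (Geo.isOpen_tsource z0) hS

theorem gC_symm (z0 : M) (x u w : EE n) : gC z0 x u w = gC z0 x w u := by
  exact real_inner_comm _ _

theorem gC_self (z0 : M) (x u : EE n) : gC z0 x u u = ‖fr z0 x u‖ ^ 2 := by
  exact real_inner_self_eq_norm_sq _

theorem gC_pos {z0 : M} {x u : EE n} (hx : x ∈ (extChartAt (II n) z0).target) (hu : u ≠ 0) :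
    0 < gC z0 x u u := by
  exact Geo.gChart_pos hx hu

theorem inner_eq_gC {z0 z : M} (hz : z ∈ (extChartAt (II n) z0).source)
    (v w : TangentSpace (II n) z) :
    inner ℝ v w = gC z0 (extChartAt (II n) z0 z) (cofr z0 z v) (cofr z0 z w) := by
  exact Geo.inner_eq_gChart (by rwa [extChartAt_source] at hz) v w

theorem norm_sq_eq_gC {z0 z : M} (hz : z ∈ (extChartAt (II n) z0).source)
    (v : TangentSpace (II n) z) :
    ‖v‖ ^ 2 = gC z0 (extChartAt (II n) z0 z) (cofr z0 z v) (cofr z0 z v) := by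
  rw [← inner_eq_gC hz, real_inner_self_eq_norm_sq]

theorem contDiffOn_gChart' (z0 : M) :
    ContDiffOn ℝ ∞ (Geo.gChart z0) (extChartAt (II n) z0).target := by
  exact Geo.contDiffOn_gChart z0

/-- locally uniform equivalence of the Riemannian norm and the chart norm. -/
theorem exists_norm_bounds {z0 : M} {x0 : EE n} (hx0 : x0 ∈ (extChartAt (II n) z0).target) :
    ∃ c C : ℝ, 0 < c ∧ 0 < C ∧ ∀ᶠ x in 𝓝 x0, ∀ u : EE n,
      c * ‖u‖ ≤ ‖fr z0 x u‖ ∧ ‖fr z0 x u‖ ≤ C * ‖u‖ := by
  obtain ⟨ρ, hρ, hball⟩ := Metric.isOpen_iff.1 (isOpen_extChartAt_target (I := II n) z0) x0 hx0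
  have hK : Metric.closedBall x0 (ρ / 2) ⊆ (extChartAt (II n) z0).target :=
    (Metric.closedBall_subset_ball (by linarith)).trans hball
  obtain ⟨m, Mx, hm, hb⟩ := Geo.cm_bounds_of_compact (γ := Geo.gChart z0)
    (isCompact_closedBall x0 (ρ / 2))
    ((Geo.contDiffOn_gChart z0).continuousOn.mono hK) (fun u hu a ha => Geo.gChart_pos (hK hu) ha)
  refine ⟨Real.sqrt m, Real.sqrt (max Mx 1), Real.sqrt_pos.2 hm,
    Real.sqrt_pos.2 (lt_of_lt_of_le one_pos (le_max_right _ _)), ?_⟩
  filter_upwards [Metric.closedBall_mem_nhds x0 (half_pos hρ)] with x hx u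
  have h1 := hb x hx u
  have h2 : Geo.gChart z0 x u u = ‖fr z0 x u‖ ^ 2 := gC_self z0 x u
  rw [h2] at h1
  constructor
  · apply abs_le_of_sq_le_sq' _ (norm_nonneg _) |>.2
    rw [mul_pow, Real.sq_sqrt hm.le]
    exact h1.1
  · apply abs_le_of_sq_le_sq' _ (by positivity) |>.2
    rw [mul_pow, Real.sq_sqrt (le_trans zero_le_one (le_max_right _ _))]
    exact h1.2.trans (mul_le_mul_of_nonneg_right (le_max_left _ _) (sq_nonneg _))

/-- a curve in `M` read in a chart: velocity. -/
theorem hasDerivAt_chart_curve {z0 : M} {γ : ℝ → M} {t : ℝ}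
    (hγ : MDifferentiableAt 𝓘(ℝ, ℝ) (II n) γ t)
    (ht : γ t ∈ (extChartAt (II n) z0).source) :
    HasDerivAt (fun s => extChartAt (II n) z0 (γ s))
      (cofr z0 (γ t) (mfderiv 𝓘(ℝ, ℝ) (II n) γ t (1 : ℝ))) t := by
  exact Geo.tcoord_mfderiv_curve hγ (by rwa [extChartAt_source] at ht)

/-- change of the target chart is smooth. -/
theorem contDiffAt_chart_change {y0 y1 y : M} (h0 : y ∈ (extChartAt (II n) y0).source)
    (h1 : y ∈ (extChartAt (II n) y1).source) :
    ContDiffAt ℝ ∞ (fun a : EE n => extChartAt (II n) y1 (pt y0 a)) (extChartAt (II n) y0 y) := by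
  have h := contDiffWithinAt_ext_coord_change (I := II n) (n := ∞) y1 y0
    (y := extChartAt (II n) y0 y) (by
      rw [PartialEquiv.trans_source, PartialEquiv.symm_source]
      refine ⟨(extChartAt (II n) y0).map_source h0, ?_⟩
      show (extChartAt (II n) y0).symm (extChartAt (II n) y0 y) ∈ (extChartAt (II n) y1).source
      rw [(extChartAt (II n) y0).left_inv h0]
      exact h1)
  rw [ModelWithCorners.range_eq_univ, contDiffWithinAt_univ] at h
  exact h

end

end Claimed.Agent.R213.Mid
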