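import Claimed.Agent.R213.Mid.Branch
import Claimed.Agent.R213.SoftSemi

/-!
# Row 213, MIDDLE layer, file M8: uniform semiconcavity of the cost (for `NF`, `Hq`)

This is `semiconcave_of_core` of `R213/SoftSemi.lean` (helper606), which takes a whole `SoftCore NF H` as
hypothesis but only uses a few fields.  We need it BEFORE `focal` is known, so the proofs are repeated here
with the named theorems of MIDDLE instead of the fields.
-/

set_option autoImplicit false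
set_option linter.unusedSectionVars false
open Claims Claims.C0370 Claims.C0370.WeakMTWGlobalSupport
open scoped Manifold ContDiff Topology
open Set Filter Manifold Bundle

namespace Claimed.Agent.R213.Mid

noncomputable section

variable {n : ℕ} {M : Type*}
    [MetricSpace M] [ChartedSpace (WeakMTW.Model n) M]
    [IsManifold (WeakMTW.model n) ∞ M]
    [RiemannianBundle (fun x : M => TangentSpace (WeakMTW.model n) x)]
    [IsContMDiffRiemannianBundle (WeakMTW.model n) ∞ (WeakMTW.Model n)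
      (fun x : M => TangentSpace (WeakMTW.model n) x)]
    [IsRiemannianManifold (WeakMTW.model n) M]

/-- pointwise estimate through the midpoint and a branch of the cost. -/
theorem semi_point (hG : Geom n M) {xl : M}
    {u : TangentSpace (WeakMTW.model n) xl}
    {W : ∀ x' : M, M → TangentSpace (WeakMTW.model n) x'}
    {U U₀ V : Set M} {N : Set (TangentBundle (WeakMTW.model n) M)} {C r : ℝ}
    (hB : IsBranch Hq xl u W U U₀ V N C r)
    (x : M) (v e : TangentSpace (WeakMTW.model n) x) (hv : v ∈ Ibar x)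
    (hN : mk x ((1 / 2 : ℝ) • v) ∈ N) (he : ‖e‖ < r) :
    cst (WeakMTW.exp x e) (WeakMTW.exp x v) ≤ cst x (WeakMTW.exp x v) - inner ℝ v e
      + Hq x ((1 / 2 : ℝ) • v) e + 2 * C * ‖e‖ ^ 3 := by
  obtain ⟨hxU, hmV, hW⟩ := hB.W_exp _ hN
  have hxU' : x ∈ U₀ := hxU
  have hmV' : WeakMTW.exp x ((1 / 2 : ℝ) • v) ∈ V := hmV
  have hW' : W x (WeakMTW.exp x ((1 / 2 : ℝ) • v)) = (1 / 2 : ℝ) • v := hW
  obtain ⟨hxe, hT⟩ := hB.taylor x hxU' _ hmV' e he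
  rw [hW'] at hT
  have h1 := hB.exp_W _ hxe _ hmV'
  have h2 := dist_exp_le hG (WeakMTW.exp x e) (W (WeakMTW.exp x e) (WeakMTW.exp x ((1 / 2 : ℝ) • v)))
  rw [h1] at h2
  have h3 := ray hG x v hv (1 / 2) 1 (by norm_num) (by norm_num) le_rfl
  rw [one_smul] at h3
  have h4 : dist x (WeakMTW.exp x v) = ‖v‖ := hv
  have h5 := dist_triangle (WeakMTW.exp x e) (WeakMTW.exp x ((1 / 2 : ℝ) • v)) (WeakMTW.exp x v)
  have h6 : ‖(1 / 2 : ℝ) • v‖ = 1 / 2 * ‖v‖ := by rw [norm_smul]; norm_num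
  have h7 : inner ℝ ((1 / 2 : ℝ) • v) e = 1 / 2 * inner ℝ v e := by
    rw [real_inner_smul_left]
  rw [h6, h7] at hT
  have hT' := (abs_le.mp hT).2
  unfold cst
  rw [h4]
  set a := dist (WeakMTW.exp x e) (WeakMTW.exp x ((1 / 2 : ℝ) • v))
  set w := ‖W (WeakMTW.exp x e) (WeakMTW.exp x ((1 / 2 : ℝ) • v))‖
  set d := dist (WeakMTW.exp x e) (WeakMTW.exp x v)
  have ha : 0 ≤ a := dist_nonneg
  have hd : 0 ≤ d := dist_nonneg
  have hvn : 0 ≤ ‖v‖ := norm_nonneg v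
  have h8 : d ≤ a + 1 / 2 * ‖v‖ := by rw [h3] at h5; linarith
  have h9 : d ^ 2 ≤ (a + 1 / 2 * ‖v‖) ^ 2 := by gcongr
  have h10 : a ^ 2 ≤ w ^ 2 := by gcongr
  nlinarith [sq_nonneg (a - 1 / 2 * ‖v‖)]

/-- sequential version: along a convergent sequence the second order defect is bounded. -/
theorem semi_seq (hG : Geom n M)
    (hnf : ∀ (x : M) (v : TangentSpace (II n) x), v ∈ WeakMTW.injectivityDomain x → NF x v)
    (x : ℕ → M) (xl : M)
    (v e : ∀ k, TangentSpace (WeakMTW.model n) (x k))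
    (vl el : TangentSpace (WeakMTW.model n) xl)
    (hv : ∀ k, v k ∈ Ibar (x k))
    (hvl : Tendsto (fun k => mk (x k) (v k)) atTop (𝓝 (mk xl vl)))
    (he0 : Tendsto (fun k => ‖e k‖) atTop (𝓝 0))
    (hel : Tendsto (fun k => mk (x k) ((‖e k‖)⁻¹ • e k)) atTop (𝓝 (mk xl el))) :
    ∃ B : ℝ, ∀ᶠ k in atTop, cst (WeakMTW.exp (x k) (e k)) (WeakMTW.exp (x k) (v k)) ≤
      cst (x k) (WeakMTW.exp (x k) (v k)) - inner ℝ (v k) (e k) + B * ‖e k‖ ^ 2 := by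
  have hproj : Continuous (fun p : TangentBundle (WeakMTW.model n) M => p.1) :=
    FiberBundle.continuous_proj (WeakMTW.Model n) _
  have hcl : IsClosed {p : TangentBundle (WeakMTW.model n) M |
      dist p.1 (WeakMTW.exp p.1 p.2) = ‖p.2‖} :=
    isClosed_eq (hproj.dist hG.cont_exp) tm_cont_norm
  have hvlI : vl ∈ Ibar xl := hcl.mem_of_tendsto hvl (Eventually.of_forall hv)
  have hu : (1 / 2 : ℝ) • vl ∈ WeakMTW.injectivityDomain xl := by
    refine ⟨2, by norm_num, ?_⟩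
    have h1 : (2 : ℝ) • (1 / 2 : ℝ) • vl = vl := by rw [smul_smul]; norm_num
    have h2 : ‖(1 / 2 : ℝ) • vl‖ = 1 / 2 * ‖vl‖ := by rw [norm_smul]; norm_num
    rw [h1, h2]
    have h3 : dist xl (WeakMTW.exp xl vl) = ‖vl‖ := hvlI
    rw [h3]; ring
  have hNF := hnf xl _ hu
  obtain ⟨W, U, U₀, V, N, C, r, hB⟩ := branch hG xl _ hNF
  have hhalf : Tendsto (fun k => mk (x k) ((1 / 2 : ℝ) • v k)) atTop
      (𝓝 (mk xl ((1 / 2 : ℝ) • vl))) := by
    have := tm_lin x xl v v vl vl (fun _ => 1 / 2) (fun _ => 0) (1 / 2) 0 hvl hvl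
      tendsto_const_nhds tendsto_const_nhds
    simpa using this
  have hHl := cont_Hq hG x xl (fun k => (1 / 2 : ℝ) • v k) (fun k => (‖e k‖)⁻¹ • e k) _ el
    hNF hhalf hel
  refine ⟨Hq xl ((1 / 2 : ℝ) • vl) el + 1 + 2 * |C|, ?_⟩
  have e1 : ∀ᶠ k in atTop, mk (x k) ((1 / 2 : ℝ) • v k) ∈ N := hhalf hB.hN
  have e2 : ∀ᶠ k in atTop, ‖e k‖ < r := he0.eventually_lt_const hB.hr
  have e3 : ∀ᶠ k in atTop, ‖e k‖ < 1 := he0.eventually_lt_const one_pos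
  have e4 : ∀ᶠ k in atTop, Hq (x k) ((1 / 2 : ℝ) • v k) ((‖e k‖)⁻¹ • e k)
      < Hq xl ((1 / 2 : ℝ) • vl) el + 1 := hHl.eventually_lt_const (by linarith)
  filter_upwards [e1, e2, e3, e4] with k h1 h2 h3 h4
  have hp := semi_point hG hB (x k) (v k) (e k) (hv k) h1 h2
  obtain ⟨hxU, hmV, hW⟩ := hB.W_exp _ h1
  have hxU' : x k ∈ U₀ := hxU
  have hmV' : WeakMTW.exp (x k) ((1 / 2 : ℝ) • v k) ∈ V := hmV
  have hW' : W (x k) (WeakMTW.exp (x k) ((1 / 2 : ℝ) • v k)) = (1 / 2 : ℝ) • v k := hW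
  have hhom := hB.hom (x k) (hB.hUU hxU') _ hmV' ((‖e k‖)⁻¹ • e k) ‖e k‖
  rw [hW'] at hhom
  have hee : ‖e k‖ • ((‖e k‖)⁻¹ • e k) = e k := by
    by_cases h0 : ‖e k‖ = 0
    · have : e k = 0 := norm_eq_zero.mp h0
      rw [this]; simp
    · rw [smul_smul, mul_inv_cancel₀ h0, one_smul]
  rw [hee] at hhom
  rw [hhom] at hp
  have hn : 0 ≤ ‖e k‖ := norm_nonneg _
  have hsq : 0 ≤ ‖e k‖ ^ 2 := by positivity
  have h5 : ‖e k‖ ^ 2 * Hq (x k) ((1 / 2 : ℝ) • v k) ((‖e k‖)⁻¹ • e k)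
      ≤ ‖e k‖ ^ 2 * (Hq xl ((1 / 2 : ℝ) • vl) el + 1) :=
    mul_le_mul_of_nonneg_left h4.le hsq
  have h6 : ‖e k‖ ^ 3 ≤ ‖e k‖ ^ 2 := by
    have : ‖e k‖ ^ 3 = ‖e k‖ ^ 2 * ‖e k‖ := by ring
    rw [this]
    exact mul_le_of_le_one_right hsq h3.le
  have h7 : C * ‖e k‖ ^ 3 ≤ |C| * ‖e k‖ ^ 2 :=
    (mul_le_mul_of_nonneg_right (le_abs_self C) (by positivity)).trans
      (mul_le_mul_of_nonneg_left h6 (abs_nonneg C))
  nlinarith

/-- uniform semiconcavity of the cost. -/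
theorem semiconcave [CompactSpace M] (hG : Geom n M)
    (hnf : ∀ (x : M) (v : TangentSpace (II n) x), v ∈ WeakMTW.injectivityDomain x → NF x v) :
    ∃ C r : ℝ, 0 < r ∧ ∀ (x y : M) (v : TangentSpace (WeakMTW.model n) x),
      v ∈ Vmin x y → ∀ e : TangentSpace (WeakMTW.model n) x, ‖e‖ < r →
        cst (WeakMTW.exp x e) y ≤ cst x y - inner ℝ v e + C * ‖e‖ ^ 2 := by
  by_contra hcon
  push Not at hcon
  have hk : ∀ k : ℕ, ∃ (x y : M) (v : TangentSpace (WeakMTW.model n) x), v ∈ Vmin x y ∧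
      ∃ e : TangentSpace (WeakMTW.model n) x, ‖e‖ < 1 / ((k : ℝ) + 1) ∧
        cst x y - inner ℝ v e + (k : ℝ) * ‖e‖ ^ 2 < cst (WeakMTW.exp x e) y :=
    fun k => hcon k (1 / ((k : ℝ) + 1)) (by positivity)
  choose x y v hv e he hlt using hk
  obtain ⟨xl, -, φ1, hφ1, hx1⟩ := isCompact_univ.tendsto_subseq (x := x) (fun k => mem_univ _)
  have hbd : ∀ k, ‖v k‖ ≤ Metric.diam (univ : Set M) := fun k => by
    rw [(hv k).2]
    exact Metric.dist_le_diam_of_mem isCompact_univ.isBounded (mem_univ _) (mem_univ _)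
  obtain ⟨vl, φ2, hφ2, hv2⟩ := tm_cpt (fun k => x (φ1 k)) xl (fun k => v (φ1 k)) _ hx1
    (fun k => hbd _)
  have hx2 : Tendsto (fun k => x (φ1 (φ2 k))) atTop (𝓝 xl) := hx1.comp hφ2.tendsto_atTop
  obtain ⟨el, φ3, hφ3, he3⟩ := tm_cpt (fun k => x (φ1 (φ2 k))) xl
    (fun k => (‖e (φ1 (φ2 k))‖)⁻¹ • e (φ1 (φ2 k))) 1 hx2 (fun k => by
      rw [norm_smul, norm_inv, norm_norm]; exact inv_mul_le_one)
  have hψ : StrictMono (fun k => φ1 (φ2 (φ3 k))) := hφ1.comp (hφ2.comp hφ3)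
  have hv3 : Tendsto (fun k => mk (x (φ1 (φ2 (φ3 k)))) (v (φ1 (φ2 (φ3 k))))) atTop
      (𝓝 (mk xl vl)) := hv2.comp hφ3.tendsto_atTop
  have he0 : Tendsto (fun k => ‖e k‖) atTop (𝓝 0) :=
    squeeze_zero (fun k => norm_nonneg _) (fun k => (he k).le)
      tendsto_one_div_add_atTop_nhds_zero_nat
  have he0' : Tendsto (fun k => ‖e (φ1 (φ2 (φ3 k)))‖) atTop (𝓝 0) :=
    he0.comp hψ.tendsto_atTop
  obtain ⟨B, hB⟩ := semi_seq hG hnf (fun k => x (φ1 (φ2 (φ3 k)))) xl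
    (fun k => v (φ1 (φ2 (φ3 k)))) (fun k => e (φ1 (φ2 (φ3 k)))) vl el
    (fun k => by
      show dist _ _ = _
      rw [(hv _).1, (hv _).2]) hv3 he0' he3
  have hbig : ∀ᶠ k : ℕ in atTop, B ≤ ((φ1 (φ2 (φ3 k)) : ℕ) : ℝ) :=
    (tendsto_natCast_atTop_atTop.comp hψ.tendsto_atTop).eventually_ge_atTop B
  obtain ⟨k, hk1, hk2⟩ := (hB.and hbig).exists
  have h1 := hlt (φ1 (φ2 (φ3 k)))
  rw [(hv _).1] at hk1
  have hsq : 0 ≤ ‖e (φ1 (φ2 (φ3 k)))‖ ^ 2 := by positivity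
  have h2 := mul_le_mul_of_nonneg_right hk2 hsq
  linarith

end

end Claimed.Agent.R213.Mid
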